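import Vale.Agent.P292Z.Fano
import Mathlib.Algebra.Lie.CartanCriterion

/-!
# The Lie algebra of sections of the contact line bundle
-/

open AlgebraicGeometry CategoryTheory TopologicalSpace Opposite Polynomial

namespace Vale.Agent.P292Z

section Lie

variable {g : Type} [LieRing g] [LieAlgebra ℂ g] [FiniteDimensional ℂ g] [LieAlgebra.IsSimple ℂ g]

variable (g) in
theorem kil_nondeg : (killingForm ℂ g).Nondegenerate :=
  LieAlgebra.IsKilling.killingForm_nondegenerate ℂ g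

variable (g) in
/-- The basis dual to the coordinate basis for the Killing form. -/
noncomputable def dualB : Module.Basis (Fin (Module.finrank ℂ g)) ℂ g :=
  (killingForm ℂ g).dualBasis (kil_nondeg g) (Module.finBasis ℂ g)

theorem kil_dualB (i : Fin (Module.finrank ℂ g)) (z : g) :
    killingForm ℂ g (dualB g i) z = coord z i := by
  have h : killingForm ℂ g (dualB g i) = (Module.finBasis ℂ g).coord i := by
    refine (Module.finBasis ℂ g).ext fun j => ?_
    rw [dualB, LinearMap.BilinForm.apply_dualBasis_left, Module.Basis.coord_apply,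
      Module.Basis.repr_self, Finsupp.single_apply]
  rw [h]
  rfl

omit [FiniteDimensional ℂ g] [LieAlgebra.IsSimple ℂ g] in
theorem kil_comm (a b : g) : killingForm ℂ g a b = killingForm ℂ g b a :=
  LieModule.traceForm_comm ℂ g g a b

omit [FiniteDimensional ℂ g] [LieAlgebra.IsSimple ℂ g] in
theorem kil_lie (a b c : g) : killingForm ℂ g ⁅a, b⁆ c = killingForm ℂ g a ⁅b, c⁆ :=
  LieModule.traceForm_apply_lie_apply ℂ g g a b c

theorem exists_kil (l : g →ₗ[ℂ] ℂ) : ∃ z : g, ∀ a, l a = killingForm ℂ g a z :=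
  ⟨((killingForm ℂ g).toDual (kil_nondeg g)).symm l, fun a => by
    rw [kil_comm, LinearMap.BilinForm.apply_toDual_symm_apply]⟩

theorem eq_of_kil {z z' : g} (h : ∀ a, killingForm ℂ g a z = killingForm ℂ g a z') : z = z' := by
  rw [← sub_eq_zero]
  refine (kil_nondeg g).1 _ fun a => ?_
  rw [kil_comm, map_sub, h, sub_self]

omit [FiniteDimensional ℂ g] [LieAlgebra.IsSimple ℂ g] in
theorem kil_eq_zero_of_horizontal {z a b : g} (ha : ⁅a, z⁆ = z) :
    killingForm ℂ g z ⁅a, b⁆ = -killingForm ℂ g b z := by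
  rw [← kil_lie, ← lie_skew z a, ha, map_neg, LinearMap.neg_apply, kil_comm]

end Lie

variable {Z : Scheme.{0}} [IsIntegral Z] [Z.Over SpecC] {F : Distribution Z} {d : ℕ}

namespace Atlas

variable {A : Atlas F d}
variable {g : Type} [LieRing g] [LieAlgebra ℂ g] [FiniteDimensional ℂ g] [LieAlgebra.IsSimple ℂ g]

/-- `φ` identifies `g` with the Lie algebra of sections of `L`, which generate the section
ring. -/
structure IsLie (P : A.R →ₗ[ℂ] A.R →ₗ[ℂ] A.R) (φ : g →ₗ[ℂ] A.R) : Prop where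
  range : LinearMap.range φ = A.grade 1
  lie : ∀ x y : g, φ ⁅x, y⁆ = P (φ x) (φ y)
  adjoin : Algebra.adjoin ℂ (A.grade 1 : Set A.R) = ⊤

/-- The section given by a coordinate. -/
noncomputable def sg (φ : g →ₗ[ℂ] A.R) (i : Fin (Module.finrank ℂ g)) : K Z :=
  (φ (dualB g i)).1.coeff 1

/-- The element of the section ring given by a polynomial. -/
noncomputable def Psi (φ : g →ₗ[ℂ] A.R) : MvPolynomial (Fin (Module.finrank ℂ g)) ℂ →ₐ[ℂ] A.R :=
  MvPolynomial.aeval fun i => φ (dualB g i)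

/-- The section given by a form. -/
noncomputable def Phi (φ : g →ₗ[ℂ] A.R) : MvPolynomial (Fin (Module.finrank ℂ g)) ℂ →ₐ[ℂ] K Z :=
  MvPolynomial.aeval (sg φ)

variable {P : A.R →ₗ[ℂ] A.R →ₗ[ℂ] A.R} {φ : g →ₗ[ℂ] A.R}

theorem secAt_sg (i : Fin (Module.finrank ℂ g)) (x : Z) : A.SecAt 1 (sg φ i) x :=
  secAt_coeff _ 1 x

theorem Phi_X (i : Fin (Module.finrank ℂ g)) : Phi φ (MvPolynomial.X i) = sg φ i :=
  MvPolynomial.aeval_X _ i

omit [FiniteDimensional ℂ g] [LieAlgebra.IsSimple ℂ g] in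
theorem IsLie.mem (hφ : IsLie P φ) (a : g) : φ a ∈ A.grade 1 := hφ.range ▸ ⟨a, rfl⟩

theorem IsLie.coe_eq (hφ : IsLie P φ) (i : Fin (Module.finrank ℂ g)) :
    (φ (dualB g i)).1 = monomial 1 (sg φ i) := eq_monomial (hφ.mem _)

theorem IsLie.coe_Psi (hφ : IsLie P φ) {k : ℕ} {G : MvPolynomial (Fin (Module.finrank ℂ g)) ℂ}
    (hG : G ∈ forms g k) : (Psi φ G).1 = monomial k (Phi φ G) := by
  have h1 : ∀ (s : Finset (Fin (Module.finrank ℂ g))) (m : Fin (Module.finrank ℂ g) → ℕ),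
      ∏ i ∈ s, monomial 1 (sg φ i) ^ m i = monomial (∑ i ∈ s, m i) (∏ i ∈ s, sg φ i ^ m i) := by
    intro s m
    induction s using Finset.induction_on with
    | empty => simp
    | insert a s ha ih =>
      rw [Finset.prod_insert ha, Finset.prod_insert ha, Finset.sum_insert ha, ih, monomial_pow,
        monomial_mul_monomial, one_mul]
  rw [G.as_sum, map_sum, map_sum, map_sum, AddSubmonoidClass.coe_finsetSum]
  refine Finset.sum_congr rfl fun m hm => ?_
  rw [Psi, Phi, MvPolynomial.aeval_monomial, MvPolynomial.aeval_monomial, MulMemClass.coe_mul,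
    Finsupp.prod, Finsupp.prod, SubmonoidClass.coe_finsetProd, ← C_mul_monomial,
    MvPolynomial.IsHomogeneous.degree_eq_sum_deg_support hG hm, ← h1]
  simp only [SubmonoidClass.coe_pow, hφ.coe_eq]
  rfl

theorem IsLie.secAt_Phi (hφ : IsLie P φ) (k : ℕ) (G : MvPolynomial (Fin (Module.finrank ℂ g)) ℂ)
    (hG : G ∈ forms g k) (x : Z) : A.SecAt k (Phi φ G) x := by
  have h := secAt_coeff (Psi φ G) k x
  rwa [hφ.coe_Psi hG, coeff_monomial_same] at h

theorem IsLie.Psi_surjective (hφ : IsLie P φ) : Function.Surjective (Psi φ) := by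
  rw [← AlgHom.range_eq_top, eq_top_iff, ← hφ.adjoin]
  refine Algebra.adjoin_le fun r hr => ?_
  obtain ⟨a, rfl⟩ : r ∈ LinearMap.range φ := hφ.range ▸ hr
  rw [← (dualB g).sum_repr a, map_sum]
  refine sum_mem fun i _ => ?_
  rw [map_smul]
  exact Subalgebra.smul_mem _ ((AlgHom.mem_range _).2
    ⟨MvPolynomial.X i, MvPolynomial.aeval_X _ i⟩) _

theorem IsLie.surj (hφ : IsLie P φ) (k : ℕ) (f : K Z) (hf : ∀ x, A.SecAt k f x) :
    ∃ G ∈ forms g k, Phi φ G = f := by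
  obtain ⟨G, hG⟩ := hφ.Psi_surjective (mono hf)
  refine ⟨MvPolynomial.homogeneousComponent k G, MvPolynomial.homogeneousComponent_mem k G, ?_⟩
  have h1 : (Psi φ G).1.coeff k = f := by
    rw [hG]
    exact coeff_monomial_same k f
  rw [← h1]
  conv_rhs => rw [← G.sum_homogeneousComponent, map_sum, AddSubmonoidClass.coe_finsetSum,
    finsetSum_coeff]
  simp only [hφ.coe_Psi (MvPolynomial.homogeneousComponent_mem _ G), coeff_monomial]
  rw [Finset.sum_ite_eq']
  split_ifs with h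
  · rfl
  · rw [MvPolynomial.homogeneousComponent_eq_zero _ _ (by simpa using h), map_zero]

namespace Pt

variable (y : A.Pt)

theorem p_Psi {z : g} (hz : ∀ a, y.p (φ a) = killingForm ℂ g a z)
    (G : MvPolynomial (Fin (Module.finrank ℂ g)) ℂ) :
    y.p (Psi φ G) = MvPolynomial.eval (coord z) G := by
  have h : y.p.comp (Psi φ) = MvPolynomial.aeval (coord z) := by
    refine MvPolynomial.algHom_ext fun i => ?_
    rw [AlgHom.comp_apply, Psi, MvPolynomial.aeval_X, MvPolynomial.aeval_X, hz, kil_dualB]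
  exact congrArg (fun f => f G) h

theorem genAt_Phi (hφ : IsLie P φ) {z : g} (hz : ∀ a, y.p (φ a) = killingForm ℂ g a z) {k : ℕ}
    {G : MvPolynomial (Fin (Module.finrank ℂ g)) ℂ} (hG : G ∈ forms g k) :
    A.GenAt k (Phi φ G) y.x ↔ MvPolynomial.eval (coord z) G ≠ 0 := by
  rw [← y.p_Psi hz, p_apply, hφ.coe_Psi hG, y.ev_monomial_ne_zero (hφ.secAt_Phi k G hG _)]

theorem genAt_sg (hφ : IsLie P φ) {z : g} (hz : ∀ a, y.p (φ a) = killingForm ℂ g a z)
    (i : Fin (Module.finrank ℂ g)) : A.GenAt 1 (sg φ i) y.x ↔ coord z i ≠ 0 := by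
  rw [← kil_dualB, ← hz, p_apply, hφ.coe_eq, y.ev_monomial_ne_zero (secAt_sg i _)]

theorem eq_zero_of_dj_dualB [CompactSpace Z] (h : A.IsAmple) (hφ : IsLie P φ)
    {u : Fin (d + 1) → ℂ} (hu : ∀ i, y.dj u (φ (dualB g i)) = 0) : u = 0 := by
  refine y.eq_zero_of_dj h fun r => ?_
  obtain ⟨G, rfl⟩ := hφ.Psi_surjective r
  induction G using MvPolynomial.induction_on with
  | C a =>
    rw [Psi, MvPolynomial.aeval_C]
    exact y.dj_algebraMap u a
  | add p q hp hq => rw [map_add, map_add, hp, hq, add_zero]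
  | mul_X p i hp =>
    rw [map_mul, dj_mul, hp, Psi, MvPolynomial.aeval_X, hu, mul_zero, mul_zero, add_zero]

/-- The coefficients of the Hamiltonian vector of `φ b` at the point. -/
noncomputable def cb (φ : g →ₗ[ℂ] A.R) (b : g) : Fin (d + 1) → ℂ :=
  y.γ⁻¹ • Matrix.vecMul (y.jet (φ b).1) y.n

theorem dj_smul (c : ℂ) (u : Fin (d + 1) → ℂ) (r : A.R) : y.dj (c • u) r = c * y.dj u r := by
  rw [dj_apply, dj_apply, Finset.mul_sum]
  exact Finset.sum_congr rfl fun a _ => mul_assoc _ _ _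

theorem dj_sub (u v : Fin (d + 1) → ℂ) (r : A.R) : y.dj (u - v) r = y.dj u r - y.dj v r := by
  rw [dj_apply, dj_apply, dj_apply, ← Finset.sum_sub_distrib]
  exact Finset.sum_congr rfl fun a _ => sub_mul _ _ _

omit [FiniteDimensional ℂ g] [LieAlgebra.IsSimple ℂ g] in
theorem dj_cb (hP : IsBr P) (hφ : IsLie P φ) {z : g} (hz : ∀ a, y.p (φ a) = killingForm ℂ g a z)
    (b a : g) : y.dj (y.cb φ b) (φ a) = killingForm ℂ g a ⁅-b, z⁆ := by
  rw [cb, dj_smul, ← y.p_br hP, inv_mul_cancel_left₀ y.hγ, ← hφ.lie, hz, ← lie_skew, ← lie_neg,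
    kil_lie]

omit [FiniteDimensional ℂ g] [LieAlgebra.IsSimple ℂ g] in
theorem jet_zero (hφ : IsLie P φ) (a : g) : y.jet (φ a).1 0 = y.p (φ a) := by
  rw [p_apply, eq_monomial (hφ.mem a), y.jet_monomial_zero (secAt_coeff _ 1 _), Nat.cast_one,
    one_mul]

omit [FiniteDimensional ℂ g] [LieAlgebra.IsSimple ℂ g] in
theorem dj_single (hφ : IsLie P φ) (a : g) : y.dj (Pi.single 0 1) (φ a) = y.p (φ a) := by
  rw [dj_apply, Finset.sum_eq_single 0 (fun b _ hb => by simp [hb]) (by simp), y.jet_zero hφ]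
  simp

omit [FiniteDimensional ℂ g] [LieAlgebra.IsSimple ℂ g] in
theorem p_eq_cb (hφ : IsLie P φ) (b : g) :
    y.p (φ b) = -y.γ * ∑ i, y.cb φ b (Fin.succ i) * y.e.v (y.c.θ (y.c.w i)) := by
  have h1 : y.jet (φ b).1 = y.γ • Matrix.vecMul (y.cb φ b) y.m := by
    rw [cb, Matrix.smul_vecMul, smul_inv_smul₀ y.hγ, Matrix.vecMul_vecMul, n_mul_m,
      Matrix.vecMul_one]
  rw [← y.jet_zero hφ, h1, Pi.smul_apply, smul_eq_mul, Matrix.vecMul, dotProduct,
    Fin.sum_univ_succ, neg_mul, ← mul_neg, ← Finset.sum_neg_distrib]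
  simp only [m, Matrix.of_apply, cm_zero_zero, y.e.zero, mul_zero, zero_add, cm_succ_zero,
    y.e.neg (y.c.θw _ y.mem _), mul_neg]

theorem exists_cb [CompactSpace Z] (h : A.IsAmple) (hφ : IsLie P φ) (u : Fin (d + 1) → ℂ) :
    ∃ b, y.cb φ b = u := by
  let J : g →ₗ[ℂ] (Fin (d + 1) → ℂ) := LinearMap.pi fun a => (y.dj (Pi.single a 1)).comp φ
  have hJ : ∀ b, J b = y.jet (φ b).1 := by
    intro b
    funext a
    change y.dj (Pi.single a 1) (φ b) = _
    rw [dj_apply, Finset.sum_eq_single a (fun b _ hb => by simp [hb]) (by simp)]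
    simp
  have h1 : LinearMap.range J = ⊤ := by
    by_contra hcon
    obtain ⟨l, hl0, hl⟩ := Submodule.exists_le_ker_of_lt_top _ (lt_top_iff_ne_top.2 hcon)
    apply hl0
    have h2 : (fun a => l fun j => if a = j then 1 else 0) = 0 := by
      refine y.eq_zero_of_dj_dualB h hφ fun i => ?_
      have h3 : l (J (dualB g i)) = 0 := hl ⟨_, rfl⟩
      rw [LinearMap.pi_apply_eq_sum_univ, hJ] at h3
      rw [dj_apply]
      exact (Finset.sum_congr rfl fun a _ => mul_comm _ _).trans h3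
    refine LinearMap.ext fun v => ?_
    rw [LinearMap.pi_apply_eq_sum_univ]
    exact Finset.sum_eq_zero fun a _ => by rw [congrFun h2 a, Pi.zero_apply, smul_zero]
  obtain ⟨b, hb⟩ := LinearMap.range_eq_top.1 h1 (y.γ • Matrix.vecMul u y.m)
  refine ⟨b, ?_⟩
  rw [cb, ← hJ, hb, Matrix.smul_vecMul, inv_smul_smul₀ y.hγ, Matrix.vecMul_vecMul,
    mul_eq_one_comm.1 y.n_mul_m, Matrix.vecMul_one]

/-- The coefficients of a vector field at the point. -/
noncomputable def cD (D : DK Z) : Fin (d + 1) → ℂ := Fin.cons 0 fun i => y.e.v (D (y.c.t i))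

theorem v_θ {D : DK Z} (hD : Reg y.x D) :
    y.e.v (y.c.θ D) = ∑ i, y.cD D (Fin.succ i) * y.e.v (y.c.θ (y.c.w i)) := by
  conv_lhs => rw [y.c.expand D]
  have h1 := fun i => hD _ (y.c.t_mem _ y.mem i)
  simp only [map_sum, map_smul, smul_eq_mul]
  rw [y.e.sum _ fun i _ => mul_mem (h1 i) (y.c.θw _ y.mem i)]
  exact Finset.sum_congr rfl fun i _ => y.e.mul (h1 i) (y.c.θw _ y.mem i)

theorem v_D {D : DK Z} (hD : Reg y.x D) {f : K Z} (hf : f ∈ O y.x) :
    y.e.v (D f) = ∑ a, y.cD D a * y.jet (C f) a := by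
  conv_lhs => rw [y.c.expand D]
  have h1 := fun i => hD _ (y.c.t_mem _ y.mem i)
  have h2 := fun i => y.c.w_reg _ y.mem i f hf
  rw [der_sum_apply, Fin.sum_univ_succ, jet_C_zero, mul_zero, zero_add]
  simp only [Derivation.smul_apply, smul_eq_mul]
  rw [y.e.sum _ fun i _ => mul_mem (h1 i) (h2 i)]
  refine Finset.sum_congr rfl fun i _ => ?_
  rw [y.e.mul (h1 i) (h2 i), jet_C_succ]
  rfl

theorem sum_jet_ratio (hφ : IsLie P φ) {z : g} (hz : ∀ a, y.p (φ a) = killingForm ℂ g a z)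
    (u : Fin (d + 1) → ℂ) (i : Fin (Module.finrank ℂ g)) {j : Fin (Module.finrank ℂ g)}
    (hj : coord z j ≠ 0) : ∑ a, u a * y.jet (C (sg φ i / sg φ j)) a =
      (y.dj u (φ (dualB g i)) * coord z j - coord z i * y.dj u (φ (dualB g j))) / coord z j ^ 2 := by
  have h1 := (y.genAt_sg hφ hz j).2 hj
  have h2 : (φ (dualB g i)).1 = C (sg φ i / sg φ j) * (φ (dualB g j)).1 := by
    rw [hφ.coe_eq, hφ.coe_eq, C_mul_monomial, div_mul_cancel₀ _ h1.ne_zero]
  have h3 := C_mem_B (A := A) (h1.div_mem (secAt_sg (φ := φ) i y.x))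
  have h4 : y.ev (φ (dualB g j)).1 = coord z j := (hz _).trans (kil_dualB j z)
  have h5 : coord z i = y.ev (C (sg φ i / sg φ j)) * coord z j := by
    rw [← h4, ← y.ev_mul h3 (mem_B_of_R _ _), ← h2]
    exact ((hz _).trans (kil_dualB i z)).symm
  rw [dj_apply, h2, y.sum_jet_mul u h3 (mem_B_of_R _ _), h4, h5, ← dj_apply]
  field_simp
  ring

theorem exists_horizontal [CompactSpace Z] (h : A.IsAmple) (hP : IsBr P) (hφ : IsLie P φ) {z : g}
    (hz : ∀ a, y.p (φ a) = killingForm ℂ g a z) {D : DK Z} (hD : Reg y.x D)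
    (h0 : y.e.v (y.c.θ D) = 0) : ∃ u, IsHorizontal z u ∧ ∀ i j, coord z j ≠ 0 →
      y.e.v (D (sg φ i / sg φ j)) =
        (coord u i * coord z j - coord z i * coord u j) / coord z j ^ 2 := by
  obtain ⟨b, hb⟩ := y.exists_cb h hφ (y.cD D)
  obtain ⟨a, ha⟩ := y.exists_cb h hφ (Pi.single 0 1)
  have h1 : ⁅-a, z⁆ = z := eq_of_kil fun x => by
    rw [← y.dj_cb hP hφ hz, ha, y.dj_single hφ, hz]
  refine ⟨⁅-b, z⁆, ⟨-a, -b, h1, rfl, ?_⟩, fun i j hj => ?_⟩
  · rw [kil_eq_zero_of_horizontal h1, map_neg, LinearMap.neg_apply, neg_neg, ← hz, y.p_eq_cb hφ,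
      hb, ← y.v_θ hD, h0, mul_zero]
  · rw [y.v_D hD (((y.genAt_sg hφ hz j).2 hj).div_mem (secAt_sg i _)), y.sum_jet_ratio hφ hz _ i hj,
      ← hb, y.dj_cb hP hφ hz, y.dj_cb hP hφ hz, kil_dualB, kil_dualB]

theorem v_θ_eq_zero [CompactSpace Z] (h : A.IsAmple) (hP : IsBr P) (hφ : IsLie P φ) {z : g}
    (hz : ∀ a, y.p (φ a) = killingForm ℂ g a z) {D : DK Z} (hD : Reg y.x D) {u : g}
    (hu : IsHorizontal z u) {j : Fin (Module.finrank ℂ g)} (hj : coord z j ≠ 0)
    (hi : ∀ i, y.e.v (D (sg φ i / sg φ j)) =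
      (coord u i * coord z j - coord z i * coord u j) / coord z j ^ 2) :
    y.e.v (y.c.θ D) = 0 := by
  obtain ⟨a, b, ha, rfl, hab⟩ := hu
  rw [kil_eq_zero_of_horizontal ha, neg_eq_zero] at hab
  have h1 : ∀ i, y.dj (y.cb φ (-b)) (φ (dualB g i)) = coord ⁅b, z⁆ i := fun i => by
    rw [y.dj_cb hP hφ hz, neg_neg, kil_dualB]
  have h2 : ∀ i, y.dj (Pi.single 0 1) (φ (dualB g i)) = coord z i := fun i => by
    rw [y.dj_single hφ, hz, kil_dualB]
  have h3 : y.cb φ (-b) - y.cD D -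
      ((coord ⁅b, z⁆ j - y.dj (y.cD D) (φ (dualB g j))) / coord z j) • Pi.single 0 1 = 0 := by
    refine y.eq_zero_of_dj_dualB h hφ fun i => ?_
    have h4 := hi i
    rw [y.v_D hD (((y.genAt_sg hφ hz j).2 hj).div_mem (secAt_sg i _)),
      y.sum_jet_ratio hφ hz _ i hj, div_left_inj' (pow_ne_zero 2 hj)] at h4
    rw [dj_sub, dj_sub, dj_smul, h1, h2]
    field_simp
    linear_combination -h4
  have h4 : ∀ i, y.cb φ (-b) (Fin.succ i) = y.cD D (Fin.succ i) := fun i => by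
    have h5 := congrFun h3 i.succ
    simpa [sub_eq_zero] using h5
  have h5 := y.p_eq_cb hφ (-b)
  rw [hz, map_neg, LinearMap.neg_apply, hab, neg_zero] at h5
  simp only [h4] at h5
  rw [← y.v_θ hD] at h5
  exact (mul_eq_zero.1 h5.symm).resolve_left (neg_ne_zero.2 y.hγ)

end Pt

end Atlas

end Vale.Agent.P292Z
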