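import Vale.Agent.P292Z.Basic
import Mathlib.RingTheory.Etale.Kaehler
import Mathlib.RingTheory.Localization.FractionRing

/-!
# Vector fields as derivations of the function field
-/

open AlgebraicGeometry CategoryTheory TopologicalSpace Opposite

namespace Vale.Agent.P292Z

/-- Derivations extend along formally étale maps. -/
theorem exists_der_ext {k A B : Type*} [CommRing k] [CommRing A] [CommRing B] [Algebra k A]
    [Algebra k B] [Algebra A B] [IsScalarTower k A B] [Algebra.FormallyEtale A B]
    (d : Derivation k A A) :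
    ∃ D : Derivation k B B, ∀ a, D (algebraMap A B a) = algebraMap A B (d a) := by
  let d' : Derivation k A B := (Algebra.linearMap A B).compDer d
  let l : Ω[B⁄k] →ₗ[B] B := (d'.liftKaehlerDifferential.liftBaseChange B).comp
    (KaehlerDifferential.tensorKaehlerEquivOfFormallyEtale k A B).symm.toLinearMap
  refine ⟨l.compDer (KaehlerDifferential.D k B), fun a => ?_⟩
  change (d'.liftKaehlerDifferential.liftBaseChange B)
    ((KaehlerDifferential.tensorKaehlerEquivOfFormallyEtale k A B).symm
      (KaehlerDifferential.D k B (algebraMap A B a))) = _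
  rw [KaehlerDifferential.tensorKaehlerEquivOfFormallyEtale_symm_D_algebraMap,
    LinearMap.liftBaseChange_tmul, one_smul, Derivation.liftKaehlerDifferential_comp_D]
  rfl

theorem der_sum_apply {k A M ι : Type*} [CommRing k] [CommRing A] [Algebra k A] [AddCommGroup M]
    [Module A M] [Module k M] (s : Finset ι) (D : ι → Derivation k A M) (a : A) :
    (∑ i ∈ s, D i) a = ∑ i ∈ s, D i a := by
  classical
  induction s using Finset.induction_on with
  | empty => simp
  | insert b s hb ih => rw [Finset.sum_insert hb, Finset.sum_insert hb, Derivation.add_apply, ih]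

theorem der_div {k F : Type*} [CommRing k] [Field F] [Algebra k F] (D : Derivation k F F)
    (a b : F) (hb : b ≠ 0) : D (a / b) = (D a * b - a * D b) / b ^ 2 := by
  have h : D (a / b * b) = D a := by rw [div_mul_cancel₀ _ hb]
  rw [Derivation.leibniz, smul_eq_mul, smul_eq_mul] at h
  rw [← h]
  field_simp
  ring

variable {X : Scheme.{0}} [IsIntegral X] [X.Over SpecC]

/-- The rational vector fields. -/
abbrev DK (X : Scheme.{0}) [IsIntegral X] [X.Over SpecC] : Type := Derivation ℂ (K X) (K X)

theorem exists_ext (U : X.affineOpens) (h : genericPoint X ∈ U.1) (v : VF X U) :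
    ∃ D : DK X, ∀ a, D (toK U.1 h a) = toK U.1 h (v a) := by
  have : Nonempty U.1 := ⟨⟨_, h⟩⟩
  let _ : Algebra Γ(X, U.1) (K X) := (toK U.1 h).toAlgebra
  have : IsFractionRing Γ(X, U.1) (K X) := functionField_isFractionRing_of_isAffineOpen X U.1 U.2
  have : IsScalarTower ℂ Γ(X, U.1) (K X) :=
    IsScalarTower.of_algebraMap_eq fun c => (toK_algebraMap U.1 h c).symm
  have : Algebra.FormallyEtale Γ(X, U.1) (K X) :=
    Algebra.FormallyEtale.of_isLocalization (nonZeroDivisors Γ(X, U.1))
  exact exists_der_ext v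

/-- The rational vector field given by a vector field on a nonempty affine open set. -/
noncomputable def ext {U : X.affineOpens} (h : genericPoint X ∈ U.1) (v : VF X U) : DK X :=
  (exists_ext U h v).choose

theorem ext_toK {U : X.affineOpens} (h : genericPoint X ∈ U.1) (v : VF X U) (a : Γ(X, U.1)) :
    ext h v (toK U.1 h a) = toK U.1 h (v a) :=
  (exists_ext U h v).choose_spec a

theorem der_eq_of_toK {U : X.affineOpens} (h : genericPoint X ∈ U.1) {D D' : DK X}
    (hD : ∀ a, D (toK U.1 h a) = D' (toK U.1 h a)) : D = D' := by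
  ext f
  obtain ⟨a, b, hb, hab⟩ := exists_frac' U.2 h f
  rw [eq_div_of_mul_eq hb hab, der_div _ _ _ hb, der_div _ _ _ hb, hD, hD]

theorem ext_eq {U : X.affineOpens} (h : genericPoint X ∈ U.1) {v : VF X U} {D : DK X}
    (hD : ∀ a, D (toK U.1 h a) = toK U.1 h (v a)) : ext h v = D :=
  der_eq_of_toK h fun a => by rw [ext_toK, hD]

theorem ext_injective {U : X.affineOpens} (h : genericPoint X ∈ U.1) :
    Function.Injective (ext h : VF X U → DK X) := by
  intro v w hvw
  ext a
  apply toK_injective U.1 h
  rw [← ext_toK, ← ext_toK, hvw]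

theorem ext_zero {U : X.affineOpens} (h : genericPoint X ∈ U.1) : ext h (0 : VF X U) = 0 :=
  ext_eq h fun a => by simp

theorem ext_add {U : X.affineOpens} (h : genericPoint X ∈ U.1) (v w : VF X U) :
    ext h (v + w) = ext h v + ext h w :=
  ext_eq h fun a => by rw [Derivation.add_apply, Derivation.add_apply, ext_toK, ext_toK, map_add]

theorem ext_sub {U : X.affineOpens} (h : genericPoint X ∈ U.1) (v w : VF X U) :
    ext h (v - w) = ext h v - ext h w :=
  ext_eq h fun a => by rw [Derivation.sub_apply, Derivation.sub_apply, ext_toK, ext_toK, map_sub]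

theorem ext_smul {U : X.affineOpens} (h : genericPoint X ∈ U.1) (c : Γ(X, U.1)) (v : VF X U) :
    ext h (c • v) = toK U.1 h c • ext h v :=
  ext_eq h fun a => by
    rw [Derivation.smul_apply, Derivation.smul_apply, ext_toK, smul_eq_mul, smul_eq_mul, map_mul]

theorem ext_sum {U : X.affineOpens} (h : genericPoint X ∈ U.1) {ι : Type*} (s : Finset ι)
    (v : ι → VF X U) : ext h (∑ i ∈ s, v i) = ∑ i ∈ s, ext h (v i) :=
  ext_eq h fun a => by
    rw [der_sum_apply, der_sum_apply, map_sum]
    exact Finset.sum_congr rfl fun i _ => ext_toK h _ _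

theorem ext_lie {U : X.affineOpens} (h : genericPoint X ∈ U.1) (v w : VF X U) :
    ext h ⁅v, w⁆ = ⁅ext h v, ext h w⁆ :=
  ext_eq h fun a => by
    rw [Derivation.commutator_apply, Derivation.commutator_apply, ext_toK, ext_toK, ext_toK,
      ext_toK, map_sub]

/-- The rational vector field `D` is regular at `x`. -/
def Reg (x : X) (D : DK X) : Prop := ∀ f ∈ O x, D f ∈ O x

theorem reg_of_toK {U : X.affineOpens} {x : X} (hx : x ∈ U.1) {D : DK X}
    (hD : ∀ a, D (toK U.1 (gen_mem hx) a) ∈ O x) : Reg x D := by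
  intro f hf
  obtain ⟨a, b, hb, hab⟩ := exists_frac U.2 hx hf
  have hb' := (isU_toK hx (gen_mem hx) b).2 hb
  rw [eq_div_of_mul_eq hb'.ne_zero hab, der_div _ _ _ hb'.ne_zero]
  exact (hb'.pow 2).div_mem (sub_mem (mul_mem (hD a) hb'.mem) (mul_mem (toK_mem hx _ a) (hD b)))

theorem reg_ext {U : X.affineOpens} (h : genericPoint X ∈ U.1) (v : VF X U) {x : X}
    (hx : x ∈ U.1) : Reg x (ext h v) :=
  reg_of_toK hx fun a => by
    rw [ext_toK]
    exact toK_mem hx _ _

theorem Reg.lie {x : X} {D D' : DK X} (h : Reg x D) (h' : Reg x D') : Reg x ⁅D, D'⁆ := by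
  intro f hf
  rw [Derivation.commutator_apply]
  exact sub_mem (h _ (h' f hf)) (h' _ (h f hf))

/-- A rational vector field which is regular on `U` is a vector field on `U`. -/
theorem exists_down {U : X.affineOpens} (h : genericPoint X ∈ U.1) {D : DK X}
    (hD : ∀ x ∈ U.1, Reg x D) : ∃ v : VF X U, ext h v = D := by
  have h1 : ∀ a : Γ(X, U.1), ∃ b : Γ(X, U.1), toK U.1 h b = D (toK U.1 h a) := fun a =>
    exists_toK_eq U.1 h fun x hx => hD x hx _ (toK_mem hx h a)
  choose f hf using h1
  have hinj := toK_injective U.1 h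
  let l : Γ(X, U.1) →ₗ[ℂ] Γ(X, U.1) :=
    { toFun := f
      map_add' := fun a b => hinj (by rw [map_add, hf, hf, hf, map_add, map_add])
      map_smul' := fun c a => hinj (by
        rw [RingHom.id_apply, Algebra.smul_def, Algebra.smul_def, hf, map_mul (toK U.1 h),
          map_mul (toK U.1 h), hf, toK_algebraMap, ← Algebra.smul_def, ← Algebra.smul_def, Derivation.map_smul]) }
  refine ⟨Derivation.mk' l fun a b => hinj ?_, ext_eq h fun a => (hf a).symm⟩
  change toK U.1 h (f (a * b)) = toK U.1 h (a • f b + b • f a)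
  rw [hf, map_mul, Derivation.leibniz, smul_eq_mul, smul_eq_mul, smul_eq_mul, smul_eq_mul, map_add,
    map_mul, map_mul, hf, hf]

theorem related_id_iff {U V : X.affineOpens} (i : V.1 ≤ 𝟙 X ⁻¹ᵁ U.1) (hV : genericPoint X ∈ V.1)
    (hU : genericPoint X ∈ U.1) (w : VF X V) (v : VF X U) :
    Related (𝟙 X) i w v ↔ ext hV w = ext hU v := by
  constructor
  · intro h
    refine (ext_eq hU fun a => ?_).symm
    rw [← toK_id_appLE i hV hU, ← toK_id_appLE i hV hU, ext_toK, h a]
  · intro h a
    apply toK_injective V.1 hV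
    rw [← ext_toK, toK_id_appLE i hV hU, toK_id_appLE i hV hU, h, ext_toK]

theorem exists_restrict {U V : X.affineOpens} (i : V.1 ≤ 𝟙 X ⁻¹ᵁ U.1) (hV : genericPoint X ∈ V.1)
    (v : VF X U) : ∃ w : VF X V, Related (𝟙 X) i w v := by
  obtain ⟨w, hw⟩ := exists_down hV (D := ext (i hV) v) fun x hx => reg_ext _ v (i hx)
  exact ⟨w, (related_id_iff i hV (i hV) w v).2 hw⟩

end Vale.Agent.P292Z
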