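import Vale.Agent.P292Z.Symp
import Vale.Agent.P292Z.VField
import Vale.Agent.P271.Sch.Der

/-!
# The symplectization of a rational contact form
-/

open Polynomial

namespace Vale.Agent.P292Z

variable {K : Type} [Field K] [Algebra ℂ K]

/-- The coefficientwise derivation. -/
noncomputable def cw (v : Derivation ℂ K K) : Derivation ℂ K[X] K[X] :=
  (PolynomialModule.equivPolynomialSelf (R := K)).toLinearMap.compDer v.mapCoeffs

theorem coeff_cw (v : Derivation ℂ K K) (q : K[X]) (k : ℕ) : (cw v q).coeff k = v (q.coeff k) :=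
  rfl

/-- The Euler derivation. -/
noncomputable def eu (K : Type) [Field K] [Algebra ℂ K] : Derivation ℂ K[X] K[X] :=
  (X : K[X]) • (Polynomial.derivative' (R := K)).restrictScalars ℂ

theorem coeff_eu (q : K[X]) (k : ℕ) : (eu K q).coeff k = k * q.coeff k := by
  change (X * derivative q).coeff k = _
  cases k with
  | zero => simp
  | succ n =>
    rw [coeff_X_mul, coeff_derivative]
    push_cast
    ring

/-- The lift of a frame to the cone. -/
noncomputable def lf {d : ℕ} (g : K) (w : Fin d → Derivation ℂ K K) :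
    Fin (d + 1) → Derivation ℂ K[X] K[X] :=
  Fin.cons (eu K) fun i => cw (w i) - C (w i g / g) • eu K

variable {d : ℕ} {g : K} {w : Fin d → Derivation ℂ K K}

theorem coeff_lf_zero (q : K[X]) (k : ℕ) : (lf g w 0 q).coeff k = k * q.coeff k := coeff_eu q k

theorem coeff_lf_succ' (i : Fin d) (q : K[X]) (k : ℕ) :
    (lf g w i.succ q).coeff k = w i (q.coeff k) - w i g / g * (k * q.coeff k) := by
  change ((cw (w i) - C (w i g / g) • eu K) q).coeff k = _
  rw [Derivation.sub_apply, Derivation.smul_apply, smul_eq_mul, coeff_sub, coeff_cw, coeff_C_mul,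
    coeff_eu]

theorem coeff_lf_succ (hg : g ≠ 0) (i : Fin d) (q : K[X]) (k : ℕ) :
    (lf g w i.succ q).coeff k / g ^ k = w i (q.coeff k / g ^ k) := by
  rw [coeff_lf_succ', der_div _ _ _ (pow_ne_zero k hg), Derivation.leibniz_pow]
  cases k with
  | zero => simp
  | succ n =>
    simp only [Nat.add_sub_cancel, smul_eq_mul, nsmul_eq_mul]
    field_simp
    ring

theorem lf_zero_C (a : K) : lf g w 0 (C a) = 0 := by
  ext k
  rw [coeff_lf_zero, coeff_C]
  split_ifs with h
  · simp [h]
  · simp

theorem lf_succ_C (i : Fin d) (a : K) : lf g w i.succ (C a) = C (w i a) := by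
  ext k
  rw [coeff_lf_succ', coeff_C, coeff_C]
  split_ifs with h
  · simp [h]
  · simp

theorem lf_zero_monomial (k : ℕ) (a : K) : lf g w 0 (monomial k a) = monomial k (k * a) := by
  ext l
  rw [coeff_lf_zero, coeff_monomial, coeff_monomial]
  split_ifs with h
  · rw [h]
  · simp

theorem lf_succ_monomial (hg : g ≠ 0) (i : Fin d) (k : ℕ) (a : K) :
    lf g w i.succ (monomial k a) = monomial k (w i (a / g ^ k) * g ^ k) := by
  ext l
  have h1 := coeff_lf_succ (w := w) hg i (monomial k a) l
  rw [div_eq_iff (pow_ne_zero l hg)] at h1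
  rw [h1, coeff_monomial, coeff_monomial]
  split_ifs with h
  · rw [h]
  · simp

/-- The field of rational functions on the cone. -/
abbrev KT (K : Type) [Field K] : Type := FractionRing K[X]

/-- The inclusion of the polynomial ring. -/
noncomputable abbrev iT (K : Type) [Field K] [Algebra ℂ K] : K[X] →ₐ[ℂ] KT K :=
  IsScalarTower.toAlgHom ℂ K[X] (KT K)

theorem iT_injective : Function.Injective (iT K) := IsFractionRing.injective K[X] (KT K)

theorem exists_up (D : Derivation ℂ K[X] K[X]) :
    ∃ E : Derivation ℂ (KT K) (KT K), ∀ q, E (iT K q) = iT K (D q) := by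
  have : Algebra.FormallyEtale K[X] (KT K) :=
    Algebra.FormallyEtale.of_isLocalization (nonZeroDivisors K[X])
  exact exists_der_ext D

/-- The extension of a derivation to the field of fractions. -/
noncomputable def up (D : Derivation ℂ K[X] K[X]) : Derivation ℂ (KT K) (KT K) :=
  (exists_up D).choose

theorem up_iT (D : Derivation ℂ K[X] K[X]) (q : K[X]) : up D (iT K q) = iT K (D q) :=
  (exists_up D).choose_spec q

/-- `D` lifts `v`. -/
def Lifts (D : Derivation ℂ (KT K) (KT K)) (v : Derivation ℂ K K) : Prop :=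
  ∀ a, D (iT K (C a)) = iT K (C (v a))

theorem Lifts.lie {D E : Derivation ℂ (KT K) (KT K)} {v u : Derivation ℂ K K} (h : Lifts D v)
    (h' : Lifts E u) : Lifts ⁅D, E⁆ ⁅v, u⁆ := by
  intro a
  rw [Derivation.commutator_apply, Derivation.commutator_apply, h, h', h, h', map_sub, map_sub]

theorem lifts_zero : Lifts (up (lf g w 0)) 0 := fun a => by
  rw [up_iT, lf_zero_C, Derivation.zero_apply, C_0]

theorem lifts_succ (i : Fin d) : Lifts (up (lf g w i.succ)) (w i) := fun a => by
  rw [up_iT, lf_succ_C]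

/-- The fibre coordinate. -/
noncomputable def tau (g : K) : KT K := iT K (monomial 1 g)

theorem tau_eq (g : K) : tau g = iT K (C g) * iT K X := by
  rw [tau, ← map_mul, C_mul_X_eq_monomial]

theorem iT_X_ne_zero : iT K X ≠ 0 := (map_ne_zero_iff _ iT_injective).2 X_ne_zero

theorem iT_C_ne_zero {a : K} (ha : a ≠ 0) : iT K (C a) ≠ 0 :=
  (map_ne_zero_iff _ iT_injective).2 (C_ne_zero.2 ha)

theorem tau_ne_zero (hg : g ≠ 0) : tau g ≠ 0 := by
  rw [tau_eq]
  exact mul_ne_zero (iT_C_ne_zero hg) iT_X_ne_zero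

theorem up_zero_tau (g' : K) : up (lf g w 0) (tau g') = tau g' := by
  rw [tau, up_iT, lf_zero_monomial, Nat.cast_one, one_mul]

theorem up_succ_tau (hg : g ≠ 0) (i : Fin d) : up (lf g w i.succ) (tau g) = 0 := by
  rw [tau, up_iT, lf_succ_monomial hg, pow_one, div_self hg, Derivation.map_one_eq_zero, zero_mul,
    map_zero, map_zero]

variable {t : Fin d → K}

/-- The lifted frame is a frame. -/
theorem expand_up (hg : g ≠ 0) (hd : ∀ i j, w i (t j) = if i = j then 1 else 0)
    (hx : ∀ v : Derivation ℂ K K, v = ∑ i, v (t i) • w i) (D : Derivation ℂ (KT K) (KT K)) :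
    D = ∑ a, (Fin.cons (D (tau g) / tau g) fun i => D (iT K (C (t i))) : Fin (d + 1) → KT K) a •
      up (lf g w a) := by
  rw [← sub_eq_zero]
  set E := D - ∑ a, (Fin.cons (D (tau g) / tau g) fun i => D (iT K (C (t i))) :
    Fin (d + 1) → KT K) a • up (lf g w a) with hE
  have h1 : E (tau g) = 0 := by
    rw [hE, Derivation.sub_apply, der_sum_apply, Fin.sum_univ_succ]
    simp only [Derivation.smul_apply, up_zero_tau, up_succ_tau hg, smul_eq_mul, Fin.cons_zero,
      mul_zero, Finset.sum_const_zero, add_zero]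
    rw [div_mul_cancel₀ _ (tau_ne_zero hg), sub_self]
  have h2 : ∀ j, E (iT K (C (t j))) = 0 := by
    intro j
    rw [hE, Derivation.sub_apply, der_sum_apply, Fin.sum_univ_succ]
    simp only [Derivation.smul_apply, lifts_zero (t j), lifts_succ _ (t j), hd, smul_eq_mul,
      Fin.cons_succ, Derivation.zero_apply, map_zero, mul_zero, zero_add]
    rw [Finset.sum_eq_single j (fun i _ hi => by simp [hi]) (by simp)]
    simp
  have h3 : ∀ a, E (iT K (C a)) = 0 := by
    refine P271.Sch.der_eq_zero_of_coords (k := ℂ) (t := t) (fun v hv => ?_)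
      ((iT K : K[X] →+* KT K).comp C) (fun a => E (iT K (C a))) (fun a b => ?_) (fun a b => ?_)
      (fun r => ?_) h2
    · rw [hx v]
      simp [hv]
    · rw [map_add, map_add, map_add]
    · rw [map_mul, map_mul, Derivation.leibniz]
      rfl
    · have : iT K (C (algebraMap ℂ K r)) = algebraMap ℂ (KT K) r := (iT K).commutes r
      rw [this, Derivation.map_algebraMap]
  refine P271.Sch.der_eq_zero (K := K) h3 ?_
  rw [tau_eq, Derivation.leibniz, h3, smul_zero, add_zero, smul_eq_mul] at h1
  exact (mul_eq_zero.1 h1).resolve_left (iT_C_ne_zero hg)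

theorem exists_lam (hx : ∀ v : Derivation ℂ K K, v = ∑ i, v (t i) • w i)
    (α : Derivation ℂ K K →ₗ[K] K) :
    ∃ lam : Derivation ℂ (KT K) (KT K) →ₗ[KT K] KT K,
      ∀ D v, Lifts D v → lam D = iT K X * iT K (C (α v)) := by
  refine ⟨{ toFun := fun D => iT K X * ∑ j, D (iT K (C (t j))) * iT K (C (α (w j)))
            map_add' := fun D E => ?_
            map_smul' := fun a D => ?_ }, fun D v h => ?_⟩
  · simp only [Derivation.add_apply, add_mul, Finset.sum_add_distrib, mul_add]
  · simp only [Derivation.smul_apply, smul_eq_mul, RingHom.id_apply, Finset.mul_sum]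
    exact Finset.sum_congr rfl fun j _ => by ring
  · change iT K X * ∑ j, D (iT K (C (t j))) * iT K (C (α (w j))) = _
    congr 1
    conv_rhs => rw [hx v]
    rw [map_sum, map_sum, map_sum]
    refine Finset.sum_congr rfl fun j _ => ?_
    rw [h, map_smul, smul_eq_mul, map_mul, map_mul]

variable {α θ : Derivation ℂ K K →ₗ[K] K} {lam : Derivation ℂ (KT K) (KT K) →ₗ[KT K] KT K}

theorem om_up (hg : g ≠ 0) (hlam : ∀ D v, Lifts D v → lam D = iT K X * iT K (C (α v)))
    (hα : ∀ v, α v = g * θ v) (a b : Fin (d + 1)) :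
    om lam (up (lf g w a)) (up (lf g w b)) = tau g * iT K (C (cm θ w a b)) := by
  have h1 : ∀ D v, Lifts D v → lam D = tau g * iT K (C (θ v)) := by
    intro D v h
    rw [hlam D v h, hα, tau_eq, map_mul, map_mul]
    ring
  have h0 : lam (up (lf g w 0)) = 0 := by
    rw [h1 _ _ lifts_zero, map_zero, map_zero, map_zero, mul_zero]
  have h2 : ∀ j, om lam (up (lf g w 0)) (up (lf g w (Fin.succ j))) =
      tau g * iT K (C (θ (w j))) := by
    intro j
    rw [om, h0, h1 _ _ (lifts_succ j), h1 _ _ (lifts_zero.lie (lifts_succ j)), zero_lie,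
      Derivation.leibniz, up_zero_tau, lifts_zero]
    simp [mul_comm]
  induction a using Fin.cases with
  | zero =>
    induction b using Fin.cases with
    | zero => rw [om_self, cm_zero_zero, map_zero, map_zero, mul_zero]
    | succ j => exact h2 j
  | succ i =>
    induction b using Fin.cases with
    | zero => rw [om_skew, h2, cm_succ_zero, map_neg, map_neg, mul_neg]
    | succ j =>
      rw [om, h1 _ _ (lifts_succ i), h1 _ _ (lifts_succ j),
        h1 _ _ ((lifts_succ i).lie (lifts_succ j)), Derivation.leibniz, Derivation.leibniz,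
        up_succ_tau hg, up_succ_tau hg, lifts_succ, lifts_succ, cm_succ_succ, om, map_sub, map_sub,
        map_sub, map_sub]
      simp only [smul_eq_mul]
      ring

theorem det_om_up (hg : g ≠ 0) (hlam : ∀ D v, Lifts D v → lam D = iT K X * iT K (C (α v)))
    (hα : ∀ v, α v = g * θ v) :
    (Matrix.of fun a b => om lam (up (lf g w a)) (up (lf g w b))).det =
      iT K X ^ (d + 1) * iT K (C (g ^ (d + 1) * (cm θ w).det)) := by
  have h1 : (Matrix.of fun a b => om lam (up (lf g w a)) (up (lf g w b))) =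
      tau g • ((iT K : K[X] →+* KT K).comp C).mapMatrix (cm θ w) := by
    ext a b
    rw [Matrix.of_apply, om_up hg hlam hα]
    rfl
  rw [h1, Matrix.det_smul, ← RingHom.map_det, tau_eq, Fintype.card_fin, map_mul, map_mul, map_pow,
    map_pow, mul_pow]
  change _ * iT K (C _) = _
  ring

/-- The transformation law of the determinant of the contact matrix. -/
theorem det_cm_change {g' : K} {w' : Fin d → Derivation ℂ K K} {θ' : Derivation ℂ K K →ₗ[K] K}
    (hg : g ≠ 0) (hg' : g' ≠ 0) (hd : ∀ i j, w i (t j) = if i = j then 1 else 0)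
    (hx : ∀ v : Derivation ℂ K K, v = ∑ i, v (t i) • w i)
    (hα : ∀ v, α v = g * θ v) (hα' : ∀ v, α v = g' * θ' v) :
    g' ^ (d + 1) * (cm θ' w').det =
      (Matrix.of fun i j => w' i (t j)).det ^ 2 * (g ^ (d + 1) * (cm θ w).det) := by
  obtain ⟨lam, hlam⟩ := exists_lam hx α
  let J : Matrix (Fin (d + 1)) (Fin (d + 1)) (KT K) := Matrix.of fun a b =>
    (Fin.cons (up (lf g' w' a) (tau g) / tau g) fun i => up (lf g' w' a) (iT K (C (t i))) :
      Fin (d + 1) → KT K) b
  have hJ : ∀ a, up (lf g' w' a) = ∑ b, J a b • up (lf g w b) := fun a => expand_up hg hd hx _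
  have h1 : (Matrix.of fun a b => om lam (up (lf g' w' a)) (up (lf g' w' b))) =
      J * (Matrix.of fun a b => om lam (up (lf g w a)) (up (lf g w b))) * J.transpose := by
    ext a b
    rw [Matrix.of_apply, hJ a, hJ b, om_sum_right, Matrix.mul_apply]
    refine Finset.sum_congr rfl fun l _ => ?_
    rw [om_sum_left, Matrix.mul_apply, Matrix.transpose_apply, mul_comm]
    rfl
  have h2 : J.det = iT K (C (Matrix.of fun i j => w' i (t j)).det) := by
    rw [Matrix.det_succ_row_zero, Fin.sum_univ_succ]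
    have h3 : J 0 0 = 1 := by
      change up (lf g' w' 0) (tau g) / tau g = 1
      rw [up_zero_tau, div_self (tau_ne_zero hg)]
    have h4 : ∀ j, J 0 (Fin.succ j) = 0 := by
      intro j
      change up (lf g' w' 0) (iT K (C (t j))) = 0
      rw [lifts_zero, Derivation.zero_apply, map_zero, map_zero]
    simp only [h3, h4, mul_zero, zero_mul, Finset.sum_const_zero, add_zero, Fin.val_zero, pow_zero,
      one_mul, Fin.succAbove_zero]
    have h5 := ((iT K : K[X] →+* KT K).comp C).map_det (Matrix.of fun i j => w' i (t j))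
    refine Eq.trans ?_ h5.symm
    congr 1
    ext i j
    exact lifts_succ i (t j)
  have h3 := congrArg Matrix.det h1
  rw [Matrix.det_mul, Matrix.det_mul, Matrix.det_transpose, h2, det_om_up hg hlam hα,
    det_om_up hg' hlam hα'] at h3
  apply C_injective
  apply iT_injective
  apply mul_left_cancel₀ (pow_ne_zero (d + 1) iT_X_ne_zero)
  rw [h3, map_mul (C : K →+* K[X]) (_ ^ 2), map_mul (iT K) (C (_ ^ 2)), map_pow, map_pow]
  ring

theorem inv_om_up (hg : g ≠ 0) (hlam : ∀ D v, Lifts D v → lam D = iT K X * iT K (C (α v)))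
    (hα : ∀ v, α v = g * θ v) {N : Matrix (Fin (d + 1)) (Fin (d + 1)) K} (hN : N * cm θ w = 1) :
    (Matrix.of fun a b => (tau g)⁻¹ * iT K (C (N a b))) *
      (Matrix.of fun a b => om lam (up (lf g w a)) (up (lf g w b))) = 1 := by
  ext a b
  rw [Matrix.mul_apply]
  simp only [Matrix.of_apply, om_up hg hlam hα]
  have h1 : ∀ l, (tau g)⁻¹ * iT K (C (N a l)) * (tau g * iT K (C (cm θ w l b))) =
      iT K (C (N a l * cm θ w l b)) := by
    intro l
    have := tau_ne_zero hg
    rw [map_mul, map_mul]
    field_simp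
  simp only [h1]
  rw [← map_sum, ← map_sum, ← Matrix.mul_apply, hN, Matrix.one_apply, Matrix.one_apply]
  split_ifs
  · rw [map_one, map_one]
  · rw [map_zero, map_zero]

theorem sympl_lam (hg : g ≠ 0) (hd : ∀ i j, w i (t j) = if i = j then 1 else 0)
    (hx : ∀ v : Derivation ℂ K K, v = ∑ i, v (t i) • w i)
    (hlam : ∀ D v, Lifts D v → lam D = iT K X * iT K (C (α v)))
    (hα : ∀ v, α v = g * θ v) {N : Matrix (Fin (d + 1)) (Fin (d + 1)) K} (hN : N * cm θ w = 1) :
    Sympl lam :=
  sympl_of_frame _ (fun D => ⟨_, expand_up hg hd hx D⟩) _ (inv_om_up hg hlam hα hN)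

/-- The bracket, up to the factor `τ`, on polynomials. -/
noncomputable def qb (g : K) (w : Fin d → Derivation ℂ K K)
    (N : Matrix (Fin (d + 1)) (Fin (d + 1)) K) (q r : K[X]) : K[X] :=
  ∑ a, (∑ b, lf g w b q * C (N b a)) * lf g w a r

theorem tau_mul_br (h : Sympl lam) (hg : g ≠ 0) (hd : ∀ i j, w i (t j) = if i = j then 1 else 0)
    (hx : ∀ v : Derivation ℂ K K, v = ∑ i, v (t i) • w i)
    (hlam : ∀ D v, Lifts D v → lam D = iT K X * iT K (C (α v)))
    (hα : ∀ v, α v = g * θ v) {N : Matrix (Fin (d + 1)) (Fin (d + 1)) K} (hN : N * cm θ w = 1)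
    (q r : K[X]) : tau g * h.br (iT K q) (iT K r) = iT K (qb g w N q r) := by
  rw [h.br_frame _ (fun D => ⟨_, expand_up hg hd hx D⟩) _ (inv_om_up hg hlam hα hN), qb, map_sum,
    Finset.mul_sum]
  refine Finset.sum_congr rfl fun a _ => ?_
  rw [map_mul, map_sum, up_iT, ← mul_assoc, Finset.mul_sum]
  congr 1
  refine Finset.sum_congr rfl fun b _ => ?_
  have := tau_ne_zero hg
  rw [up_iT, Matrix.of_apply, map_mul]
  field_simp

end Vale.Agent.P292Z
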