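import Vale.Agent.P292Z.Chart
import Vale.Agent.P292Z.Cone

/-!
# If `-K_X` is ample then the contact line bundle is ample
-/

open AlgebraicGeometry CategoryTheory TopologicalSpace Opposite

namespace Vale.Agent.P292Z

theorem alternating_det {R M N : Type*} [CommRing R] [AddCommGroup M] [Module R M]
    [AddCommGroup N] [Module R N] {d : ℕ} (f : M [⋀^Fin d]→ₗ[R] N) (e : Fin d → M)
    (J : Matrix (Fin d) (Fin d) R) : f (fun j => ∑ i, J i j • e i) = J.det • f e := by
  let φ : (Fin d → R) →ₗ[R] M := Fintype.linearCombination R e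
  have h1 : f.compLinearMap φ = (Pi.basisFun R (Fin d)).det.smulRight (f e) := by
    refine Module.Basis.ext_alternating (Pi.basisFun R (Fin d)) fun i h => ?_
    let σ : Equiv.Perm (Fin d) := Equiv.ofBijective i (Finite.injective_iff_bijective.1 h)
    change (f.compLinearMap φ) (Pi.basisFun R (Fin d) ∘ σ) =
      ((Pi.basisFun R (Fin d)).det.smulRight (f e)) (Pi.basisFun R (Fin d) ∘ σ)
    rw [AlternatingMap.map_perm, AlternatingMap.map_perm, AlternatingMap.smulRight_apply,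
      Module.Basis.det_self, one_smul, AlternatingMap.compLinearMap_apply]
    congr 2
    funext j
    simp [φ]
  have h2 := congrArg (fun g => g (fun j i => J i j)) h1
  simp only [AlternatingMap.compLinearMap_apply, AlternatingMap.smulRight_apply,
    Pi.basisFun_det_apply] at h2
  rw [← Matrix.det_transpose]
  exact h2

theorem span_vol {X : Scheme.{0}} [X.Over SpecC] (d : ℕ) (U : X.affineOpens) :
    Submodule.span Γ(X, U.1) (Set.range (vol : (Fin d → Γ(X, U.1)) → TopForm X d U)) = ⊤ := by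
  have h := exteriorPower.ιMulti_span_of_span Γ(X, U.1) d Ω[Γ(X, U.1)⁄ℂ]
    (KaehlerDifferential.span_range_derivation ℂ Γ(X, U.1))
  rw [eq_top_iff, ← h]
  refine Submodule.span_mono ?_
  rintro _ ⟨a, ha, rfl⟩
  choose f hf using fun j => ha ⟨j, rfl⟩
  exact ⟨f, congrArg _ (funext hf)⟩

variable {X : Scheme.{0}} [IsIntegral X] [X.Over SpecC] {d m : ℕ}

theorem Frame.vol_eq (c : Frame X d) (V : X.affineOpens) (hV : genericPoint X ∈ V.1)
    (i : V.1 ≤ c.U.1) {s : Fin d → Γ(X, V.1)} (hs : ∀ j, toK V.1 hV (s j) = c.t j)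
    (f : Fin d → Γ(X, V.1)) : ∃ a : Γ(X, V.1), (vol f : TopForm X d V) = a • vol s ∧
      toK V.1 hV a = (Matrix.of fun i j => c.w i (toK V.1 hV (f j))).det := by
  obtain ⟨s', u, hs', hu, hd, -⟩ := c.exists_down V hV i
  obtain rfl : s = s' := funext fun j => toK_injective V.1 hV (by rw [hs, hs'])
  let ψ : Ω[Γ(X, V.1)⁄ℂ] →ₗ[Γ(X, V.1)] Ω[Γ(X, V.1)⁄ℂ] :=
    ∑ i, (u i).liftKaehlerDifferential.smulRight (KaehlerDifferential.D ℂ Γ(X, V.1) (s i))
  have hψ : ∀ a, ψ (KaehlerDifferential.D ℂ Γ(X, V.1) a) =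
      ∑ i, u i a • KaehlerDifferential.D ℂ Γ(X, V.1) (s i) := by
    intro a
    simp only [ψ, LinearMap.sum_apply, LinearMap.smulRight_apply,
      Derivation.liftKaehlerDifferential_comp_D]
  have h1 : ψ = LinearMap.id := by
    refine LinearMap.ext_on_range (c.omega V hV i s hs) fun j => ?_
    rw [hψ, LinearMap.id_apply, Finset.sum_eq_single j (fun l _ hl => by simp [hd, hl]) (by simp)]
    simp [hd]
  refine ⟨(Matrix.of fun i j => u i (f j)).det, ?_, ?_⟩
  · rw [vol, vol, ← alternating_det]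
    congr 1
    funext j
    have := hψ (f j)
    rw [h1] at this
    exact this
  · rw [RingHom.map_det]
    congr 1
    ext a b
    rw [RingHom.mapMatrix_apply, Matrix.map_apply, Matrix.of_apply, Matrix.of_apply, ← hu, ext_toK]

/-- The coordinates as regular functions. -/
noncomputable def Frame.crd (c : Frame X d) (j : Fin d) : Γ(X, c.U.1) :=
  (exists_toK_eq c.U.1 c.hU fun y hy => c.t_mem y hy j).choose

theorem Frame.toK_crd (c : Frame X d) (j : Fin d) : toK c.U.1 c.hU (c.crd j) = c.t j :=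
  (exists_toK_eq c.U.1 c.hU fun y hy => c.t_mem y hy j).choose_spec

/-- The coefficient of a section of `-mK` in a frame. -/
noncomputable def sval (s : AntiSection X d m) (c : Frame X d) : K X :=
  toK c.U.1 c.hU (s.val c.U fun _ => vol c.crd)

theorem sval_mem (s : AntiSection X d m) (c : Frame X d) {x : X} (hx : x ∈ c.U.1) :
    sval s c ∈ O x := toK_mem hx _ _

theorem sval_eq (s : AntiSection X d m) (c : Frame X d) (V : X.affineOpens)
    (hV : genericPoint X ∈ V.1) (i : V.1 ≤ c.U.1) (f : Fin m → Fin d → Γ(X, V.1)) :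
    toK V.1 hV (s.val V fun k => vol (f k)) =
      (∏ k, (Matrix.of fun i j => c.w i (toK V.1 hV (f k j))).det) * sval s c := by
  have hs : ∀ j, toK V.1 hV (X.presheaf.map (homOfLE i).op (c.crd j)) = c.t j := fun j => by
    rw [toK_res i hV c.hU, c.toK_crd]
  choose a ha ha' using fun k => c.vol_eq V hV i hs (f k)
  simp only [ha]
  rw [MultilinearMap.map_smul_univ, smul_eq_mul, map_mul, map_prod,
    s.restrict c.U V i fun _ => c.crd, toK_res i hV c.hU]
  simp only [ha']
  rfl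

theorem sval_change (s : AntiSection X d m) (c c' : Frame X d) :
    sval s c = (Matrix.of fun i j => c'.w i (c.t j)).det ^ m * sval s c' := by
  obtain ⟨V, hV, hVU⟩ := exists_affine_le (W := c.U.1 ⊓ c'.U.1) ⟨c.hU, c'.hU⟩
  have i : V.1 ≤ c.U.1 := hVU.trans inf_le_left
  have h1 := sval_eq s c' V hV (hVU.trans inf_le_right)
    fun _ j => X.presheaf.map (homOfLE i).op (c.crd j)
  rw [s.restrict c.U V i fun _ => c.crd, toK_res i hV c.hU] at h1
  simp only [toK_res i hV c.hU, c.toK_crd, Finset.prod_const, Finset.card_univ,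
    Fintype.card_fin] at h1
  exact h1

theorem det_mem_O {n : ℕ} {x : X} {M : Matrix (Fin n) (Fin n) (K X)} (h : ∀ i j, M i j ∈ O x) :
    M.det ∈ O x := by
  rw [Matrix.det_apply]
  refine sum_mem fun σ _ => ?_
  rw [Units.smul_def]
  exact zsmul_mem (prod_mem fun i _ => h _ _) _

theorem mem_locus_iff (s : AntiSection X d m) (c : Frame X d) {x : X} (hx : x ∈ c.U.1) :
    x ∈ s.locus ↔ IsU x (sval s c) := by
  constructor
  · intro h
    obtain ⟨U, hU⟩ := Opens.mem_iSup.1 h
    obtain ⟨η, hη⟩ := Opens.mem_iSup.1 hU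
    have hxU : x ∈ U.1 := X.basicOpen_le _ hη
    have h1 : ∃ f : Fin m → Fin d → Γ(X, U.1), x ∈ X.basicOpen (s.val U fun k => vol (f k)) := by
      by_contra hcon
      push Not at hcon
      have h2 : (U.2.primeIdealOf ⟨x, hxU⟩).asIdeal.mkQ.compMultilinearMap (s.val U) = 0 := by
        refine MultilinearMap.ext_of_span_eq_top (γ := fun _ : Fin m => Fin d → Γ(X, U.1))
          (g := fun _ => vol) (fun _ => span_vol d U) fun f => ?_
        have h3 := hcon f
        rw [mem_basicOpen_iff U.2 hxU, not_not] at h3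
        exact (Submodule.Quotient.mk_eq_zero _).2 h3
      have h3 := congrArg (fun g => g η) h2
      rw [mem_basicOpen_iff U.2 hxU] at hη
      exact hη ((Submodule.Quotient.mk_eq_zero _).1 h3)
    obtain ⟨f, hf⟩ := h1
    obtain ⟨V, hxV, hVU⟩ := exists_affine_le (W := U.1 ⊓ c.U.1) ⟨hxU, hx⟩
    have i : V.1 ≤ U.1 := hVU.trans inf_le_left
    have hV := gen_mem hxV
    have h2 := sval_eq s c V hV (hVU.trans inf_le_right)
      fun k j => X.presheaf.map (homOfLE i).op (f k j)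
    rw [s.restrict U V i f, toK_res i hV (gen_mem hxU)] at h2
    rw [← isU_toK hxU (gen_mem hxU), h2] at hf
    exact hf.of_mul_right (prod_mem fun k _ => det_mem_O fun a b =>
      c.w_reg x hx a _ (toK_mem hxV _ _)) (sval_mem s c hx)
  · intro h
    exact Opens.mem_iSup.2 ⟨c.U, Opens.mem_iSup.2 ⟨_, (isU_toK hx c.hU _).1 h⟩⟩

variable {F : Distribution X}

theorem Atlas.exists_section (A : Atlas F d) (s : AntiSection X d m) :
    ∃ σ : K X, (∀ x, A.SecAt ((d + 1) * m) σ x) ∧ A.locus ((d + 1) * m) σ = s.locus := by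
  have h1 : ∀ c c' : Chart F d,
      sval s c'.toFrame ^ 2 * (A.g c' ^ (d + 1) * (cm c'.θ c'.w).det) ^ m =
        sval s c.toFrame ^ 2 * (A.g c ^ (d + 1) * (cm c.θ c.w).det) ^ m := by
    intro c c'
    rw [det_cm_change (A.g_ne c) (A.g_ne c') c.dual c.expand (A.α_eq c) (A.α_eq c'),
      sval_change s c.toFrame c'.toFrame]
    ring
  set c₀ := A.ch (genericPoint X)
  have h2 : ∀ x, sval s c₀.toFrame ^ 2 * (A.g c₀ ^ (d + 1) * (cm c₀.θ c₀.w).det) ^ m /
      A.g (A.ch x) ^ ((d + 1) * m) =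
        sval s (A.ch x).toFrame ^ 2 * (cm (A.ch x).θ (A.ch x).w).det ^ m := by
    intro x
    have := A.g_ne (A.ch x)
    rw [h1 (A.ch x) c₀, mul_pow, pow_mul]
    field_simp
  refine ⟨sval s c₀.toFrame ^ 2 * (A.g c₀ ^ (d + 1) * (cm c₀.θ c₀.w).det) ^ m, fun x => ?_, ?_⟩
  · rw [Atlas.SecAt, h2]
    exact mul_mem (pow_mem (sval_mem s _ (A.mem x)) 2) (pow_mem ((A.ch x).det x (A.mem x)).mem m)
  · ext x
    change A.GenAt _ _ x ↔ x ∈ s.locus
    rw [Atlas.GenAt, h2, mem_locus_iff s (A.ch x).toFrame (A.mem x)]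
    have h3 := sval_mem s _ (A.mem x)
    have h4 := ((A.ch x).det x (A.mem x)).pow m
    exact ⟨fun h => (h.of_mul_left (pow_mem h3 2) h4.mem).of_pow two_ne_zero h3,
      fun h => (h.pow 2).mul h4⟩

/-- The contact line bundle is ample. -/
def Atlas.IsAmple (A : Atlas F d) : Prop :=
  ∀ x : X, ∃ (D : ℕ) (σ : K X), 0 < D ∧ (∀ y, A.SecAt D σ y) ∧ A.GenAt D σ x ∧
    IsAffineOpen (A.locus D σ)

theorem Atlas.isAmple (A : Atlas F d) (h : IsFano X d) : A.IsAmple := by
  intro x
  obtain ⟨m, s, hm, hx, hs⟩ := h x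
  obtain ⟨σ, h1, h2⟩ := A.exists_section s
  rw [← h2] at hx hs
  exact ⟨_, σ, Nat.mul_pos (Nat.succ_pos d) hm, h1, hx, hs⟩

/-- Small affine neighbourhoods of the form `X_s`. -/
theorem Atlas.IsAmple.exists_small [CompactSpace X] {A : Atlas F d} (h : A.IsAmple) {W : X.Opens}
    {x : X} (hx : x ∈ W) : ∃ (D : ℕ) (σ : K X), 0 < D ∧ (∀ y, A.SecAt D σ y) ∧ A.GenAt D σ x ∧
      IsAffineOpen (A.locus D σ) ∧ A.locus D σ ≤ W := by
  obtain ⟨D, σ, hD, h1, h2, h3⟩ := h x
  obtain ⟨b, hbW, hxb⟩ := h3.exists_basicOpen_le (V := W) ⟨x, hx⟩ (show x ∈ A.locus D σ from h2)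
  have hη := gen_mem (show x ∈ A.locus D σ from h2)
  obtain ⟨k, hk⟩ := Atlas.exists_extend (m := 0) (f := toK _ hη b) h1 h2.ne_zero fun y hy =>
    Atlas.secAt_zero_iff.2 (toK_mem (show y ∈ A.locus D σ from hy) hη b)
  have h4 : A.locus (0 + D * (k + 1)) (toK _ hη b * σ ^ (k + 1)) = X.basicOpen b := by
    ext y
    constructor
    · intro hy
      have hy' : A.GenAt (0 + D * (k + 1)) (toK _ hη b * σ ^ (k + 1)) y := hy
      have h5 : A.GenAt D σ y := by
        rw [pow_succ, ← mul_assoc, mul_add, mul_one, ← add_assoc] at hy'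
        exact hy'.of_mul_right (hk k le_rfl y) (h1 y)
      have h6 : y ∈ A.locus D σ := h5
      exact (isU_toK h6 hη b).1 (Atlas.genAt_zero_iff.1 (hy'.of_mul_left
        (Atlas.secAt_zero_iff.2 (toK_mem h6 hη b)) ((h1 y).pow _)))
    · intro hy
      have h6 : y ∈ A.locus D σ := X.basicOpen_le b hy
      exact (Atlas.genAt_zero_iff.2 ((isU_toK h6 hη b).2 hy)).mul (Atlas.GenAt.pow h6 _)
  refine ⟨0 + D * (k + 1), toK _ hη b * σ ^ (k + 1), by positivity, hk _ (Nat.le_succ k), ?_, ?_, ?_⟩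
  · change x ∈ A.locus _ _
    rwa [h4]
  · rw [h4]
    exact h3.basicOpen b
  · rwa [h4]

end Vale.Agent.P292Z
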