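import Vale.Agent.P292Z.Defs
import Mathlib.AlgebraicGeometry.FunctionField
import Mathlib.AlgebraicGeometry.ValuativeCriterion

/-!
# The function field and the local rings of an integral scheme over `ℂ`
-/

open AlgebraicGeometry CategoryTheory TopologicalSpace Opposite

namespace Vale.Agent.P292Z

variable (X : Scheme.{0}) [IsIntegral X]

/-- The function field. -/
def K : Type := X.functionField

noncomputable instance : Field (K X) := inferInstanceAs (Field X.functionField)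

variable {X}

theorem gen_mem {U : X.Opens} {x : X} (hx : x ∈ U) : genericPoint X ∈ U :=
  ((genericPoint_spec X).mem_open_set_iff U.isOpen).mpr ⟨x, trivial, hx⟩

/-- The rational function given by a regular function on a nonempty open set. -/
noncomputable def toK (U : X.Opens) (h : genericPoint X ∈ U) : Γ(X, U) →+* K X :=
  (X.presheaf.germ U (genericPoint X) h).hom

theorem toK_injective (U : X.Opens) (h : genericPoint X ∈ U) : Function.Injective (toK U h) :=
  germ_injective_of_isIntegral X _ h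

theorem toK_res {U V : X.Opens} (i : V ≤ U) (hV : genericPoint X ∈ V) (hU : genericPoint X ∈ U)
    (a : Γ(X, U)) : toK V hV (X.presheaf.map (homOfLE i).op a) = toK U hU a :=
  X.presheaf.germ_res_apply (homOfLE i) (genericPoint X) hV a

theorem id_appLE {Y : Scheme.{0}} {U V : Y.Opens} (h : V ≤ 𝟙 Y ⁻¹ᵁ U) :
    (𝟙 Y : Y ⟶ Y).appLE U V h = Y.presheaf.map (homOfLE (show V ≤ U from h)).op := by
  rw [Scheme.Hom.appLE, Scheme.Hom.id_app]
  exact Category.id_comp _

theorem toK_id_appLE {U V : X.Opens} (i : V ≤ 𝟙 X ⁻¹ᵁ U) (hV : genericPoint X ∈ V)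
    (hU : genericPoint X ∈ U) (a : Γ(X, U)) :
    toK V hV ((𝟙 X : X ⟶ X).appLE U V i a) = toK U hU a := by
  rw [id_appLE]
  exact toK_res _ hV hU a

/-- The rational function given by a germ. -/
noncomputable def stK (x : X) : X.presheaf.stalk x →+* K X :=
  algebraMap (X.presheaf.stalk x) X.functionField

theorem stK_injective (x : X) : Function.Injective (stK x) :=
  IsFractionRing.injective (X.presheaf.stalk x) X.functionField

theorem stK_germ {U : X.Opens} {x : X} (hx : x ∈ U) (h : genericPoint X ∈ U) (a : Γ(X, U)) :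
    stK x (X.presheaf.germ U x hx a) = toK U h a := by
  have : Nonempty U := ⟨⟨x, hx⟩⟩
  exact Scheme.algebraMap_germ_eq_germToFunctionField X hx a

variable [X.Over SpecC]

omit [IsIntegral X] in
theorem res_algebraMap {U V : X.Opens} (i : V ≤ U) (c : ℂ) :
    X.presheaf.map (homOfLE i).op (algebraMap ℂ Γ(X, U) c) = algebraMap ℂ Γ(X, V) c := by
  change (X.presheaf.map (homOfLE (le_top : U ≤ ⊤)).op ≫ X.presheaf.map (homOfLE i).op) _ = _
  rw [← X.presheaf.map_comp]
  rfl

noncomputable instance : Algebra ℂ (K X) :=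
  ((toK ⊤ trivial).comp (algebraMap ℂ Γ(X, ⊤))).toAlgebra

theorem toK_algebraMap (U : X.Opens) (h : genericPoint X ∈ U) (c : ℂ) :
    toK U h (algebraMap ℂ Γ(X, U) c) = algebraMap ℂ (K X) c := by
  rw [← res_algebraMap (le_top : U ≤ ⊤), toK_res le_top h trivial]
  rfl

instance : CharZero (K X) := charZero_of_injective_algebraMap (algebraMap ℂ (K X)).injective

/-- The local ring at `x`, as a subalgebra of the function field. -/
noncomputable def O (x : X) : Subalgebra ℂ (K X) where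
  toSubsemiring := (stK x).range.toSubsemiring
  algebraMap_mem' c := ⟨X.presheaf.germ ⊤ x trivial (algebraMap ℂ Γ(X, ⊤) c), by
    exact (stK_germ (U := ⊤) trivial trivial _).trans (toK_algebraMap _ _ c)⟩

theorem mem_O {x : X} {f : K X} : f ∈ O x ↔ ∃ a, stK x a = f := Iff.rfl

theorem toK_mem {U : X.Opens} {x : X} (hx : x ∈ U) (h : genericPoint X ∈ U) (a : Γ(X, U)) :
    toK U h a ∈ O x := ⟨_, stK_germ hx h a⟩

/-- `f` is a unit of the local ring at `x`. -/
def IsU (x : X) (f : K X) : Prop := f ∈ O x ∧ f ≠ 0 ∧ f⁻¹ ∈ O x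

theorem isU_stK {x : X} {a : X.presheaf.stalk x} : IsU x (stK x a) ↔ IsUnit a := by
  constructor
  · rintro ⟨-, h0, b, hb⟩
    refine IsUnit.of_mul_eq_one b (stK_injective x ?_)
    rw [map_mul, hb, map_one, mul_inv_cancel₀ h0]
  · rintro ⟨u, rfl⟩
    have h1 : stK x (u : X.presheaf.stalk x) * stK x (↑u⁻¹ : X.presheaf.stalk x) = 1 := by
      rw [← map_mul, Units.mul_inv, map_one]
    exact ⟨⟨_, rfl⟩, left_ne_zero_of_mul_eq_one h1, ⟨_, eq_inv_of_mul_eq_one_right h1⟩⟩

theorem isU_toK {U : X.Opens} {x : X} (hx : x ∈ U) (h : genericPoint X ∈ U) (a : Γ(X, U)) :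
    IsU x (toK U h a) ↔ x ∈ X.basicOpen a := by
  rw [← stK_germ hx h, isU_stK, Scheme.mem_basicOpen X a x hx]

theorem IsU.mem {x : X} {f : K X} (h : IsU x f) : f ∈ O x := h.1
theorem IsU.ne_zero {x : X} {f : K X} (h : IsU x f) : f ≠ 0 := h.2.1
theorem IsU.inv_mem {x : X} {f : K X} (h : IsU x f) : f⁻¹ ∈ O x := h.2.2

theorem IsU.inv {x : X} {f : K X} (h : IsU x f) : IsU x f⁻¹ :=
  ⟨h.2.2, inv_ne_zero h.2.1, by rw [inv_inv]; exact h.1⟩

theorem isU_one (x : X) : IsU x (1 : K X) :=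
  ⟨one_mem _, one_ne_zero, by rw [inv_one]; exact one_mem _⟩

theorem IsU.mul {x : X} {f g : K X} (hf : IsU x f) (hg : IsU x g) : IsU x (f * g) :=
  ⟨mul_mem hf.1 hg.1, mul_ne_zero hf.2.1 hg.2.1, by rw [mul_inv]; exact mul_mem hf.2.2 hg.2.2⟩

theorem IsU.div {x : X} {f g : K X} (hf : IsU x f) (hg : IsU x g) : IsU x (f / g) := by
  rw [div_eq_mul_inv]
  exact hf.mul hg.inv

theorem IsU.pow {x : X} {f : K X} (hf : IsU x f) (n : ℕ) : IsU x (f ^ n) :=
  ⟨pow_mem hf.1 n, pow_ne_zero n hf.2.1, by rw [← inv_pow]; exact pow_mem hf.2.2 n⟩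

theorem IsU.of_mul_left {x : X} {f g : K X} (h : IsU x (f * g)) (hf : f ∈ O x) (hg : g ∈ O x) :
    IsU x f := by
  have h0 := h.ne_zero
  refine ⟨hf, left_ne_zero_of_mul h0, ?_⟩
  have h1 : f⁻¹ = g * (f * g)⁻¹ := by
    have := right_ne_zero_of_mul h0
    have := left_ne_zero_of_mul h0
    field_simp
  rw [h1]
  exact mul_mem hg h.inv_mem

theorem IsU.of_mul_right {x : X} {f g : K X} (h : IsU x (f * g)) (hf : f ∈ O x) (hg : g ∈ O x) :
    IsU x g := by
  rw [mul_comm] at h
  exact h.of_mul_left hg hf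

theorem IsU.of_pow {x : X} {f : K X} {n : ℕ} (h : IsU x (f ^ n)) (hn : n ≠ 0) (hf : f ∈ O x) :
    IsU x f := by
  obtain ⟨m, rfl⟩ := Nat.exists_eq_succ_of_ne_zero hn
  rw [pow_succ] at h
  exact h.of_mul_right (pow_mem hf m) hf

theorem IsU.div_mem {x : X} {f g : K X} (hg : IsU x g) (hf : f ∈ O x) : f / g ∈ O x := by
  rw [div_eq_mul_inv]
  exact mul_mem hf hg.inv_mem

theorem isU_algebraMap (x : X) {c : ℂ} (hc : c ≠ 0) : IsU x (algebraMap ℂ (K X) c) :=
  ⟨(O x).algebraMap_mem c, (map_ne_zero _).2 hc, by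
    rw [← map_inv₀]; exact (O x).algebraMap_mem _⟩

/-- The local rings are local. -/
theorem IsU.of_add {x : X} {f g : K X} (h : IsU x (f + g)) (hf : f ∈ O x) (hg : g ∈ O x) :
    IsU x f ∨ IsU x g := by
  obtain ⟨a, rfl⟩ := hf
  obtain ⟨b, rfl⟩ := hg
  rw [← map_add, isU_stK] at h
  rw [isU_stK, isU_stK]
  exact IsLocalRing.isUnit_or_isUnit_of_isUnit_add h

theorem IsU.of_sum {x : X} {ι : Type*} {s : Finset ι} {f : ι → K X} (h : IsU x (∑ i ∈ s, f i))
    (hf : ∀ i ∈ s, f i ∈ O x) : ∃ i ∈ s, IsU x (f i) := by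
  classical
  induction s using Finset.induction_on with
  | empty => exact (h.ne_zero (by simp)).elim
  | insert a s ha ih =>
    rw [Finset.sum_insert ha] at h
    rcases h.of_add (hf a (Finset.mem_insert_self _ _))
      (sum_mem fun i hi => hf i (Finset.mem_insert_of_mem hi)) with h1 | h1
    · exact ⟨a, Finset.mem_insert_self _ _, h1⟩
    · obtain ⟨i, hi, h2⟩ := ih h1 fun i hi => hf i (Finset.mem_insert_of_mem hi)
      exact ⟨i, Finset.mem_insert_of_mem hi, h2⟩

theorem exists_open_of_mem_O {x : X} {f : K X} (h : f ∈ O x) :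
    ∃ (U : X.Opens) (hx : x ∈ U) (a : Γ(X, U)), toK U (gen_mem hx) a = f := by
  obtain ⟨a, rfl⟩ := h
  obtain ⟨U, hU, s, rfl⟩ := X.presheaf.exists_germ_eq a
  exact ⟨U, hU, s, (stK_germ hU _ s).symm⟩

theorem isOpen_mem_O (f : K X) : IsOpen {x : X | f ∈ O x} := by
  rw [isOpen_iff_forall_mem_open]
  intro x hx
  obtain ⟨U, hU, a, rfl⟩ := exists_open_of_mem_O hx
  exact ⟨U, fun y hy => toK_mem hy _ a, U.isOpen, hU⟩

theorem isOpen_isU (f : K X) : IsOpen {x : X | IsU x f} := by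
  by_cases h0 : f = 0
  · have : {x : X | IsU x f} = ∅ := Set.eq_empty_of_forall_notMem fun x hx => hx.2.1 h0
    rw [this]
    exact isOpen_empty
  · have : {x : X | IsU x f} = {x : X | f ∈ O x} ∩ {x : X | f⁻¹ ∈ O x} := by
      ext x
      exact ⟨fun h => ⟨h.1, h.2.2⟩, fun h => ⟨h.1, h0, h.2⟩⟩
    rw [this]
    exact (isOpen_mem_O f).inter (isOpen_mem_O _)

/-- A rational function which is regular at all points of `U` is a regular function on `U`. -/
theorem exists_toK_eq (U : X.Opens) (hU : genericPoint X ∈ U) {f : K X}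
    (h : ∀ x ∈ U, f ∈ O x) : ∃ a : Γ(X, U), toK U hU a = f := by
  have h1 : ∀ x : U, ∃ (V : X.Opens) (hx : x.1 ∈ V) (_ : V ≤ U) (s : Γ(X, V)),
      toK V (gen_mem hx) s = f := by
    intro x
    obtain ⟨V, hV, s, hs⟩ := exists_open_of_mem_O (h x.1 x.2)
    refine ⟨V ⊓ U, ⟨hV, x.2⟩, inf_le_right, X.presheaf.map (homOfLE inf_le_left).op s, ?_⟩
    rw [toK_res inf_le_left _ (gen_mem hV), hs]
  choose V hV hVU s hs using h1
  have hcomp : TopCat.Presheaf.IsCompatible X.sheaf.1 V s := by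
    intro x y
    have hη : genericPoint X ∈ V x ⊓ V y := ⟨gen_mem (hV x), gen_mem (hV y)⟩
    apply toK_injective (V x ⊓ V y) hη
    exact (toK_res inf_le_left hη (gen_mem (hV x)) (s x)).trans ((hs x).trans ((hs y).symm.trans
      (toK_res inf_le_right hη (gen_mem (hV y)) (s y)).symm))
  obtain ⟨t, ht, -⟩ := X.sheaf.existsUnique_gluing' V U (fun x => homOfLE (hVU x))
    (fun x hx => Opens.mem_iSup.2 ⟨⟨x, hx⟩, hV ⟨x, hx⟩⟩) s hcomp
  refine ⟨t, ?_⟩
  rw [← hs ⟨_, hU⟩, ← ht ⟨_, hU⟩]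
  exact (toK_res (hVU ⟨_, hU⟩) _ hU t).symm

/-- The local ring at a point of an affine open set is a localization. -/
theorem exists_frac {U : X.Opens} (hU : IsAffineOpen U) {x : X} (hx : x ∈ U) {f : K X}
    (hf : f ∈ O x) : ∃ a b : Γ(X, U), x ∈ X.basicOpen b ∧
      f * toK U (gen_mem hx) b = toK U (gen_mem hx) a := by
  obtain ⟨z, rfl⟩ := hf
  let _ := TopCat.Presheaf.algebra_section_stalk X.presheaf (U := U) ⟨x, hx⟩
  have := hU.isLocalization_stalk ⟨x, hx⟩
  obtain ⟨⟨a, b⟩, h⟩ := IsLocalization.surj (hU.primeIdealOf ⟨x, hx⟩).asIdeal.primeCompl z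
  have h1 : z * X.presheaf.germ U x hx b = X.presheaf.germ U x hx a := h
  refine ⟨a, b, ?_, ?_⟩
  · rw [Scheme.mem_basicOpen X _ x hx]
    exact IsLocalization.map_units (X.presheaf.stalk x) b
  · rw [← stK_germ hx, ← stK_germ hx, ← map_mul, h1]

theorem O_generic (f : K X) : f ∈ O (genericPoint X) := by
  refine ⟨f, ?_⟩
  change (X.presheaf.stalkSpecializes _).hom f = f
  rw [TopCat.Presheaf.stalkSpecializes_refl]
  rfl

theorem exists_frac' {U : X.Opens} (hU : IsAffineOpen U) (h : genericPoint X ∈ U) (f : K X) :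
    ∃ a b : Γ(X, U), toK U h b ≠ 0 ∧ f * toK U h b = toK U h a := by
  obtain ⟨a, b, hb, hab⟩ := exists_frac hU h (O_generic f)
  exact ⟨a, b, ((isU_toK h h b).2 hb).ne_zero, hab⟩

/-- Clearing denominators on a basic open set of an affine open set. -/
theorem exists_pow_mul {U : X.Opens} (hU : IsAffineOpen U) (h : genericPoint X ∈ U)
    (a : Γ(X, U)) {f : K X} (hf : ∀ x ∈ U, IsU x (toK U h a) → f ∈ O x) (ha : toK U h a ≠ 0) :
    ∃ k : ℕ, ∀ x ∈ U, f * toK U h a ^ k ∈ O x := by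
  have hη : genericPoint X ∈ X.basicOpen a :=
    (isU_toK h h a).1 ⟨O_generic _, ha, O_generic _⟩
  obtain ⟨b, hb⟩ := exists_toK_eq (X.basicOpen a) hη (f := f) fun x hx =>
    hf x (X.basicOpen_le a hx) ((isU_toK (X.basicOpen_le a hx) h a).2 hx)
  have := hU.isLocalization_basicOpen a
  obtain ⟨⟨c, ⟨_, k, rfl⟩⟩, hc⟩ := IsLocalization.surj (Submonoid.powers a) b
  have h1 : b * X.presheaf.map (homOfLE (X.basicOpen_le a)).op (a ^ k) =
      X.presheaf.map (homOfLE (X.basicOpen_le a)).op c := hc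
  have h2 := congrArg (toK _ hη) h1
  rw [map_mul, hb, toK_res _ hη h, toK_res _ hη h, map_pow] at h2
  exact ⟨k, fun x hx => h2 ▸ toK_mem hx h c⟩

/-- The valuative criterion of properness. -/
theorem exists_center [IsProper (X ↘ SpecC)] (V : ValuationSubring (K X))
    (hV : ∀ c : ℂ, algebraMap ℂ (K X) c ∈ V) : ∃ x : X, ∀ f ∈ O x, f ∈ V := by
  have hex : ValuativeCriterion.Existence (X ↘ SpecC) := by
    have h1 : UniversallyClosed (X ↘ SpecC) := inferInstance
    rw [UniversallyClosed.eq_valuativeCriterion] at h1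
    exact h1.1
  let cV : ℂ →+* V := (algebraMap ℂ (K X)).codRestrict V.toSubring hV
  let j : CommRingCat.of V ⟶ CommRingCat.of (K X) := CommRingCat.ofHom (algebraMap V (K X))
  let i₁ : Spec (CommRingCat.of (K X)) ⟶ X := X.fromSpecStalk (genericPoint X)
  let i₂ : Spec (CommRingCat.of V) ⟶ SpecC := Spec.map (CommRingCat.ofHom cV)
  have hj : CommRingCat.ofHom cV ≫ j = CommRingCat.ofHom (algebraMap ℂ (K X)) := by
    ext c
    rfl
  have hsq : i₁ ≫ (X ↘ SpecC) = Spec.map j ≫ i₂ := by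
    rw [← Spec.map_comp, hj]
    apply ext_of_isAffine
    rw [Scheme.Hom.comp_appTop]
    have h1 : i₁.appTop = X.presheaf.germ ⊤ (genericPoint X) trivial ≫
        (Scheme.ΓSpecIso (X.presheaf.stalk (genericPoint X))).inv := by
      have h2 := Scheme.fromSpecStalk_appTop (X := X) (x := genericPoint X)
      refine h2.trans ?_
      congr 1
    have h5 : (Spec.map (CommRingCat.ofHom (algebraMap ℂ (K X)))).appTop =
        (Scheme.ΓSpecIso (CommRingCat.of ℂ)).hom ≫ CommRingCat.ofHom (algebraMap ℂ (K X)) ≫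
          (Scheme.ΓSpecIso (CommRingCat.of (K X))).inv := by
      rw [← Scheme.ΓSpecIso_naturality_assoc, Iso.hom_inv_id, Category.comp_id]
    rw [h5, h1]
    have h6 : CommRingCat.ofHom (algebraMap ℂ (K X)) = (Scheme.ΓSpecIso (CommRingCat.of ℂ)).inv ≫
        (X ↘ SpecC).appTop ≫ X.presheaf.germ ⊤ (genericPoint X) trivial := by
      ext c
      exact toK_res (le_top : (⊤ : X.Opens) ≤ ⊤) trivial trivial _
    rw [h6]
    erw [Category.assoc, Iso.hom_inv_id_assoc]
    rfl
  let S : ValuativeCommSq (X ↘ SpecC) :=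
    { R := V
      K := K X
      i₁ := i₁
      i₂ := i₂
      commSq := ⟨hsq⟩ }
  have hl : ∃ l : Spec (CommRingCat.of V) ⟶ X, Spec.map j ≫ l = i₁ := by
    obtain ⟨⟨⟨l, hl1, -⟩⟩⟩ := hex S
    exact ⟨l, hl1⟩
  obtain ⟨l, hl1⟩ := hl
  have h1 : Spec.map (Scheme.stalkClosedPointTo l) ≫
      X.fromSpecStalk (l (IsLocalRing.closedPoint V)) = l :=
    Scheme.Spec_stalkClosedPointTo_fromSpecStalk l
  have h2 : Spec.map (X.presheaf.stalkSpecializes ((genericPoint_spec X).specializes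
      (Set.mem_univ (l (IsLocalRing.closedPoint V))))) ≫
      X.fromSpecStalk (l (IsLocalRing.closedPoint V)) = i₁ :=
    Scheme.SpecMap_stalkSpecializes_fromSpecStalk _
  rw [← h2] at hl1
  have h3 : Spec.map (Scheme.stalkClosedPointTo l ≫ j) ≫
      X.fromSpecStalk (l (IsLocalRing.closedPoint V)) =
      Spec.map (X.presheaf.stalkSpecializes ((genericPoint_spec X).specializes
      (Set.mem_univ (l (IsLocalRing.closedPoint V))))) ≫
      X.fromSpecStalk (l (IsLocalRing.closedPoint V)) := by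
    rw [Spec.map_comp, Category.assoc, h1]
    exact hl1
  have h4 := Spec.map_injective ((cancel_mono _).1 h3)
  refine ⟨l (IsLocalRing.closedPoint V), ?_⟩
  rintro _ ⟨a, rfl⟩
  have h5 := congrArg (fun f => f.hom a) h4
  change (algebraMap V (K X) ((Scheme.stalkClosedPointTo l).hom a)) = _ at h5
  have h6 : stK (l (IsLocalRing.closedPoint V)) a =
      (X.presheaf.stalkSpecializes ((genericPoint_spec X).specializes
      (Set.mem_univ (l (IsLocalRing.closedPoint V))))).hom a :=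
    rfl
  have h7 := ((Scheme.stalkClosedPointTo l).hom a).2
  exact (h5.trans h6.symm) ▸ h7

end Vale.Agent.P292Z
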