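import Vale.Agent.P292Z.Frame
import Mathlib.Topology.ExtremallyDisconnected
import Mathlib.RingTheory.Artinian.Instances
import Mathlib.RingTheory.Unramified.Field

/-!
# A connected smooth scheme is integral
-/

open AlgebraicGeometry CategoryTheory TopologicalSpace Opposite TensorProduct
open scoped nonZeroDivisors

namespace Vale.Agent.P292Z

theorem exists_idem_of_etale (P A : Type) [CommRing P] [IsDomain P] [IsIntegrallyClosed P]
    [CommRing A] [Algebra P A] [Algebra.Etale P A] : _root_.IsReduced A ∧ ∀ S : Set A, ∃ ε : A,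
      (∀ a ∈ S, a * (1 - ε) = 0) ∧ ∀ b, (∀ a ∈ S, a * b = 0) → b * ε = 0 := by
  let K := FractionRing P
  have hflat : Module.Flat P A := inferInstance
  have hle : Algebra.algebraMapSubmonoid A P⁰ ≤ A⁰ := by
    rintro _ ⟨x, hx, rfl⟩
    have h := Module.Flat.isSMulRegular_of_nonZeroDivisors (M := A) hx
    refine mem_nonZeroDivisors_iff_left.2 fun a ha => h ?_
    change x • a = x • 0
    rw [smul_zero, Algebra.smul_def, ha]
  have inj : Function.Injective (algebraMap A (A ⊗[P] K)) := IsLocalization.injective _ hle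
  have hfin : Module.Finite K (K ⊗[P] A) := Algebra.FormallyUnramified.finite_of_free K _
  have hred : _root_.IsReduced (K ⊗[P] A) := Algebra.FormallyUnramified.isReduced_of_field K _
  have hart : IsArtinianRing (K ⊗[P] A) := IsArtinianRing.of_finite K _
  have hss' : IsSemisimpleRing (K ⊗[P] A) := IsArtinianRing.isSemisimpleRing_of_isReduced _
  have hss : IsSemisimpleRing (A ⊗[P] K) :=
    (Algebra.TensorProduct.comm P K A).toRingEquiv.isSemisimpleRing
  have hred' : _root_.IsReduced (A ⊗[P] K) :=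
    isReduced_of_injective (Algebra.TensorProduct.comm P A K) (AlgEquiv.injective _)
  have hint : ∀ x : A ⊗[P] K, _root_.IsIntegral A x → ∃ a, algebraMap A (A ⊗[P] K) a = x := by
    intro x hx
    obtain ⟨t, ht⟩ := (TensorProduct.toIntegralClosure_bijective_of_smooth
      (R := P) (S := A) (B := K)).2 ⟨x, hx⟩
    have hx' : x = (TensorProduct.toIntegralClosure P A K t : A ⊗[P] K) := by rw [ht]
    rw [hx']
    clear ht hx' hx x
    induction t with
    | zero => exact ⟨0, by simp⟩
    | add a b ha hb =>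
      obtain ⟨a', ha'⟩ := ha
      obtain ⟨b', hb'⟩ := hb
      exact ⟨a' + b', by rw [map_add, map_add, ha', hb']; rfl⟩
    | tmul a y =>
      obtain ⟨z, hz⟩ := (isIntegrallyClosed_iff K).1 ‹_› y.2
      refine ⟨z • a, ?_⟩
      have : (TensorProduct.toIntegralClosure P A K (a ⊗ₜ[P] y) : A ⊗[P] K) = a ⊗ₜ[P] (y : K) := rfl
      rw [this, ← hz, Algebra.algebraMap_eq_smul_one (R := P) (A := K) z, ← TensorProduct.smul_tmul]
      rfl
  refine ⟨isReduced_of_injective _ inj, fun S => ?_⟩
  obtain ⟨e, he, hS⟩ := IsSemisimpleRing.ideal_eq_span_idempotent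
    (Ideal.span (algebraMap A (A ⊗[P] K) '' S))
  obtain ⟨ε, rfl⟩ := hint e ⟨Polynomial.X ^ 2 - Polynomial.X,
    Polynomial.monic_X_pow_sub (Polynomial.degree_X_le.trans_lt (by norm_num)), by simp [sq, he.eq]⟩
  refine ⟨ε, fun a ha => inj ?_, fun b hb => inj ?_⟩
  · have h1 : algebraMap A (A ⊗[P] K) a ∈ Ideal.span {algebraMap A (A ⊗[P] K) ε} :=
      hS ▸ Ideal.subset_span ⟨a, ha, rfl⟩
    obtain ⟨c, hc⟩ := Ideal.mem_span_singleton'.1 h1
    rw [map_mul, map_sub, map_one, ← hc, mul_assoc, mul_sub, he.eq, mul_one, sub_self, mul_zero,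
      map_zero]
  · have h1 : ∀ x ∈ Ideal.span (algebraMap A (A ⊗[P] K) '' S),
        algebraMap A (A ⊗[P] K) b * x = 0 := by
      intro x hx
      induction hx using Submodule.span_induction with
      | mem x hx =>
        obtain ⟨a, ha, rfl⟩ := hx
        rw [← map_mul, mul_comm, hb a ha, map_zero]
      | zero => exact mul_zero _
      | add x y _ _ hx hy => rw [mul_add, hx, hy, add_zero]
      | smul c x _ hx => rw [smul_eq_mul, mul_left_comm, hx, mul_zero]
    rw [map_mul, map_zero]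
    exact h1 _ (hS ▸ Ideal.mem_span_singleton_self _)

theorem isIntegral_of_smooth (X : Scheme.{0}) [X.Over SpecC] [ConnectedSpace X] (d : ℕ)
    [SmoothOfRelativeDimension d (X ↘ SpecC)] : IsIntegral X := by
  have key : ∀ x : X, ∃ U : X.affineOpens, x ∈ U.1 ∧ _root_.IsReduced Γ(X, U.1) ∧
      ∀ S : Set Γ(X, U.1), ∃ ε : Γ(X, U.1), (∀ a ∈ S, a * (1 - ε) = 0) ∧
        ∀ b, (∀ a ∈ S, a * b = 0) → b * ε = 0 := by
    intro x
    obtain ⟨U, hx, g, -, het⟩ := exists_etale_coords d x
    let _ : Algebra (MvPolynomial (Fin d) ℂ) Γ(X, U.1) := g.toAlgebra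
    have : Algebra.Etale (MvPolynomial (Fin d) ℂ) Γ(X, U.1) := het
    exact ⟨U, hx, exists_idem_of_etale (MvPolynomial (Fin d) ℂ) _⟩
  have hred : IsReduced X := by
    have (x : X) : _root_.IsReduced (X.presheaf.stalk x) := by
      obtain ⟨U, hx, h, -⟩ := key x
      let _ := TopCat.Presheaf.algebra_section_stalk X.presheaf (U := U.1) ⟨x, hx⟩
      have hloc := U.2.isLocalization_stalk ⟨x, hx⟩
      exact isReduced_localizationPreserves (U.2.primeIdealOf ⟨x, hx⟩).asIdeal.primeCompl _ h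
    exact isReduced_of_isReduced_stalk X
  have hed : ExtremallyDisconnected X := by
    refine ⟨fun W hW => isOpen_iff_forall_mem_open.2 fun x hx => ?_⟩
    obtain ⟨U, hxU, -, h⟩ := key x
    obtain ⟨ε, h1, h2⟩ := h {a | (X.basicOpen a : Set X) ⊆ W}
    refine ⟨X.basicOpen ε, fun y hy => ?_, (X.basicOpen ε).isOpen, ?_⟩
    · rw [mem_closure_iff]
      intro N hN hyN
      obtain ⟨b, hb, hyb⟩ := U.2.exists_basicOpen_le (V := ⟨N, hN⟩) ⟨y, hyN⟩ (X.basicOpen_le ε hy)
      by_contra hcon
      have h3 : b * ε = 0 := h2 b fun a ha => by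
        rw [← basicOpen_eq_bot_iff, Scheme.basicOpen_mul, eq_bot_iff]
        exact fun z hz => hcon ⟨z, hb hz.2, ha hz.1⟩
      have h4 : y ∈ X.basicOpen (b * ε) := by
        rw [Scheme.basicOpen_mul]
        exact ⟨hyb, hy⟩
      rw [h3, Scheme.basicOpen_zero] at h4
      exact h4
    · by_contra hcon
      have h3 : x ∈ X.basicOpen (1 - ε) := by
        rw [SetLike.mem_coe, mem_basicOpen_iff U.2 hxU, not_not] at hcon
        rw [mem_basicOpen_iff U.2 hxU]
        intro h4
        have h5 := Ideal.add_mem _ h4 hcon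
        rw [sub_add_cancel] at h5
        exact (U.2.primeIdealOf ⟨x, hxU⟩).isPrime.ne_top ((Ideal.eq_top_iff_one _).2 h5)
      obtain ⟨y, hy1, hy2⟩ := mem_closure_iff.1 hx _ (X.basicOpen (1 - ε)).isOpen h3
      obtain ⟨a, ha, hya⟩ := U.2.exists_basicOpen_le (V := ⟨W, hW⟩) ⟨y, hy2⟩ (X.basicOpen_le _ hy1)
      have h4 : y ∈ X.basicOpen (a * (1 - ε)) := by
        rw [Scheme.basicOpen_mul]
        exact ⟨hya, hy1⟩
      rw [h1 a ha, Scheme.basicOpen_zero] at h4
      exact h4
  have : PreirreducibleSpace X := ExtremallyDisconnected.toPreirreducibleSpace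
  have : IrreducibleSpace X := ⟨inferInstance⟩
  exact isIntegral_of_irreducibleSpace_of_isReduced X

end Vale.Agent.P292Z
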