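import Mathlib.AlgebraicGeometry.Morphisms.Proper
import Mathlib.AlgebraicGeometry.Morphisms.Smooth
import Mathlib.AlgebraicGeometry.ProjectiveSpectrum.Basic
import Mathlib.AlgebraicGeometry.IdealSheaf.Subscheme
import Mathlib.RingTheory.Derivation.Lie
import Mathlib.RingTheory.Kaehler.Basic
import Mathlib.LinearAlgebra.ExteriorPower.Basic
import Mathlib.RingTheory.MvPolynomial.Homogeneous
import Vale.Agent.P292.AdjVar

/-!
# Contact Fano manifolds and adjoint varieties, as schemes over `ℂ`

Sheaves are given by their sections over the affine open sets.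
-/

open AlgebraicGeometry CategoryTheory TopologicalSpace

namespace Vale.Agent.P292V

section Forms

variable {A : Type} [CommRing A] {M : Type} [AddCommGroup M] [Module A M] {d m : ℕ}

variable (A M d m) in
/-- `Hom ((⋀ ^ d M) ^ ⊗ m, A)`. -/
abbrev Anti : Type := MultilinearMap A (fun _ : Fin m => ⋀[A]^d M) A

/-- The value of `s` on `(η 1 1 ∧ ⋯ ∧ η 1 d) ⊗ ⋯ ⊗ (η m 1 ∧ ⋯ ∧ η m d)`. -/
noncomputable def Anti.eval (s : Anti A M d m) (η : Fin m → Fin d → M) : A :=
  s fun k => exteriorPower.ιMulti A d (η k)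

/-- The values of `s`; they vanish simultaneously exactly where `s` vanishes. -/
def Anti.values (s : Anti A M d m) : Set A := Set.range s

end Forms

section Affine

variable {A B : Type} [CommRing A] [Algebra ℂ A] [CommRing B] [Algebra ℂ B]

variable (A) in
/-- The vector fields on `Spec A`. -/
abbrev Der : Type := Derivation ℂ A A

variable (A) in
/-- The `A`-modules of vector fields on `Spec A`. -/
abbrev Fields : Type := Submodule A (Der A)

/-- The vector field `v` belongs to `F`. -/
def Fields.Mem (F : Fields A) (v : Der A) : Prop := v ∈ F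

/-- The vector fields `w` on `Spec A` and `v` on `Spec B` are related by the morphism
`Spec A ⟶ Spec B` given by `ρ`. For an open immersion: `w` is the restriction of `v`. -/
def Related (ρ : B →+* A) (w : Der A) (v : Der B) : Prop := ∀ b, w (ρ b) = ρ (v b)

/-- The function `w a - c`. -/
def Der.applySub (w : Der A) (a : A) (c : ℂ) : A := w a - algebraMap ℂ A c

/-- There is an exact sequence `0 → F → T → O → 0` on `Spec A`, and the Levi pairing
`(v, w) ↦ θ [v, w]` on `F` is nondegenerate at every point `p`: if `v` does not vanish at `p`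
then `θ [v, w]` does not vanish at `p` for some `w`. -/
def IsContactModule (F : Fields A) : Prop :=
  ∃ θ : Der A →ₗ[A] A, Function.Surjective θ ∧ LinearMap.ker θ = F ∧
    ∀ p : Ideal A, p.IsPrime → ∀ v ∈ F, (∃ a, v a ∉ p) → ∃ w ∈ F, θ ⁅v, w⁆ ∉ p

variable (A) in
/-- The sections of `-m K = Hom (K ^ ⊗ m, O)` on `Spec A` of dimension `d`, `K = ⋀ ^ d Ω`. -/
abbrev AntiForm (d m : ℕ) : Type := Anti A Ω[A⁄ℂ] d m

/-- The differential `df`. -/
noncomputable def diff (f : A) : Ω[A⁄ℂ] := KaehlerDifferential.D ℂ A f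

/-- `t` is the restriction of `s` along the open immersion `Spec B ⟶ Spec A` given by `ρ`. -/
def Restricts {d m : ℕ} (ρ : A →+* B) (s : AntiForm A d m) (t : AntiForm B d m) : Prop :=
  ∀ f : Fin m → Fin d → A,
    t.eval (fun k j => diff (ρ (f k j))) = ρ (s.eval fun k j => diff (f k j))

end Affine

section Schemes

variable {X Y : Scheme.{0}}

variable (X) in
/-- The ring `O_X (U)`. -/
abbrev Fn (U : X.Opens) : Type := Γ(X, U)

/-- The restriction of functions. -/
noncomputable def res {U V : X.Opens} (h : V ≤ U) : Fn X U →+* Fn X V :=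
  (X.presheaf.map (homOfLE h).op).hom

/-- The preimage of an open set. -/
noncomputable def pre (f : X ⟶ Y) (U : Y.Opens) : X.Opens := f ⁻¹ᵁ U

/-- The image of a point. -/
noncomputable def image (f : X ⟶ Y) (x : X) : Y := f x

/-- The pull-back of functions. -/
noncomputable def pull (f : X ⟶ Y) {V : X.Opens} {U : Y.Opens} (h : V ≤ pre f U) :
    Fn Y U →+* Fn X V :=
  (f.appLE U V h).hom

/-- The pull-back of the function `a`. -/
noncomputable def pullFn (f : X ⟶ Y) {V : X.Opens} {U : Y.Opens} (h : V ≤ pre f U) (a : Fn Y U) :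
    Fn X V :=
  pull f h a

/-- The homomorphism `R → O_X (U)` given by `X ⟶ Spec R`. -/
noncomputable def structHom {R : CommRingCat.{0}} (f : X ⟶ Spec R) (U : X.Opens) : R →+* Fn X U :=
  (pull f (U := ⊤) le_top).comp (Scheme.ΓSpecIso R).inv.hom

end Schemes

/-- The scheme `Spec ℂ`. -/
noncomputable abbrev SpecC : Scheme.{0} := Spec (CommRingCat.of ℂ)

/-- The functions on an open set of a scheme over `ℂ` form a `ℂ`-algebra. -/
noncomputable instance algebraFn (X : Scheme.{0}) [X.Over SpecC] (U : X.Opens) :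
    Algebra ℂ (Fn X U) :=
  (structHom (X ↘ SpecC) U).toAlgebra

section Contact

variable (X : Scheme.{0}) [X.Over SpecC]

/-- The sections of the tangent sheaf `T_X` over the affine open set `U`. -/
abbrev VF (U : X.affineOpens) : Type := Der (Fn X U)

/-- A subsheaf of `O_X`-modules `F ⊆ T_X`. -/
structure Distribution where
  /-- the sections over `U` -/
  sec : ∀ U : X.affineOpens, Fields (Fn X U)
  restrict : ∀ (U V : X.affineOpens) (h : V.1 ≤ U.1) (v : VF X U) (w : VF X V),
    Related (res h) w v → (sec U).Mem v → (sec V).Mem w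
  glue : ∀ (U : X.affineOpens) (v : VF X U),
    (∀ x ∈ U.1, ∃ (V : X.affineOpens) (h : V.1 ≤ U.1) (w : VF X V),
      x ∈ V.1 ∧ Related (res h) w v ∧ (sec V).Mem w) → (sec U).Mem v

variable {X} in
/-- `F` is a contact structure: `L = T_X / F` is a line bundle (trivial on `W`) and the Levi
pairing is everywhere nondegenerate. -/
def IsContact (F : Distribution X) : Prop :=
  ∀ x : X, ∃ W : X.Opens, x ∈ W ∧ ∀ U : X.affineOpens, U.1 ≤ W → IsContactModule (F.sec U)

/-- A global section of `-m K_X` on the `d`-dimensional variety `X`. -/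
structure AntiSection (d m : ℕ) where
  /-- the section over `U` -/
  val : ∀ U : X.affineOpens, AntiForm (Fn X U) d m
  restrict : ∀ (U V : X.affineOpens) (h : V.1 ≤ U.1), Restricts (res h) (val U) (val V)

variable {X} in
/-- The open set `X_s` where the section `s` does not vanish. -/
noncomputable def AntiSection.locus {d m : ℕ} (s : AntiSection X d m) : X.Opens :=
  ⨆ (U : X.affineOpens) (a ∈ (s.val U).values), X.basicOpen a

/-- `-K_X` is ample: every point lies in an affine open set `X_s`, `s ∈ H⁰(X, -m K_X)`, `m > 0`. -/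
def IsFano (d : ℕ) : Prop :=
  ∀ x : X, ∃ (m : ℕ) (s : AntiSection X d m), 0 < m ∧ x ∈ s.locus ∧ IsAffineOpen s.locus

end Contact

/-- The isomorphism `e : X ≅ Y` carries the distribution `F` on `X` to the family `G` of sets of
vector fields on `Y`: if `w` on `V = e⁻¹ U` and `v` on `U` correspond to each other under `e`,
then `w` is a section of `F` if and only if `v` lies in `G U`. -/
def Carries {X Y : Scheme.{0}} [X.Over SpecC] [Y.Over SpecC] (e : X ≅ Y) (F : Distribution X)
    (G : ∀ U : Y.affineOpens, Set (VF Y U)) : Prop :=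
  ∀ (U : Y.affineOpens) (V : X.affineOpens) (h : V.1 = pre e.hom U.1) (w : VF X V) (v : VF Y U),
    Related (pull e.hom h.le) w v → ((F.sec V).Mem w ↔ v ∈ G U)

/-- The function `a / b` on the open set `b ≠ 0` of `Proj`, for `a`, `b` of degree one. -/
noncomputable def frac {S σ : Type} [CommRing S] [SetLike σ S] [AddSubgroupClass σ S] (𝒜 : ℕ → σ)
    [GradedRing 𝒜] {a b : S} (ha : a ∈ 𝒜 1) (hb : b ∈ 𝒜 1) :
    Fn (Proj 𝒜) (Proj.basicOpen 𝒜 b) :=
  (Proj.awayToSection 𝒜 b).hom (HomogeneousLocalization.Away.mk 𝒜 hb 1 a ha)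

section Adjoint

attribute [local instance] MvPolynomial.gradedAlgebra

variable (g : Type) [LieRing g] [LieAlgebra ℂ g] [FiniteDimensional ℂ g]

/-- The polynomials in the coordinates `x_i` on `g` given by a basis. -/
abbrev Pol : Type := MvPolynomial (Fin (Module.finrank ℂ g)) ℂ

/-- The forms on `g`. -/
noncomputable abbrev forms : ℕ → Submodule ℂ (Pol g) :=
  MvPolynomial.homogeneousSubmodule (Fin (Module.finrank ℂ g)) ℂ

/-- The projective space `ℙ(g)` of lines in `g`. -/
noncomputable abbrev PP : Scheme.{0} := Proj (forms g)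

variable {g}

/-- The open set `G ≠ 0` of `ℙ(g)`. -/
noncomputable def nonzero (G : Pol g) : (PP g).Opens := Proj.basicOpen (forms g) G

/-- The coordinates of a vector. -/
noncomputable def coord (z : g) (i : Fin (Module.finrank ℂ g)) : ℂ :=
  (Module.finBasis ℂ g).repr z i

/-- `x` is the point `[z]` of `ℙ(g)`. -/
def IsPoint (x : PP g) (z : g) : Prop :=
  ∀ k, ∀ G ∈ forms g k, x ∈ nonzero G ↔ MvPolynomial.eval (coord z) G ≠ 0

/-- The ideal sheaf of the closure in `ℙ(g)` of the set of the points `[z]`, `z ∈ O`. -/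
noncomputable def projIdeal (O : Set g) : (PP g).IdealSheafData :=
  Scheme.IdealSheafData.vanishingIdeal (Closeds.closure {x | ∃ z ∈ O, IsPoint x z})

/-- The projectivization `ℙ(O)`, a reduced closed subscheme of `ℙ(g)`. -/
noncomputable def projOrbit (O : Set g) : Scheme.{0} := (projIdeal O).subscheme

/-- The inclusion `ℙ(O) ⊆ ℙ(g)`. -/
noncomputable def incl (O : Set g) : projOrbit O ⟶ PP g := (projIdeal O).subschemeι

noncomputable instance overProjOrbit (O : Set g) : (projOrbit O).Over SpecC :=
  ⟨incl O ≫ Proj.toSpecZero (forms g) ≫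
    Spec.map (CommRingCat.ofHom (algebraMap ℂ (forms g 0)))⟩

/-- The function `x_i / x_j` on the chart `x_j ≠ 0` of `ℙ(g)`. -/
noncomputable def ratio (i j : Fin (Module.finrank ℂ g)) :
    Fn (PP g) (nonzero (MvPolynomial.X j)) :=
  frac (forms g) (MvPolynomial.isHomogeneous_X ℂ i) (MvPolynomial.isHomogeneous_X ℂ j)

/-- The tangent vectors `u = ⁅b, z⁆` of the adjoint orbit at `z` which are orthogonal to the
Euler vector `z = ⁅a, z⁆` for the Kirillov-Kostant-Souriau form
`ω (⁅a, z⁆, ⁅b, z⁆) = κ (z, ⁅a, b⁆)`. -/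
def IsHorizontal (z u : g) : Prop :=
  ∃ a b : g, ⁅a, z⁆ = z ∧ ⁅b, z⁆ = u ∧ killingForm ℂ g z ⁅a, b⁆ = 0

/-- The value at the point `[z]` of the vector field `w` on `V ⊆ Y` is mapped by `ι : Y ⟶ ℙ(g)` to
the class of `u` in the tangent space `g / ℂ z` of `ℙ(g)`: in each chart `x_j ≠ 0` containing `V`
the derivative of `x_i / x_j` in the direction `w` has the value `(u_i z_j - z_i u_j) / z_j ^ 2`
at the point. -/
def HasTangent {Y : Scheme.{0}} [Y.Over SpecC] (ι : Y ⟶ PP g) {V : Y.affineOpens} (w : VF Y V)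
    (x : Y) (z u : g) : Prop :=
  ∀ (i j) (hj : V.1 ≤ pre ι (nonzero (MvPolynomial.X j))),
    x ∉ Y.basicOpen (Der.applySub w (pullFn ι hj (ratio i j))
      ((coord u i * coord z j - coord z i * coord u j) / coord z j ^ 2))

/-- The canonical contact distribution of `Y = ℙ(O)`, for `ι : Y ⟶ ℙ(g)` the inclusion: `v` is a
section over `U` if its value at every point `[z]` of `U`, `z ∈ O`, is the class of a horizontal
vector. -/
def canonical {Y : Scheme.{0}} [Y.Over SpecC] (ι : Y ⟶ PP g) (O : Set g) (U : Y.affineOpens) :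
    Set (VF Y U) :=
  {v | ∀ x ∈ U.1, ∀ z ∈ O, IsPoint (image ι x) z → ∃ u, IsHorizontal z u ∧
    ∀ (V : Y.affineOpens) (h : V.1 ≤ U.1) (w : VF Y V),
      x ∈ V.1 → Related (res h) w v → HasTangent ι w x z u}

end Adjoint

end Vale.Agent.P292V
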