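import Vale.Agent.P292Z.Final
import Vale.Agent.P292Z.Integral
import Vale.Agent.P292Z.Stmt

/-!
# Translation between the two sets of definitions
-/

open AlgebraicGeometry CategoryTheory TopologicalSpace

namespace Vale.Agent.P292Z

variable {X : Scheme.{0}} [X.Over SpecC]

theorem related_res {U V : X.affineOpens} (h : V.1 ≤ U.1) (w : VF X V) (v : VF X U) :
    Related (𝟙 X) (show V.1 ≤ 𝟙 X ⁻¹ᵁ U.1 from h) w v ↔ P292V.Related (P292V.res h) w v := by
  unfold Related
  rw [id_appLE]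
  rfl

/-- The distribution in the other form. -/
def toDist (F : P292V.Distribution X) : Distribution X where
  sec U := F.sec U
  restrict U V h v w hr hv := F.restrict U V h v w ((related_res h w v).1 hr) hv
  glue U v h := F.glue U v fun x hx => by
    obtain ⟨V, i, w, h1, h2, h3⟩ := h x hx
    exact ⟨V, i, w, h1, (related_res i w v).1 h2, h3⟩

theorem isContact_toDist {F : P292V.Distribution X} (hF : P292V.IsContact F) :
    IsContact (toDist F) := by
  intro x₀
  obtain ⟨W, hW, h⟩ := hF x₀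
  refine ⟨W, hW, fun U hU => ?_⟩
  obtain ⟨θ, h1, h2, h3⟩ := h U hU
  refine ⟨θ, h1, h2, fun x hx v hv ⟨a, ha⟩ => ?_⟩
  obtain ⟨w, hw, hw'⟩ := h3 _ (U.2.primeIdealOf ⟨x, hx⟩).isPrime v hv
    ⟨a, (mem_basicOpen_iff U.2 hx _).1 ha⟩
  exact ⟨w, hw, (mem_basicOpen_iff U.2 hx _).2 hw'⟩

theorem isFano_of {d : ℕ} (h : P292V.IsFano X d) : IsFano X d := by
  intro x
  obtain ⟨m, s, hm, h1, h2⟩ := h x
  let s' : AntiSection X d m := ⟨fun U => s.val U, fun U V i f => s.restrict U V i f⟩
  have h3 : s.locus = s'.locus := iSup_congr fun U => iSup_range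
  exact ⟨m, s', hm, h3 ▸ h1, h3 ▸ h2⟩

theorem mem_canonical_iff {g : Type} [LieRing g] [LieAlgebra ℂ g] [FiniteDimensional ℂ g]
    (O : Set g) (U : (projOrbit O).affineOpens) (v : VF (projOrbit O) U) :
    v ∈ canonical O U ↔ v ∈ P292V.canonical (incl O) O U :=
  forall₂_congr fun _ _ => forall₃_congr fun _ _ _ => exists_congr fun _ => and_congr_right fun _ =>
    forall₄_congr fun _ i w _ => imp_congr_left (related_res i w v)

/-- Reduction of the classification to the statement on section rings. -/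
theorem main
    (H : ∀ (R : Type) [CommRing R] [Algebra ℂ R] (𝒜 : ℕ → Submodule ℂ R) [GradedAlgebra 𝒜]
      (P : R →ₗ[ℂ] R →ₗ[ℂ] R), P292.IsContactFano 𝒜 P → 3 ≤ Algebra.trdeg ℂ R →
        P292.IsAdjointVariety 𝒜 P)
    (n : ℕ) (hn : 1 ≤ n) (X : Scheme.{0}) [X.Over P292V.SpecC] [ConnectedSpace X]
    [IsProper (X ↘ P292V.SpecC)] [SmoothOfRelativeDimension (2 * n + 1) (X ↘ P292V.SpecC)]
    (F : P292V.Distribution X) (hF : P292V.IsContact F) (hK : P292V.IsFano X (2 * n + 1)) :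
    ∃ (g : Type) (_ : LieRing g) (_ : LieAlgebra ℂ g) (_ : FiniteDimensional ℂ g)
      (_ : LieAlgebra.IsSimple ℂ g) (O : Set g), P292.IsMinimalOrbit O ∧
        ∃ e : X ≅ P292V.projOrbit O, e.hom ≫ (P292V.projOrbit O ↘ P292V.SpecC) = X ↘ P292V.SpecC ∧
          P292V.Carries e F (P292V.canonical (P292V.incl O) O) := by
  have := isIntegral_of_smooth X (2 * n + 1)
  obtain ⟨g, _, _, _, _, O, h1, e, h2, h3⟩ :=
    main_of_integral H (by omega) (isContact_toDist hF) (isFano_of hK)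
  refine ⟨g, _, _, inferInstance, inferInstance, O, h1, e, h2, ?_⟩
  rintro U ⟨V, hV⟩ (rfl : V = _) w v hr
  exact (h3 U w v hr).trans (mem_canonical_iff O U v)

end Vale.Agent.P292Z
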