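import Mathlib.RingTheory.Derivation.Lie
import Mathlib.LinearAlgebra.Matrix.NonsingularInverse
import Mathlib.LinearAlgebra.Matrix.ToLinearEquiv
import Mathlib.RingTheory.Ideal.Quotient.Operations
import Mathlib.Tactic

/-!
# Exact two-forms, Hamiltonian vector fields, the Poisson bracket
-/

namespace Vale.Agent.P292Z

theorem der_sum_apply' {k A M ι : Type*} [CommRing k] [CommRing A] [Algebra k A] [AddCommGroup M]
    [Module A M] [Module k M] (s : Finset ι) (D : ι → Derivation k A M) (a : A) :
    (∑ i ∈ s, D i) a = ∑ i ∈ s, D i a := by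
  classical
  induction s using Finset.induction_on with
  | empty => simp
  | insert b s hb ih => rw [Finset.sum_insert hb, Finset.sum_insert hb, Derivation.add_apply, ih]

section Ring

variable {k A : Type*} [CommRing k] [CommRing A] [Algebra k A]

theorem smul_lie_der (f : A) (D E : Derivation k A A) : ⁅f • D, E⁆ = f • ⁅D, E⁆ - E f • D := by
  ext a
  simp only [Derivation.commutator_apply, Derivation.smul_apply, Derivation.sub_apply,
    smul_eq_mul, Derivation.leibniz]
  ring

/-- The exterior derivative of a one-form. -/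
def om (θ : Derivation k A A →ₗ[A] A) (D E : Derivation k A A) : A :=
  D (θ E) - E (θ D) - θ ⁅D, E⁆

variable (θ : Derivation k A A →ₗ[A] A)

theorem om_skew (D E : Derivation k A A) : om θ D E = -om θ E D := by
  rw [om, om, ← lie_skew D E, map_neg]
  ring

theorem om_self (D : Derivation k A A) : om θ D D = 0 := by
  rw [om, lie_self, map_zero]
  ring

theorem om_add_left (D D' E : Derivation k A A) : om θ (D + D') E = om θ D E + om θ D' E := by
  simp only [om, add_lie, map_add, Derivation.add_apply]
  ring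

theorem om_smul_left (f : A) (D E : Derivation k A A) : om θ (f • D) E = f * om θ D E := by
  simp only [om, smul_lie_der, map_sub, map_smul, Derivation.smul_apply, smul_eq_mul,
    Derivation.leibniz]
  ring

theorem om_add_right (D E E' : Derivation k A A) : om θ D (E + E') = om θ D E + om θ D E' := by
  rw [om_skew, om_add_left, om_skew θ D E, om_skew θ D E']
  ring

theorem om_smul_right (f : A) (D E : Derivation k A A) : om θ D (f • E) = f * om θ D E := by
  rw [om_skew, om_smul_left, om_skew θ D E]
  ring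

/-- The two-form as a bilinear map. -/
noncomputable def omL : Derivation k A A →ₗ[A] Derivation k A A →ₗ[A] A :=
  LinearMap.mk₂ A (om θ) (om_add_left θ) (om_smul_left θ) (om_add_right θ) (om_smul_right θ)

theorem omL_apply (D E : Derivation k A A) : omL θ D E = om θ D E := rfl

theorem om_sum_left {ι : Type*} (s : Finset ι) (c : ι → A) (D : ι → Derivation k A A)
    (E : Derivation k A A) : om θ (∑ i ∈ s, c i • D i) E = ∑ i ∈ s, c i * om θ (D i) E := by
  rw [← omL_apply, map_sum, LinearMap.sum_apply]
  simp only [map_smul, LinearMap.smul_apply, omL_apply, smul_eq_mul]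

theorem om_sum_right {ι : Type*} (s : Finset ι) (c : ι → A) (D : Derivation k A A)
    (E : ι → Derivation k A A) : om θ D (∑ i ∈ s, c i • E i) = ∑ i ∈ s, c i * om θ D (E i) := by
  rw [← omL_apply, map_sum]
  simp only [map_smul, omL_apply, smul_eq_mul]

theorem om_sub_left (D D' E : Derivation k A A) : om θ (D - D') E = om θ D E - om θ D' E := by
  rw [← omL_apply, map_sub, LinearMap.sub_apply, omL_apply, omL_apply]

theorem om_sub_right (D E E' : Derivation k A A) : om θ D (E - E') = om θ D E - om θ D E' := by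
  rw [← omL_apply, map_sub, omL_apply, omL_apply]

/-- An exact form is closed. -/
theorem om_closed (D E G : Derivation k A A) :
    D (om θ E G) - E (om θ D G) + G (om θ D E) - om θ ⁅D, E⁆ G + om θ ⁅D, G⁆ E -
      om θ ⁅E, G⁆ D = 0 := by
  have h1 : θ ⁅⁅D, E⁆, G⁆ - θ ⁅⁅D, G⁆, E⁆ + θ ⁅⁅E, G⁆, D⁆ = 0 := by
    rw [← map_sub, ← map_add]
    have : ⁅⁅D, E⁆, G⁆ - ⁅⁅D, G⁆, E⁆ + ⁅⁅E, G⁆, D⁆ = 0 := by
      rw [lie_lie D E G, ← lie_skew ⁅D, G⁆ E, ← lie_skew ⁅E, G⁆ D]
      abel
    rw [this, map_zero]
  simp only [om, map_sub, Derivation.commutator_apply]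
  linear_combination h1

/-- The matrix of the symplectization of the one-form `θ` in the frame `w`. -/
def cm {d : ℕ} (w : Fin d → Derivation k A A) : Matrix (Fin (d + 1)) (Fin (d + 1)) A :=
  Matrix.of fun a b => Fin.cases (Fin.cases 0 (fun j => θ (w j)) b)
    (fun i => Fin.cases (-θ (w i)) (fun j => om θ (w i) (w j)) b) a

@[simp] theorem cm_zero_zero {d : ℕ} (w : Fin d → Derivation k A A) : cm θ w 0 0 = 0 := rfl
@[simp] theorem cm_zero_succ {d : ℕ} (w : Fin d → Derivation k A A) (j : Fin d) :
    cm θ w 0 j.succ = θ (w j) := rfl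
@[simp] theorem cm_succ_zero {d : ℕ} (w : Fin d → Derivation k A A) (i : Fin d) :
    cm θ w i.succ 0 = -θ (w i) := rfl
@[simp] theorem cm_succ_succ {d : ℕ} (w : Fin d → Derivation k A A) (i j : Fin d) :
    cm θ w i.succ j.succ = om θ (w i) (w j) := rfl

/-- Nondegeneracy of the Levi form at a prime. -/
theorem det_cm_notMem {d : ℕ} (t : Fin d → A) (w : Fin d → Derivation k A A)
    (hd : ∀ i j, w i (t j) = if i = j then 1 else 0)
    (hx : ∀ v : Derivation k A A, v = ∑ i, v (t i) • w i) {e : Derivation k A A} (he : θ e = 1)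
    (p : Ideal A) [hp : p.IsPrime]
    (hl : ∀ v, θ v = 0 → (∃ a, v a ∉ p) → ∃ u, θ u = 0 ∧ θ ⁅v, u⁆ ∉ p) : (cm θ w).det ∉ p := by
  intro hdet
  have h1 : ((cm θ w).map (Ideal.Quotient.mk p)).det = 0 := by
    have := (Ideal.Quotient.mk p).map_det (cm θ w)
    rw [RingHom.mapMatrix_apply] at this
    rw [← this]
    exact Ideal.Quotient.eq_zero_iff_mem.2 hdet
  obtain ⟨hb, hb0, hb1⟩ := Matrix.exists_mulVec_eq_zero_iff.2 h1
  choose h hh using fun a => Ideal.Quotient.mk_surjective (hb a)
  have hrow : ∀ a, ∑ b, cm θ w a b * h b ∈ p := by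
    intro a
    rw [← Ideal.Quotient.eq_zero_iff_mem, map_sum]
    have := congrFun hb1 a
    simp only [Matrix.mulVec, dotProduct, Matrix.map_apply, Pi.zero_apply] at this
    simpa only [map_mul, hh] using this
  set v : Derivation k A A := ∑ j, h (Fin.succ j) • w j with hv
  have hθv : θ v ∈ p := by
    have := hrow 0
    rw [Fin.sum_univ_succ, cm_zero_zero, zero_mul, zero_add] at this
    rw [hv, map_sum]
    simpa only [map_smul, smul_eq_mul, cm_zero_succ, mul_comm] using this
  have hrow' : ∀ u, -θ u * h 0 + om θ u v ∈ p := by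
    intro u
    have h2 : -θ u * h 0 + om θ u v = ∑ i, u (t i) * (-θ (w i) * h 0 + om θ (w i) v) := by
      conv_lhs => rw [hx u]
      rw [om_sum_left, map_sum, ← Finset.sum_neg_distrib, Finset.sum_mul, ← Finset.sum_add_distrib]
      refine Finset.sum_congr rfl fun i _ => ?_
      rw [map_smul, smul_eq_mul]
      ring
    rw [h2]
    refine p.sum_mem fun i _ => p.mul_mem_left _ ?_
    have := hrow i.succ
    rw [Fin.sum_univ_succ, cm_succ_zero] at this
    rw [hv, om_sum_right]
    simpa only [cm_succ_succ, mul_comm] using this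
  have hv' : θ (v - θ v • e) = 0 := by rw [map_sub, map_smul, he, smul_eq_mul, mul_one, sub_self]
  have hall : ∀ a, (v - θ v • e) a ∈ p := by
    by_contra hcon
    push Not at hcon
    obtain ⟨u, hu, hu'⟩ := hl _ hv' hcon
    apply hu'
    have h2 : θ ⁅v - θ v • e, u⁆ = om θ u (v - θ v • e) := by
      rw [om, hv', hu, map_zero, map_zero, ← lie_skew u, map_neg]
      ring
    have h3 := hrow' u
    rw [hu, neg_zero, zero_mul, zero_add] at h3
    rw [h2, om_sub_right, om_smul_right]
    exact p.sub_mem h3 (p.mul_mem_right _ hθv)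
  have hsucc : ∀ j, h (Fin.succ j) ∈ p := by
    intro j
    have h2 := hall (t j)
    have h3 : v (t j) = h (Fin.succ j) := by
      rw [hv, der_sum_apply']
      simp [hd]
    rw [Derivation.sub_apply, h3, Derivation.smul_apply, smul_eq_mul] at h2
    have := p.add_mem h2 (p.mul_mem_right (e (t j)) hθv)
    rwa [sub_add_cancel] at this
  have hzero : h 0 ∈ p := by
    have h2 := hrow' e
    rw [he, hv, om_sum_right] at h2
    have h3 : ∑ j, h (Fin.succ j) * om θ e (w j) ∈ p :=
      p.sum_mem fun j _ => p.mul_mem_right _ (hsucc j)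
    have := p.sub_mem h3 h2
    simpa using this
  apply hb0
  funext a
  rw [← hh, Pi.zero_apply, Ideal.Quotient.eq_zero_iff_mem]
  induction a using Fin.cases with
  | zero => exact hzero
  | succ j => exact hsucc j

/-- The two-form `dθ` is symplectic. -/
structure Sympl : Prop where
  nondeg : ∀ D, (∀ E, om θ D E = 0) → D = 0
  ham : ∀ f : A, ∃ D, ∀ E, om θ D E = E f

variable {θ}

theorem om_frame {ι : Type*} [Fintype ι] [DecidableEq ι] (W : ι → Derivation k A A)
    (hW : ∀ D : Derivation k A A, ∃ c : ι → A, D = ∑ a, c a • W a) (N : Matrix ι ι A)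
    (hN : N * Matrix.of (fun a b => om θ (W a) (W b)) = 1) (f : A) (E : Derivation k A A) :
    om θ (∑ a, (∑ b, W b f * N b a) • W a) E = E f := by
  obtain ⟨c, rfl⟩ := hW E
  rw [om_sum_right, der_sum_apply']
  refine Finset.sum_congr rfl fun l _ => ?_
  rw [Derivation.smul_apply, smul_eq_mul, om_sum_left]
  congr 1
  simp only [Finset.sum_mul]
  rw [Finset.sum_comm]
  have h1 : ∀ b, ∑ a, W b f * N b a * om θ (W a) (W l) = W b f * (1 : Matrix ι ι A) b l := by
    intro b
    rw [← hN, Matrix.mul_apply, Finset.mul_sum]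
    exact Finset.sum_congr rfl fun a _ => by rw [Matrix.of_apply, mul_assoc]
  simp only [h1, Matrix.one_apply, mul_ite, mul_one, mul_zero, Finset.sum_ite_eq',
    Finset.mem_univ, if_true]

theorem sympl_of_frame {ι : Type*} [Fintype ι] [DecidableEq ι] (W : ι → Derivation k A A)
    (hW : ∀ D : Derivation k A A, ∃ c : ι → A, D = ∑ a, c a • W a) (N : Matrix ι ι A)
    (hN : N * Matrix.of (fun a b => om θ (W a) (W b)) = 1) : Sympl θ := by
  refine ⟨fun D hD => ?_, fun f => ⟨_, om_frame W hW N hN f⟩⟩
  obtain ⟨c, rfl⟩ := hW D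
  have hN' := mul_eq_one_comm.1 hN
  have h1 : Matrix.vecMul c (Matrix.of fun a b => om θ (W a) (W b)) = 0 := by
    funext b
    have := hD (W b)
    rw [om_sum_left] at this
    exact this
  have h2 : c = 0 := by
    rw [← Matrix.vecMul_one c, ← hN', ← Matrix.vecMul_vecMul, h1, Matrix.zero_vecMul]
  simp [h2]

namespace Sympl

variable (h : Sympl θ)

/-- The Hamiltonian vector field. -/
noncomputable def H (f : A) : Derivation k A A := (h.ham f).choose

theorem om_H (f : A) (E : Derivation k A A) : om θ (h.H f) E = E f := (h.ham f).choose_spec E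

theorem H_eq {f : A} {D : Derivation k A A} (hD : ∀ E, om θ D E = E f) : h.H f = D := by
  rw [← sub_eq_zero]
  exact h.nondeg _ fun E => by rw [om_sub_left, h.om_H, hD, sub_self]

theorem H_add (f g : A) : h.H (f + g) = h.H f + h.H g :=
  h.H_eq fun E => by rw [om_add_left, h.om_H, h.om_H, map_add]

theorem H_smul (c : k) (f : A) : h.H (c • f) = algebraMap k A c • h.H f :=
  h.H_eq fun E => by rw [om_smul_left, h.om_H, Derivation.map_smul, Algebra.smul_def]

theorem H_lie (f g : A) : h.H (h.H f g) = ⁅h.H f, h.H g⁆ := by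
  refine h.H_eq fun E => ?_
  have h1 := om_closed θ (h.H f) (h.H g) E
  rw [om_skew θ ⁅h.H f, E⁆, om_skew θ ⁅h.H g, E⁆] at h1
  simp only [h.om_H, Derivation.commutator_apply] at h1
  linear_combination -h1

/-- The Poisson bracket. -/
noncomputable def br : A →ₗ[k] A →ₗ[k] A :=
  LinearMap.mk₂ k (fun f g => h.H f g)
    (fun f f' g => by rw [h.H_add, Derivation.add_apply])
    (fun c f g => by rw [h.H_smul, Derivation.smul_apply, smul_eq_mul, Algebra.smul_def])
    (fun f g g' => map_add _ _ _) (fun c f g => Derivation.map_smul _ _ _)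

theorem br_apply (f g : A) : h.br f g = h.H f g := rfl

theorem br_self (f : A) : h.br f f = 0 := by
  rw [br_apply, ← h.om_H f (h.H f), om_self]

theorem br_leibniz (f g g' : A) : h.br f (g * g') = h.br f g * g' + g * h.br f g' := by
  rw [br_apply, br_apply, br_apply, Derivation.leibniz, smul_eq_mul, smul_eq_mul]
  ring

theorem br_jacobi (a b c : A) :
    h.br a (h.br b c) = h.br (h.br a b) c + h.br b (h.br a c) := by
  simp only [br_apply]
  rw [h.H_lie, Derivation.commutator_apply]
  ring

theorem br_frame {ι : Type*} [Fintype ι] [DecidableEq ι] (W : ι → Derivation k A A)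
    (hW : ∀ D : Derivation k A A, ∃ c : ι → A, D = ∑ a, c a • W a) (N : Matrix ι ι A)
    (hN : N * Matrix.of (fun a b => om θ (W a) (W b)) = 1) (f g : A) :
    h.br f g = ∑ a, (∑ b, W b f * N b a) * W a g := by
  rw [br_apply, h.H_eq (om_frame W hW N hN f), der_sum_apply']
  rfl

end Sympl

end Ring

end Vale.Agent.P292Z
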