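import Vale.Agent.P292Z.Frame
import Vale.Agent.P292Z.Symp

/-!
# Contact charts
-/

open AlgebraicGeometry CategoryTheory TopologicalSpace Opposite

namespace Vale.Agent.P292Z

variable {X : Scheme.{0}} [IsIntegral X] [X.Over SpecC]

omit [IsIntegral X] [X.Over SpecC] in
theorem exists_affine_le {W : X.Opens} {x : X} (hx : x ∈ W) :
    ∃ V : X.affineOpens, x ∈ V.1 ∧ V.1 ≤ W := by
  obtain ⟨_, ⟨V, hV, rfl⟩, hxV, hVW⟩ := X.isBasis_affineOpens.exists_subset_of_mem_open hx W.isOpen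
  exact ⟨⟨V, hV⟩, hxV, hVW⟩

/-- The coordinates and the frame on an affine open subset of the domain of a frame. -/
theorem Frame.exists_down {d : ℕ} (c : Frame X d) (V : X.affineOpens) (hV : genericPoint X ∈ V.1)
    (i : V.1 ≤ c.U.1) : ∃ (s : Fin d → Γ(X, V.1)) (u : Fin d → VF X V),
      (∀ j, toK V.1 hV (s j) = c.t j) ∧ (∀ j, ext hV (u j) = c.w j) ∧
      (∀ i j, u i (s j) = if i = j then 1 else 0) ∧ ∀ v : VF X V, v = ∑ i, v (s i) • u i := by
  choose s hs using fun j => exists_toK_eq V.1 hV fun y hy => c.t_mem y (i hy) j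
  choose u hu using fun j => P292Z.exists_down hV fun y hy => c.w_reg y (i hy) j
  refine ⟨s, u, hs, hu, fun a b => toK_injective V.1 hV ?_, fun v => ext_injective hV ?_⟩
  · rw [← ext_toK, hu, hs, c.dual]
    split_ifs
    · rw [map_one]
    · rw [map_zero]
  · rw [ext_sum]
    conv_lhs => rw [c.expand (ext hV v)]
    refine Finset.sum_congr rfl fun j _ => ?_
    rw [ext_smul, hu, ← ext_toK, hs]

theorem Frame.exists_form {d : ℕ} (c : Frame X d) (V : X.affineOpens) (hV : genericPoint X ∈ V.1)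
    (i : V.1 ≤ c.U.1) (θ : VF X V →ₗ[Γ(X, V.1)] Γ(X, V.1)) :
    ∃ θ' : DK X →ₗ[K X] K X, ∀ v, θ' (ext hV v) = toK V.1 hV (θ v) := by
  obtain ⟨s, u, hs, hu, -, hx⟩ := c.exists_down V hV i
  refine ⟨{ toFun := fun D => ∑ j, D (c.t j) * toK V.1 hV (θ (u j))
            map_add' := fun D E => ?_
            map_smul' := fun a D => ?_ }, fun v => ?_⟩
  · simp only [Derivation.add_apply, add_mul, Finset.sum_add_distrib]
  · simp only [Derivation.smul_apply, smul_eq_mul, RingHom.id_apply, Finset.mul_sum, mul_assoc]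
  · change ∑ j, ext hV v (c.t j) * toK V.1 hV (θ (u j)) = _
    conv_rhs => rw [hx v]
    rw [map_sum, map_sum]
    refine Finset.sum_congr rfl fun j _ => ?_
    rw [map_smul, smul_eq_mul, map_mul, ← hs, ext_toK]

theorem Frame.form_eq {d : ℕ} (c : Frame X d) {θ θ' : DK X →ₗ[K X] K X} {e : DK X}
    (h : ∀ i, θ' (c.w i - θ (c.w i) • e) = 0) (D : DK X) : θ' D = θ' e * θ D := by
  rw [c.expand D, map_sum, map_sum, Finset.mul_sum]
  refine Finset.sum_congr rfl fun i _ => ?_
  have h1 := h i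
  rw [map_sub, map_smul, sub_eq_zero, smul_eq_mul] at h1
  rw [map_smul, map_smul, h1, smul_eq_mul, smul_eq_mul]
  ring

theorem Reg.sub {x : X} {D D' : DK X} (h : Reg x D) (h' : Reg x D') : Reg x (D - D') :=
  fun f hf => sub_mem (h f hf) (h' f hf)

theorem Reg.smul {x : X} {D : DK X} (h : Reg x D) {a : K X} (ha : a ∈ O x) : Reg x (a • D) :=
  fun f hf => mul_mem ha (h f hf)

/-- A frame on which the contact distribution is the kernel of a form `θ`. -/
structure Chart (F : Distribution X) (d : ℕ) extends Frame X d where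
  θ : DK X →ₗ[K X] K X
  e : DK X
  e_reg : ∀ x ∈ U.1, Reg x e
  θe : θ e = 1
  θw : ∀ x ∈ U.1, ∀ i, θ (w i) ∈ O x
  ker : ∀ (V : X.affineOpens) (hV : genericPoint X ∈ V.1), V.1 ≤ U.1 → ∀ v : VF X V,
    v ∈ F.sec V ↔ θ (ext hV v) = 0
  det : ∀ x ∈ U.1, IsU x (cm θ w).det

variable {F : Distribution X} {d : ℕ}

/-- The restriction of a chart. -/
def Chart.res (c : Chart F d) (V : X.affineOpens) (hV : genericPoint X ∈ V.1)
    (i : V.1 ≤ c.U.1) : Chart F d where
  toFrame := c.toFrame.res V hV i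
  θ := c.θ
  e := c.e
  e_reg x hx := c.e_reg x (i hx)
  θe := c.θe
  θw x hx := c.θw x (i hx)
  ker W hW j := c.ker W hW (j.trans i)
  det x hx := c.det x (i hx)

theorem Chart.θ_mem (c : Chart F d) {x : X} (hx : x ∈ c.U.1) {D : DK X} (hD : Reg x D) :
    c.θ D ∈ O x := by
  rw [c.expand D, map_sum]
  refine sum_mem fun i _ => ?_
  rw [map_smul, smul_eq_mul]
  exact mul_mem (hD _ (c.t_mem x hx i)) (c.θw x hx i)

theorem Chart.cm_mem (c : Chart F d) {x : X} (hx : x ∈ c.U.1) (a b : Fin (d + 1)) :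
    cm c.θ c.w a b ∈ O x := by
  induction a using Fin.cases with
  | zero =>
    induction b using Fin.cases with
    | zero => exact zero_mem _
    | succ j => exact c.θw x hx j
  | succ i =>
    induction b using Fin.cases with
    | zero => exact neg_mem (c.θw x hx i)
    | succ j =>
      exact sub_mem (sub_mem (c.w_reg x hx i _ (c.θw x hx j)) (c.w_reg x hx j _ (c.θw x hx i)))
        (c.θ_mem hx ((c.w_reg x hx i).lie (c.w_reg x hx j)))

theorem exists_chart (hF : IsContact F) (d : ℕ) [SmoothOfRelativeDimension d (X ↘ SpecC)]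
    (x : X) : ∃ c : Chart F d, x ∈ c.U.1 := by
  obtain ⟨c, hc⟩ := exists_frame (X := X) d x
  obtain ⟨W, hW, hθ⟩ := hF x
  obtain ⟨U, hxU, hUW⟩ := exists_affine_le (W := W ⊓ c.U.1) ⟨hW, hc⟩
  have hU := gen_mem hxU
  have hUc : U.1 ≤ c.U.1 := hUW.trans inf_le_right
  obtain ⟨θ, hsurj, hker, hlevi⟩ := hθ U (hUW.trans inf_le_left)
  obtain ⟨θ', hθ'⟩ := c.exists_form U hU hUc θ
  obtain ⟨s, u, hs, hu, hd, hx⟩ := c.exists_down U hU hUc
  obtain ⟨e, he⟩ := hsurj 1
  have hmem : ∀ v, v ∈ F.sec U ↔ θ v = 0 := fun v => by rw [← hker, LinearMap.mem_ker]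
  refine ⟨⟨c.res U hU hUc, θ', ext hU e, fun y hy => reg_ext hU e hy, by rw [hθ', he, map_one],
    fun y hy i => ?_, fun V hV i v => ?_, fun y hy => ?_⟩, hxU⟩
  · change θ' (c.w i) ∈ O y
    rw [← hu, hθ']
    exact toK_mem hy _ _
  · replace i : V.1 ≤ U.1 := i
    obtain ⟨θV, hsurjV, hkerV, -⟩ := hθ V ((i.trans hUW).trans inf_le_left)
    obtain ⟨θV', hθV'⟩ := c.exists_form V hV (i.trans hUc) θV
    have h1 : ∀ D, θV' D = θV' (ext hU e) * θ' D := by
      refine c.form_eq fun j => ?_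
      obtain ⟨v', hv'⟩ := exists_restrict (U := U) (V := V) i hV (u j - θ (u j) • e)
      have h2 : v' ∈ F.sec V := F.restrict U V i _ v' hv' ((hmem _).2 (by
        rw [map_sub, map_smul, he, smul_eq_mul, mul_one, sub_self]))
      rw [← hkerV, LinearMap.mem_ker] at h2
      replace hv' := (related_id_iff (U := U) (V := V) i hV hU _ _).1 hv'
      rw [ext_sub, ext_smul, hu, ← hθ', hu] at hv'
      rw [← hv', hθV', h2, map_zero]
    have h2 : θV' (ext hU e) ≠ 0 := by
      intro h0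
      obtain ⟨e', he'⟩ := hsurjV 1
      have := h1 (ext hV e')
      rw [h0, zero_mul, hθV', he', map_one] at this
      exact one_ne_zero this
    rw [← hkerV, LinearMap.mem_ker, ← map_eq_zero_iff _ (toK_injective V.1 hV), ← hθV', h1,
      mul_eq_zero, or_iff_right h2]
  · replace hy : y ∈ U.1 := hy
    have h1 : (cm θ' c.w).det = toK U.1 hU (cm θ u).det := by
      rw [RingHom.map_det]
      congr 1
      ext a b
      rw [RingHom.mapMatrix_apply, Matrix.map_apply]
      induction a using Fin.cases with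
      | zero =>
        induction b using Fin.cases with
        | zero => simp
        | succ j => rw [cm_zero_succ, cm_zero_succ, ← hu, hθ']
      | succ i =>
        induction b using Fin.cases with
        | zero => rw [cm_succ_zero, cm_succ_zero, ← hu, hθ', map_neg]
        | succ j =>
          rw [cm_succ_succ, cm_succ_succ, ← hu, ← hu, om, om, ← ext_lie, hθ', hθ', hθ', ext_toK,
            ext_toK, map_sub, map_sub]
    change IsU y (cm θ' c.w).det
    rw [h1, isU_toK hy, mem_basicOpen_iff U.2 hy]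
    refine det_cm_notMem θ s u hd hx he _ fun v hv ⟨a, ha⟩ => ?_
    obtain ⟨w, hw, hw'⟩ := hlevi y hy v ((hmem v).2 hv) ⟨a, (mem_basicOpen_iff U.2 hy _).2 ha⟩
    exact ⟨w, (hmem w).1 hw, (mem_basicOpen_iff U.2 hy _).1 hw'⟩

theorem Chart.prop (c c' : Chart F d) (D : DK X) : c'.θ D = c'.θ c.e * c.θ D := by
  obtain ⟨V, hV, hVU⟩ := exists_affine_le (W := c.U.1 ⊓ c'.U.1) ⟨c.hU, c'.hU⟩
  refine c.toFrame.form_eq (fun j => ?_) D
  obtain ⟨v, hv⟩ := exists_down hV (D := c.w j - c.θ (c.w j) • c.e) fun y hy =>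
    (c.w_reg y (hVU hy).1 j).sub ((c.e_reg y (hVU hy).1).smul (c.θw y (hVU hy).1 j))
  rw [← hv, ← c'.ker V hV (hVU.trans inf_le_right), c.ker V hV (hVU.trans inf_le_left), hv,
    map_sub, map_smul, c.θe, smul_eq_mul, mul_one, sub_self]

/-- A rational contact form `α` and a chart around every point. -/
structure Atlas (F : Distribution X) (d : ℕ) where
  α : DK X →ₗ[K X] K X
  ch : X → Chart F d
  mem : ∀ x, x ∈ (ch x).U.1
  hα : ∀ (c : Chart F d) (D : DK X), α D = α c.e * c.θ D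
  ne : ∀ c : Chart F d, α c.e ≠ 0

theorem exists_atlas (hF : IsContact F) (d : ℕ) [SmoothOfRelativeDimension d (X ↘ SpecC)] :
    Nonempty (Atlas F d) := by
  choose ch hch using exists_chart hF d
  let c₀ := ch (genericPoint X)
  refine ⟨⟨c₀.θ, ch, hch, fun c D => c.prop c₀ D, fun c h => ?_⟩⟩
  have := c.prop c₀ c₀.e
  rw [h, zero_mul, c₀.θe] at this
  exact one_ne_zero this

namespace Atlas

variable (A : Atlas F d)

/-- The local generator of the contact line bundle in the chart `c`. -/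
noncomputable def g (c : Chart F d) : K X := A.α c.e

theorem g_ne (c : Chart F d) : A.g c ≠ 0 := A.ne c

theorem α_eq (c : Chart F d) (D : DK X) : A.α D = A.g c * c.θ D := A.hα c D

theorem isU_g_div (c c' : Chart F d) {x : X} (hx : x ∈ c.U.1) (hx' : x ∈ c'.U.1) :
    IsU x (A.g c / A.g c') := by
  have h : ∀ (c c' : Chart F d), x ∈ c.U.1 → x ∈ c'.U.1 → A.g c / A.g c' ∈ O x := by
    intro c c' hx hx'
    have h1 : A.g c = A.g c' * c'.θ c.e := A.α_eq c' c.e
    rw [h1, mul_div_cancel_left₀ _ (A.g_ne c')]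
    exact c'.θ_mem hx' (c.e_reg x hx)
  exact ⟨h c c' hx hx', div_ne_zero (A.g_ne c) (A.g_ne c'), by rw [inv_div]; exact h c' c hx' hx⟩

/-- `f` is a section of `L ^ k` near `x`. -/
def SecAt (k : ℕ) (f : K X) (x : X) : Prop := f / A.g (A.ch x) ^ k ∈ O x

/-- `f` generates `L ^ k` at `x`. -/
def GenAt (k : ℕ) (f : K X) (x : X) : Prop := IsU x (f / A.g (A.ch x) ^ k)

theorem secAt_iff (c : Chart F d) {x : X} (hx : x ∈ c.U.1) (k : ℕ) (f : K X) :
    A.SecAt k f x ↔ f / A.g c ^ k ∈ O x := by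
  have h : ∀ (c c' : Chart F d), x ∈ c.U.1 → x ∈ c'.U.1 → f / A.g c ^ k ∈ O x →
      f / A.g c' ^ k ∈ O x := by
    intro c c' hx hx' h
    have h1 : f / A.g c' ^ k = f / A.g c ^ k * (A.g c / A.g c') ^ k := by
      have := A.g_ne c
      have := A.g_ne c'
      rw [div_pow]
      field_simp
    rw [h1]
    exact mul_mem h (pow_mem (A.isU_g_div c c' hx hx').mem k)
  exact ⟨h _ _ (A.mem x) hx, h _ _ hx (A.mem x)⟩

theorem genAt_iff (c : Chart F d) {x : X} (hx : x ∈ c.U.1) (k : ℕ) (f : K X) :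
    A.GenAt k f x ↔ IsU x (f / A.g c ^ k) := by
  have h : ∀ (c c' : Chart F d), x ∈ c.U.1 → x ∈ c'.U.1 → IsU x (f / A.g c ^ k) →
      IsU x (f / A.g c' ^ k) := by
    intro c c' hx hx' h
    have h1 : f / A.g c' ^ k = f / A.g c ^ k * (A.g c / A.g c') ^ k := by
      have := A.g_ne c
      have := A.g_ne c'
      rw [div_pow]
      field_simp
    rw [h1]
    exact h.mul ((A.isU_g_div c c' hx hx').pow k)
  exact ⟨h _ _ (A.mem x) hx, h _ _ hx (A.mem x)⟩

variable {A}

theorem GenAt.secAt {k : ℕ} {f : K X} {x : X} (h : A.GenAt k f x) : A.SecAt k f x := h.mem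

theorem GenAt.ne_zero {k : ℕ} {f : K X} {x : X} (h : A.GenAt k f x) : f ≠ 0 := by
  rintro rfl
  exact IsU.ne_zero h (zero_div _)

theorem secAt_zero_iff {f : K X} {x : X} : A.SecAt 0 f x ↔ f ∈ O x := by
  rw [SecAt, pow_zero, div_one]

theorem genAt_zero_iff {f : K X} {x : X} : A.GenAt 0 f x ↔ IsU x f := by
  rw [GenAt, pow_zero, div_one]

theorem secAt_zero (k : ℕ) (x : X) : A.SecAt k 0 x := by
  rw [SecAt, zero_div]
  exact zero_mem _

theorem SecAt.add {k : ℕ} {f f' : K X} {x : X} (h : A.SecAt k f x) (h' : A.SecAt k f' x) :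
    A.SecAt k (f + f') x := by
  rw [SecAt, add_div]
  exact add_mem h h'

theorem SecAt.mul {k l : ℕ} {f f' : K X} {x : X} (h : A.SecAt k f x) (h' : A.SecAt l f' x) :
    A.SecAt (k + l) (f * f') x := by
  rw [SecAt, pow_add, mul_div_mul_comm]
  exact mul_mem h h'

theorem SecAt.pow {k : ℕ} {f : K X} {x : X} (h : A.SecAt k f x) (n : ℕ) :
    A.SecAt (k * n) (f ^ n) x := by
  rw [SecAt, pow_mul, ← div_pow]
  exact pow_mem h n

theorem GenAt.mul {k l : ℕ} {f f' : K X} {x : X} (h : A.GenAt k f x) (h' : A.GenAt l f' x) :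
    A.GenAt (k + l) (f * f') x := by
  rw [GenAt, pow_add, mul_div_mul_comm]
  exact IsU.mul h h'

theorem GenAt.pow {k : ℕ} {f : K X} {x : X} (h : A.GenAt k f x) (n : ℕ) :
    A.GenAt (k * n) (f ^ n) x := by
  rw [GenAt, pow_mul, ← div_pow]
  exact IsU.pow h n

theorem GenAt.of_mul_left {k l : ℕ} {f f' : K X} {x : X} (h : A.GenAt (k + l) (f * f') x)
    (hf : A.SecAt k f x) (hf' : A.SecAt l f' x) : A.GenAt k f x := by
  rw [GenAt, pow_add, mul_div_mul_comm] at h
  exact h.of_mul_left hf hf'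

theorem GenAt.of_mul_right {k l : ℕ} {f f' : K X} {x : X} (h : A.GenAt (k + l) (f * f') x)
    (hf : A.SecAt k f x) (hf' : A.SecAt l f' x) : A.GenAt l f' x := by
  rw [GenAt, pow_add, mul_div_mul_comm] at h
  exact h.of_mul_right hf hf'

theorem GenAt.of_pow {k n : ℕ} {f : K X} {x : X} (h : A.GenAt (k * n) (f ^ n) x) (hn : n ≠ 0)
    (hf : A.SecAt k f x) : A.GenAt k f x := by
  rw [GenAt, pow_mul, ← div_pow] at h
  exact h.of_pow hn hf

theorem GenAt.div_mem {k : ℕ} {f s : K X} {x : X} (hs : A.GenAt k s x) (hf : A.SecAt k f x) :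
    f / s ∈ O x := by
  have h := IsU.div_mem hs hf
  rwa [div_div_div_cancel_right₀ (pow_ne_zero _ (A.g_ne _))] at h

theorem GenAt.isU_div {k : ℕ} {f s : K X} {x : X} (hs : A.GenAt k s x) (hf : A.GenAt k f x) :
    IsU x (f / s) := by
  have h := IsU.div hf hs
  rwa [div_div_div_cancel_right₀ (pow_ne_zero _ (A.g_ne _))] at h

theorem GenAt.of_isU_div {k : ℕ} {f s : K X} {x : X} (hs : A.GenAt k s x) (hf : IsU x (f / s)) :
    A.GenAt k f x := by
  have h := (genAt_zero_iff.2 hf).mul hs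
  rwa [zero_add, div_mul_cancel₀ _ hs.ne_zero] at h

theorem genAt_g (c : Chart F d) {x : X} (hx : x ∈ c.U.1) : A.GenAt 1 (A.g c) x := by
  rw [A.genAt_iff c hx, pow_one, div_self (A.g_ne c)]
  exact isU_one x

theorem isOpen_genAt (k : ℕ) (f : K X) : IsOpen {x | A.GenAt k f x} := by
  rw [isOpen_iff_forall_mem_open]
  intro x hx
  refine ⟨(A.ch x).U.1 ∩ {y | IsU y (f / A.g (A.ch x) ^ k)}, fun y hy => ?_,
    (A.ch x).U.1.isOpen.inter (isOpen_isU _), A.mem x, hx⟩
  exact (A.genAt_iff _ hy.1 k f).2 hy.2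

/-- The open set where `f` generates `L ^ k`. -/
def locus (A : Atlas F d) (k : ℕ) (f : K X) : X.Opens := ⟨{x | A.GenAt k f x}, isOpen_genAt k f⟩

theorem mem_locus {k : ℕ} {f : K X} {x : X} : x ∈ A.locus k f ↔ A.GenAt k f x := Iff.rfl

/-- Extension of sections: a section over `X_s` extends after multiplication by a power of `s`. -/
theorem exists_extend [CompactSpace X] {D m : ℕ} {s f : K X} (hs : ∀ x, A.SecAt D s x)
    (hs0 : s ≠ 0) (hf : ∀ x, A.GenAt D s x → A.SecAt m f x) :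
    ∃ k₀, ∀ k ≥ k₀, ∀ x, A.SecAt (m + D * k) (f * s ^ k) x := by
  have h1 : ∀ y : X, ∃ k, ∀ x ∈ (A.ch y).U.1, A.SecAt (m + D * k) (f * s ^ k) x := by
    intro y
    set c := A.ch y
    obtain ⟨a, ha⟩ := exists_toK_eq c.U.1 c.hU (f := s / A.g c ^ D) fun x hx =>
      (A.secAt_iff c hx D s).1 (hs x)
    obtain ⟨k, hk⟩ := exists_pow_mul c.U.2 c.hU a (f := f / A.g c ^ m) (fun x hx hu => by
      rw [ha] at hu
      exact (A.secAt_iff c hx m f).1 (hf x ((A.genAt_iff c hx D s).2 hu)))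
      (by rw [ha]; exact div_ne_zero hs0 (pow_ne_zero _ (A.g_ne c)))
    refine ⟨k, fun x hx => ?_⟩
    have h2 := hk x hx
    rw [ha] at h2
    rwa [A.secAt_iff c hx, pow_add, pow_mul, mul_div_mul_comm, ← div_pow]
  choose k hk using h1
  obtain ⟨T, hT⟩ := isCompact_univ.elim_finite_subcover (fun y : X => ((A.ch y).U.1 : Set X))
    (fun y => (A.ch y).U.1.isOpen) fun x _ => Set.mem_iUnion.2 ⟨x, A.mem x⟩
  refine ⟨T.sup k, fun l hl x => ?_⟩
  obtain ⟨y, hy, hxy⟩ := Set.mem_iUnion₂.1 (hT (Set.mem_univ x))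
  obtain ⟨n, rfl⟩ := Nat.exists_eq_add_of_le ((Finset.le_sup (f := k) hy).trans hl)
  have h2 := (hk y x hxy).mul ((hs x).pow n)
  rwa [add_assoc, ← mul_add, mul_assoc, ← pow_add] at h2

end Atlas

end Vale.Agent.P292Z
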