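import Mathlib.AlgebraicGeometry.Morphisms.Proper
import Mathlib.AlgebraicGeometry.Morphisms.Smooth
import Mathlib.AlgebraicGeometry.ProjectiveSpectrum.Basic
import Mathlib.AlgebraicGeometry.IdealSheaf.Subscheme
import Mathlib.RingTheory.Derivation.Lie
import Mathlib.RingTheory.Kaehler.Basic
import Mathlib.LinearAlgebra.ExteriorPower.Basic
import Mathlib.RingTheory.MvPolynomial.Homogeneous
import Vale.Agent.P292.AdjVar

/-!
# Contact Fano manifolds and adjoint varieties, as schemes over `ℂ`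

Quasi-coherent sheaves are given by their sections over the affine open sets.
-/

open AlgebraicGeometry CategoryTheory TopologicalSpace

namespace Vale.Agent.P292Z

/-- The scheme `Spec ℂ`. -/
noncomputable abbrev SpecC : Scheme.{0} := Spec (CommRingCat.of ℂ)

/-- The functions on an open set of a scheme over `ℂ` form a `ℂ`-algebra. -/
noncomputable instance algebraSections (X : Scheme.{0}) [X.Over SpecC] (U : X.Opens) :
    Algebra ℂ Γ(X, U) :=
  ((Scheme.ΓSpecIso (CommRingCat.of ℂ)).inv ≫ (X ↘ SpecC).appTop ≫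
    X.presheaf.map (homOfLE (le_top : U ≤ ⊤)).op).hom.toAlgebra

/-- The vector fields on the affine open set `U`: the sections of the tangent sheaf `T_X`. -/
abbrev VF (X : Scheme.{0}) [X.Over SpecC] (U : X.affineOpens) : Type :=
  Derivation ℂ Γ(X, U.1) Γ(X, U.1)

/-- The vector fields `w` on `V ⊆ X` and `v` on `U ⊆ Y` are related by `f : X ⟶ Y`. For the
identity of `X` this says that `w` is the restriction of `v` to `V ⊆ U`. -/
def Related {X Y : Scheme.{0}} [X.Over SpecC] [Y.Over SpecC] (f : X ⟶ Y) {V : X.affineOpens}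
    {U : Y.affineOpens} (h : V.1 ≤ f ⁻¹ᵁ U.1) (w : VF X V) (v : VF Y U) : Prop :=
  ∀ a : Γ(Y, U.1), w (f.appLE U.1 V.1 h a) = f.appLE U.1 V.1 h (v a)

section Contact

variable (X : Scheme.{0}) [X.Over SpecC]

/-- A subsheaf of `O_X`-modules `F ⊆ T_X`. -/
structure Distribution where
  /-- the sections over `U` -/
  sec : ∀ U : X.affineOpens, Submodule Γ(X, U.1) (VF X U)
  restrict : ∀ (U V : X.affineOpens) (h : V.1 ≤ 𝟙 X ⁻¹ᵁ U.1) (v : VF X U) (w : VF X V),
    Related (𝟙 X) h w v → v ∈ sec U → w ∈ sec V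
  glue : ∀ (U : X.affineOpens) (v : VF X U),
    (∀ x ∈ U.1, ∃ (V : X.affineOpens) (h : V.1 ≤ 𝟙 X ⁻¹ᵁ U.1) (w : VF X V),
      x ∈ V.1 ∧ Related (𝟙 X) h w v ∧ w ∈ sec V) → v ∈ sec U

variable {X} in
/-- `F` is a contact structure: locally `0 → F → T_X → O_X → 0` is exact (so `L = T_X / F` is a
line bundle), and the Levi pairing `(v, w) ↦ θ [v, w]` on `F` is nondegenerate at every point:
if `v` does not vanish at `x` then `θ [v, w]` does not vanish at `x` for some `w`. -/
def IsContact (F : Distribution X) : Prop :=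
  ∀ x₀ : X, ∃ W : X.Opens, x₀ ∈ W ∧ ∀ U : X.affineOpens, U.1 ≤ W →
    ∃ θ : VF X U →ₗ[Γ(X, U.1)] Γ(X, U.1), Function.Surjective θ ∧ LinearMap.ker θ = F.sec U ∧
      ∀ x ∈ U.1, ∀ v ∈ F.sec U, (∃ a, x ∈ X.basicOpen (v a)) →
        ∃ w ∈ F.sec U, x ∈ X.basicOpen (θ ⁅v, w⁆)

/-- The sections over the affine open set `U` of the canonical bundle `K_X = ⋀ ^ d Ω_X` of the
`d`-dimensional variety `X`. -/
abbrev TopForm (d : ℕ) (U : X.affineOpens) : Type := ⋀[Γ(X, U.1)]^d Ω[Γ(X, U.1)⁄ℂ]

variable {X} in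
/-- The form `df₁ ∧ ⋯ ∧ df_d`. -/
noncomputable def vol {d : ℕ} {U : X.affineOpens} (f : Fin d → Γ(X, U.1)) : TopForm X d U :=
  exteriorPower.ιMulti Γ(X, U.1) d fun j => KaehlerDifferential.D ℂ Γ(X, U.1) (f j)

/-- A global section of `-m K_X = Hom (K_X ^ m, O_X)`. -/
structure AntiSection (d m : ℕ) where
  /-- the section over `U` -/
  val : ∀ U : X.affineOpens,
    MultilinearMap Γ(X, U.1) (fun _ : Fin m => TopForm X d U) Γ(X, U.1)
  restrict : ∀ (U V : X.affineOpens) (h : V.1 ≤ U.1) (f : Fin m → Fin d → Γ(X, U.1)),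
    val V (fun k => vol fun j => X.presheaf.map (homOfLE h).op (f k j)) =
      X.presheaf.map (homOfLE h).op (val U fun k => vol (f k))

variable {X} in
/-- The open set `X_s` where the section `s` does not vanish. -/
noncomputable def AntiSection.locus {d m : ℕ} (s : AntiSection X d m) : X.Opens :=
  ⨆ (U : X.affineOpens) (η : Fin m → TopForm X d U), X.basicOpen (s.val U η)

/-- `-K_X` is ample: every point lies in an affine open set `X_s`, `s ∈ H⁰(X, -m K_X)`, `m > 0`. -/
def IsFano (d : ℕ) : Prop :=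
  ∀ x : X, ∃ (m : ℕ) (s : AntiSection X d m), 0 < m ∧ x ∈ s.locus ∧ IsAffineOpen s.locus

end Contact

/-- The isomorphism `e : X ≅ Y` carries the distribution `F` on `X` to the family `G` of sets of
vector fields on `Y`: if `w` on `e⁻¹ U` and `v` on `U` correspond to each other under `e`, then
`w` is a section of `F` if and only if `v` lies in `G U`. -/
def Carries {X Y : Scheme.{0}} [X.Over SpecC] [Y.Over SpecC] (e : X ≅ Y) (F : Distribution X)
    (G : ∀ U : Y.affineOpens, Set (VF Y U)) : Prop :=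
  ∀ (U : Y.affineOpens) (w : VF X ⟨e.hom ⁻¹ᵁ U.1, U.2.preimage_of_isIso e.hom⟩) (v : VF Y U),
    Related e.hom le_rfl w v → (w ∈ F.sec _ ↔ v ∈ G U)

section Adjoint

attribute [local instance] MvPolynomial.gradedAlgebra

variable (g : Type) [LieRing g] [LieAlgebra ℂ g] [FiniteDimensional ℂ g]

/-- The forms on `g`, in the coordinates `x_i` given by a basis. -/
noncomputable abbrev forms : ℕ → Submodule ℂ (MvPolynomial (Fin (Module.finrank ℂ g)) ℂ) :=
  MvPolynomial.homogeneousSubmodule (Fin (Module.finrank ℂ g)) ℂ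

/-- The projective space `ℙ(g)` of lines in `g`. -/
noncomputable abbrev PP : Scheme.{0} := Proj (forms g)

variable {g}

/-- The coordinates of a vector. -/
noncomputable def coord (z : g) (i : Fin (Module.finrank ℂ g)) : ℂ :=
  (Module.finBasis ℂ g).repr z i

/-- `x` is the point `[z]` of `ℙ(g)`. -/
def IsPoint (x : PP g) (z : g) : Prop :=
  ∀ k, ∀ G ∈ forms g k, x ∈ Proj.basicOpen (forms g) G ↔ MvPolynomial.eval (coord z) G ≠ 0

/-- The ideal sheaf of the closure in `ℙ(g)` of the set of the points `[z]`, `z ∈ O`. -/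
noncomputable def projIdeal (O : Set g) : (PP g).IdealSheafData :=
  Scheme.IdealSheafData.vanishingIdeal (Closeds.closure {x | ∃ z ∈ O, IsPoint x z})

/-- The projectivization `ℙ(O)`, a reduced closed subscheme of `ℙ(g)`. -/
noncomputable def projOrbit (O : Set g) : Scheme.{0} := (projIdeal O).subscheme

/-- The inclusion `ℙ(O) ⊆ ℙ(g)`. -/
noncomputable def incl (O : Set g) : projOrbit O ⟶ PP g := (projIdeal O).subschemeι

noncomputable instance overProjOrbit (O : Set g) : (projOrbit O).Over SpecC :=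
  ⟨incl O ≫ Proj.toSpecZero (forms g) ≫
    Spec.map (CommRingCat.ofHom (algebraMap ℂ (forms g 0)))⟩

/-- The function `x_i / x_j` on the chart `x_j ≠ 0` of `ℙ(g)`. -/
noncomputable def ratio (i j : Fin (Module.finrank ℂ g)) :
    Γ(PP g, Proj.basicOpen (forms g) (MvPolynomial.X j)) :=
  Proj.awayToSection (forms g) (MvPolynomial.X j)
    (HomogeneousLocalization.Away.mk (forms g) (MvPolynomial.isHomogeneous_X ℂ j) 1
      (MvPolynomial.X i) (MvPolynomial.isHomogeneous_X ℂ i))

/-- The tangent vectors `u = ⁅b, z⁆` of the adjoint orbit at `z` which are orthogonal to the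
Euler vector `z = ⁅a, z⁆` for the Kirillov-Kostant-Souriau form
`ω (⁅a, z⁆, ⁅b, z⁆) = κ (z, ⁅a, b⁆)`. -/
def IsHorizontal (z u : g) : Prop :=
  ∃ a b : g, ⁅a, z⁆ = z ∧ ⁅b, z⁆ = u ∧ killingForm ℂ g z ⁅a, b⁆ = 0

/-- The value at the point `[z]` of the vector field `w` on `V ⊆ Y` is mapped by `ι : Y ⟶ ℙ(g)` to
the class of `u` in the tangent space `g / ℂ z` of `ℙ(g)`: in each chart `x_j ≠ 0` containing `V`
the derivative of `x_i / x_j` in the direction `w` has the value `(u_i z_j - z_i u_j) / z_j ^ 2`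
at the point. -/
def HasTangent {Y : Scheme.{0}} [Y.Over SpecC] (ι : Y ⟶ PP g) {V : Y.affineOpens} (w : VF Y V)
    (x : Y) (z u : g) : Prop :=
  ∀ (i j) (hj : V.1 ≤ ι ⁻¹ᵁ Proj.basicOpen (forms g) (MvPolynomial.X j)),
    x ∉ Y.basicOpen (w (ι.appLE _ V.1 hj (ratio i j)) - algebraMap ℂ Γ(Y, V.1)
      ((coord u i * coord z j - coord z i * coord u j) / coord z j ^ 2))

/-- The canonical contact distribution of `Y = ℙ(O)`: `v` is a section over `U` if its value at
every point `[z]` of `U`, `z ∈ O`, is the class of a horizontal vector. -/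
def canonical (O : Set g) (U : (projOrbit O).affineOpens) : Set (VF (projOrbit O) U) :=
  {v | ∀ x ∈ U.1, ∀ z ∈ O, IsPoint (incl O x) z → ∃ u, IsHorizontal z u ∧
    ∀ (V : (projOrbit O).affineOpens) (h : V.1 ≤ 𝟙 (projOrbit O) ⁻¹ᵁ U.1)
      (w : VF (projOrbit O) V), x ∈ V.1 → Related (𝟙 (projOrbit O)) h w v →
        HasTangent (incl O) w x z u}

end Adjoint

end Vale.Agent.P292Z
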