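import Vale.Agent.P292Z.Sec
import Mathlib.AlgebraicGeometry.ProjectiveSpectrum.Proper

/-!
# The morphism to `Proj` given by sections of the contact line bundle
-/

open AlgebraicGeometry CategoryTheory TopologicalSpace Opposite HomogeneousLocalization

namespace Vale.Agent.P292Z

theorem exists_glue {X Y : Scheme.{0}} {ι : Type} (U : ι → X.Opens) (hU : ∀ x, ∃ i, x ∈ U i)
    (m : ∀ i, (U i).toScheme ⟶ Y)
    (h : ∀ i j, X.homOfLE (inf_le_left : U i ⊓ U j ≤ U i) ≫ m i =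
      X.homOfLE (inf_le_right : U i ⊓ U j ≤ U j) ≫ m j) : ∃ f : X ⟶ Y, ∀ i, (U i).ι ≫ f = m i := by
  let 𝒰 : X.OpenCover :=
    { I₀ := ι, X i := U i, f i := (U i).ι,
      mem₀ := by
        rw [Scheme.presieve₀_mem_precoverage_iff]
        refine ⟨fun x => ?_, inferInstance⟩
        obtain ⟨i, hi⟩ := hU x
        exact ⟨i, by simpa using hi⟩ }
  refine ⟨𝒰.glueMorphisms m fun i j => ?_, fun i => 𝒰.ι_glueMorphisms _ _ i⟩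
  change Limits.pullback.fst (U i).ι (U j).ι ≫ m i = Limits.pullback.snd (U i).ι (U j).ι ≫ m j
  rw [← cancel_epi (isPullback_opens_inf (U i) (U j)).isoPullback.hom,
    IsPullback.isoPullback_hom_fst_assoc, IsPullback.isoPullback_hom_snd_assoc]
  exact h i j

theorem toSpecΓ_cancel {X : Scheme.{0}} (V : X.Opens) {R : CommRingCat.{0}} {a b : R ⟶ Γ(X, V)}
    (h : V.toSpecΓ ≫ Spec.map a = V.toSpecΓ ≫ Spec.map b) : a = b := by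
  have h1 := congrArg Scheme.Hom.appTop h
  rw [Scheme.Hom.comp_appTop, Scheme.Hom.comp_appTop, Scheme.Opens.toSpecΓ_appTop,
    Scheme.ΓSpecIso_naturality_assoc, Scheme.ΓSpecIso_naturality_assoc, cancel_epi,
    cancel_mono] at h1
  exact h1

theorem ι_over {X : Scheme.{0}} [X.Over SpecC] (V : X.Opens) :
    V.ι ≫ (X ↘ SpecC) = V.toSpecΓ ≫ Spec.map (CommRingCat.ofHom (algebraMap ℂ Γ(X, V))) := by
  change _ = V.toSpecΓ ≫ Spec.map ((Scheme.ΓSpecIso (CommRingCat.of ℂ)).inv ≫ (X ↘ SpecC).appTop ≫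
    X.presheaf.map (homOfLE (le_top : V ≤ ⊤)).op)
  rw [Spec.map_comp, Spec.map_comp, Category.assoc,
    Scheme.Opens.toSpecΓ_SpecMap_presheaf_map_top_assoc, ← Scheme.toSpecΓ_naturality_assoc,
    ← SpecMap_ΓSpecIso_hom, ← Spec.map_comp, Iso.inv_hom_id, Spec.map_id, Category.comp_id]

variable {Z : Scheme.{0}} [IsIntegral Z] [Z.Over SpecC] {F : Distribution Z} {d : ℕ}

theorem exists_lift_toK {R : Type} [CommRing R] (V : Z.Opens) (hV : genericPoint Z ∈ V)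
    (χ : R →+* K Z) (h : ∀ a, ∀ x ∈ V, χ a ∈ O x) :
    ∃ ψ : R →+* Γ(Z, V), ∀ a, toK V hV (ψ a) = χ a := by
  choose ψ hψ using fun a => exists_toK_eq V hV (h a)
  have hi := toK_injective V hV
  exact ⟨{ toFun := ψ
           map_one' := hi (by rw [hψ, map_one, map_one])
           map_mul' := fun a b => hi (by rw [map_mul, hψ, hψ, hψ, map_mul])
           map_zero' := hi (by rw [hψ, map_zero, map_zero])
           map_add' := fun a b => hi (by rw [map_add, hψ, hψ, hψ, map_add]) }, hψ⟩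

variable {S : Type} [CommRing S] [Algebra ℂ S] {𝒜 : ℕ → Submodule ℂ S} [GradedAlgebra 𝒜]

theorem exists_chi (Φ : S →ₐ[ℂ] K Z) {k : ℕ} {H : S} (hH : H ∈ 𝒜 k) (h0 : Φ H ≠ 0) :
    ∃ χ : Away 𝒜 H →+* K Z, ∀ n G hG, χ (Away.mk 𝒜 hH n G hG) = Φ G / Φ H ^ n := by
  refine ⟨(Localization.awayLift (Φ : S →+* K Z) H (IsUnit.mk0 _ h0)).comp
    (algebraMap (Away 𝒜 H) (Localization.Away H)), fun n G hG => ?_⟩
  rw [RingHom.comp_apply, HomogeneousLocalization.algebraMap_apply, Away.val_mk,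
    Localization.mk_eq_mk', eq_div_iff (pow_ne_zero n h0)]
  have h1 := (IsLocalization.lift_mk'_spec (M := Submonoid.powers H) (S := Localization.Away H)
    (g := (Φ : S →+* K Z)) (fun y => by
      obtain ⟨_, m, rfl⟩ := y
      rw [map_pow]
      exact (IsUnit.mk0 _ h0).pow m) G _ ⟨H ^ n, n, rfl⟩).1 rfl
  rw [map_pow] at h1
  exact (mul_comm _ _).trans h1.symm

namespace Atlas

variable {A : Atlas F d} {Φ : S →ₐ[ℂ] K Z}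

variable (Φ) in
/-- `ψ` is the homomorphism `G / H ^ n ↦ Φ G / Φ H ^ n`. -/
def IsPsi {k : ℕ} {H : S} (hH : H ∈ 𝒜 k) {V : Z.Opens} (hV : genericPoint Z ∈ V)
    (ψ : Away 𝒜 H →+* Γ(Z, V)) : Prop :=
  ∀ n G hG, toK V hV (ψ (Away.mk 𝒜 hH n G hG)) = Φ G / Φ H ^ n

theorem exists_psi (hΦ : ∀ k, ∀ G ∈ 𝒜 k, ∀ x, A.SecAt k (Φ G) x) {k : ℕ} {H : S} (hH : H ∈ 𝒜 k)
    {V : Z.Opens} (hV : genericPoint Z ∈ V) (hle : V ≤ A.locus k (Φ H)) :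
    ∃ ψ : Away 𝒜 H →+* Γ(Z, V), IsPsi Φ hH hV ψ := by
  obtain ⟨χ, hχ⟩ := exists_chi Φ hH (GenAt.ne_zero (hle hV))
  obtain ⟨ψ, hψ⟩ := exists_lift_toK V hV χ fun a x hx => by
    obtain ⟨n, G, hG, rfl⟩ := Away.mk_surjective 𝒜 hH a
    rw [hχ]
    exact (GenAt.pow (hle hx) n).div_mem (mul_comm n k ▸ hΦ _ G hG x)
  exact ⟨ψ, fun n G hG => (hψ _).trans (hχ n G hG)⟩

theorem IsPsi.unique {k : ℕ} {H : S} {hH : H ∈ 𝒜 k} {V : Z.Opens} {hV : genericPoint Z ∈ V}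
    {ψ ψ' : Away 𝒜 H →+* Γ(Z, V)} (h : IsPsi Φ hH hV ψ) (h' : IsPsi Φ hH hV ψ') : ψ = ψ' := by
  refine RingHom.ext fun a => toK_injective V hV ?_
  obtain ⟨n, G, hG, rfl⟩ := Away.mk_surjective 𝒜 hH a
  rw [h, h']

theorem IsPsi.of_eq {k l : ℕ} {H : S} {hH : H ∈ 𝒜 k} {V : Z.Opens} {hV : genericPoint Z ∈ V}
    {ψ : Away 𝒜 H →+* Γ(Z, V)} (h : IsPsi Φ hH hV ψ) (e : k = l) (hH' : H ∈ 𝒜 l) :
    IsPsi Φ hH' hV ψ := by
  subst e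
  exact h

theorem IsPsi.res {k : ℕ} {H : S} {hH : H ∈ 𝒜 k} {V W : Z.Opens} {hV : genericPoint Z ∈ V}
    (hW : genericPoint Z ∈ W) (i : W ≤ V) {ψ : Away 𝒜 H →+* Γ(Z, V)} (h : IsPsi Φ hH hV ψ) :
    IsPsi Φ hH hW ((Z.presheaf.map (homOfLE i).op).hom.comp ψ) := fun n G hG =>
  (toK_res i hW hV _).trans (h n G hG)

theorem IsPsi.mul {k l : ℕ} {H G : S} (hH : H ∈ 𝒜 k) (hG : G ∈ 𝒜 l) {T : S} (hT : T = H * G)
    {V : Z.Opens} {hV : genericPoint Z ∈ V} {ψ : Away 𝒜 T →+* Γ(Z, V)}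
    (h : IsPsi Φ (hT ▸ SetLike.mul_mem_graded hH hG) hV ψ) (h0 : Φ G ≠ 0) :
    IsPsi Φ hH hV (ψ.comp (awayMap 𝒜 hG hT)) := by
  intro n G' hG'
  rw [RingHom.comp_apply, awayMap_mk, h, hT, map_mul, map_mul, map_pow, mul_pow,
    mul_div_mul_right _ _ (pow_ne_zero n h0)]

variable (A Φ) in
/-- The morphism `j` is given by the sections `Φ G`. -/
def IsEmb (j : Z ⟶ Proj 𝒜) : Prop :=
  ∀ (k : ℕ) (hk : 0 < k) (H : S) (hH : H ∈ 𝒜 k) (V : Z.Opens) (hV : genericPoint Z ∈ V),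
    V ≤ A.locus k (Φ H) → ∀ ψ : Away 𝒜 H →+* Γ(Z, V), IsPsi Φ hH hV ψ →
      V.ι ≫ j = V.toSpecΓ ≫ Spec.map (CommRingCat.ofHom ψ) ≫ Proj.awayι 𝒜 H hH hk

omit [IsIntegral Z] [Z.Over SpecC] in
theorem homOfLE_psi {H : S} {V W : Z.Opens} (i : W ≤ V) (ψ : Away 𝒜 H →+* Γ(Z, V))
    {Y : Scheme.{0}} (f : Spec (CommRingCat.of (Away 𝒜 H)) ⟶ Y) :
    Z.homOfLE i ≫ V.toSpecΓ ≫ Spec.map (CommRingCat.ofHom ψ) ≫ f =
      W.toSpecΓ ≫ Spec.map (CommRingCat.ofHom ((Z.presheaf.map (homOfLE i).op).hom.comp ψ)) ≫ f := by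
  rw [← Scheme.Opens.toSpecΓ_SpecMap_presheaf_map_assoc, ← Spec.map_comp_assoc]
  rfl

theorem exists_isEmb (hΦ : ∀ k, ∀ G ∈ 𝒜 k, ∀ x, A.SecAt k (Φ G) x)
    (hcov : ∀ x, ∃ k, 0 < k ∧ ∃ H ∈ 𝒜 k, A.GenAt k (Φ H) x) : ∃ j : Z ⟶ Proj 𝒜, IsEmb A Φ j := by
  let ι : Type := {p : ℕ × S // 0 < p.1 ∧ p.2 ∈ 𝒜 p.1 ∧ genericPoint Z ∈ A.locus p.1 (Φ p.2)}
  choose ψ hψ using fun i : ι => exists_psi hΦ i.2.2.1 i.2.2.2 le_rfl
  obtain ⟨j, hj⟩ := exists_glue (fun i : ι => A.locus i.1.1 (Φ i.1.2)) (fun x => by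
      obtain ⟨k, hk, H, hH, hx⟩ := hcov x
      exact ⟨⟨(k, H), hk, hH, gen_mem (x := x) hx⟩, hx⟩)
    (fun i => (A.locus i.1.1 (Φ i.1.2)).toSpecΓ ≫ Spec.map (CommRingCat.ofHom (ψ i)) ≫
      Proj.awayι 𝒜 i.1.2 i.2.2.1 i.2.1) fun i i' => by
      have hη : genericPoint Z ∈ A.locus i.1.1 (Φ i.1.2) ⊓ A.locus i'.1.1 (Φ i'.1.2) :=
        ⟨i.2.2.2, i'.2.2.2⟩
      obtain ⟨χ, hχ⟩ := exists_psi hΦ (SetLike.mul_mem_graded i.2.2.1 i'.2.2.1) hη fun x hx => by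
        rw [mem_locus, map_mul]
        exact GenAt.mul hx.1 hx.2
      have h1 := ((hψ i).res hη inf_le_left).unique
        (IsPsi.mul i.2.2.1 i'.2.2.1 rfl hχ (GenAt.ne_zero i'.2.2.2))
      have h2 := ((hψ i').res hη inf_le_right).unique
        (IsPsi.mul (ψ := χ) i'.2.2.1 i.2.2.1 (mul_comm _ _) (hχ.of_eq (add_comm _ _) _)
          (GenAt.ne_zero i.2.2.2))
      rw [homOfLE_psi, homOfLE_psi, h1, h2, CommRingCat.ofHom_comp, CommRingCat.ofHom_comp,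
        Spec.map_comp_assoc, Spec.map_comp_assoc, Proj.SpecMap_awayMap_awayι,
        Proj.SpecMap_awayMap_awayι]
      rfl
  refine ⟨j, fun k hk H hH V hV hle ψ' hψ' => ?_⟩
  have h1 := hj ⟨(k, H), hk, hH, hle hV⟩
  rw [← Scheme.homOfLE_ι Z hle, Category.assoc, h1, homOfLE_psi,
    ((hψ ⟨(k, H), hk, hH, hle hV⟩).res hV hle).unique hψ']

variable {j : Z ⟶ Proj 𝒜}

theorem IsEmb.mem_iff (hj : IsEmb A Φ j) (hΦ : ∀ k, ∀ G ∈ 𝒜 k, ∀ x, A.SecAt k (Φ G) x)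
    (hcov : ∀ x, ∃ k, 0 < k ∧ ∃ H ∈ 𝒜 k, A.GenAt k (Φ H) x) {l : ℕ} {G : S} (hG : G ∈ 𝒜 l)
    (x : Z) : j x ∈ Proj.basicOpen 𝒜 G ↔ A.GenAt l (Φ G) x := by
  obtain ⟨k, hk, H, hH, hx⟩ := hcov x
  have hx' : x ∈ A.locus k (Φ H) := hx
  have hη := gen_mem hx'
  obtain ⟨ψ, hψ⟩ := exists_psi hΦ hH hη le_rfl
  have key : ∀ {l : ℕ} {G : S} (hG : G ∈ 𝒜 l), 0 < l →
      (j x ∈ Proj.basicOpen 𝒜 G ↔ A.GenAt l (Φ G) x) := by
    intro l G hG hl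
    have h1 : j x ∈ Proj.basicOpen 𝒜 G ↔ (⟨x, hx'⟩ : A.locus k (Φ H)) ∈
        ((A.locus k (Φ H)).ι ≫ j) ⁻¹ᵁ Proj.basicOpen 𝒜 G := Iff.rfl
    rw [h1, hj k hk H hH _ hη le_rfl ψ hψ, Scheme.Hom.comp_preimage, Scheme.Hom.comp_preimage,
      Proj.awayι_preimage_basicOpen 𝒜 hH hk hG hl, SpecMap_preimage_basicOpen,
      Scheme.Opens.toSpecΓ_preimage_basicOpen]
    change x ∈ Z.basicOpen (ψ _) ↔ _
    rw [← isU_toK hx' hη, hψ, map_pow]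
    constructor
    · intro h
      exact (mul_comm k l ▸ (hx.pow l).of_isU_div h).of_pow hk.ne' (hΦ _ G hG x)
    · intro h
      exact (hx.pow l).isU_div (mul_comm l k ▸ h.pow k)
  have h1 := key (SetLike.mul_mem_graded hG hH) (by omega)
  have h2 := (key hH hk).2 hx
  rw [Proj.basicOpen_mul, map_mul] at h1
  exact ⟨fun h => (h1.1 ⟨h, h2⟩).of_mul_left (hΦ _ G hG x) hx.secAt, fun h => (h1.2 (h.mul hx)).1⟩

theorem IsEmb.resLE (hj : IsEmb A Φ j) {k : ℕ} (hk : 0 < k) {H : S} (hH : H ∈ 𝒜 k) {V : Z.Opens}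
    (hV : genericPoint Z ∈ V) (hle : V ≤ A.locus k (Φ H)) (hle' : V ≤ j ⁻¹ᵁ Proj.basicOpen 𝒜 H)
    {ψ : Away 𝒜 H →+* Γ(Z, V)} (hψ : IsPsi Φ hH hV ψ) :
    j.resLE _ V hle' = V.toSpecΓ ≫ Spec.map (CommRingCat.ofHom ψ) ≫
      (Proj.basicOpenIsoSpec 𝒜 H hH hk).inv := by
  rw [← cancel_mono (Proj.basicOpen 𝒜 H).ι, Scheme.Hom.resLE_comp_ι, hj k hk H hH V hV hle ψ hψ,
    Category.assoc, Category.assoc, Proj.basicOpenIsoSpec_inv_ι]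

theorem IsEmb.appLE (hj : IsEmb A Φ j) {k : ℕ} (hk : 0 < k) {H : S} (hH : H ∈ 𝒜 k) {V : Z.Opens}
    (hV : genericPoint Z ∈ V) (hle : V ≤ A.locus k (Φ H)) (hle' : V ≤ j ⁻¹ᵁ Proj.basicOpen 𝒜 H)
    {ψ : Away 𝒜 H →+* Γ(Z, V)} (hψ : IsPsi Φ hH hV ψ) :
    Proj.awayToSection 𝒜 H ≫ j.appLE _ V hle' = CommRingCat.ofHom ψ := by
  apply toSpecΓ_cancel
  rw [Spec.map_comp, Scheme.Opens.toSpecΓ_SpecMap_appLE_assoc, hj.resLE hk hH hV hle hle' hψ,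
    Category.assoc, Category.assoc]
  congr 1
  change _ ≫ _ ≫ Proj.basicOpenToSpec 𝒜 H = _
  rw [← Proj.basicOpenIsoSpec_hom 𝒜 H hH hk, Iso.inv_hom_id, Category.comp_id]

theorem IsEmb.over (hj : IsEmb A Φ j) (hΦ : ∀ k, ∀ G ∈ 𝒜 k, ∀ x, A.SecAt k (Φ G) x)
    (hcov : ∀ x, ∃ k, 0 < k ∧ ∃ H ∈ 𝒜 k, A.GenAt k (Φ H) x) :
    j ≫ Proj.toSpecZero 𝒜 ≫ Spec.map (CommRingCat.ofHom (algebraMap ℂ (𝒜 0))) = Z ↘ SpecC := by
  refine Scheme.hom_ext_of_forall _ _ fun x => ?_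
  obtain ⟨k, hk, H, hH, hx⟩ := hcov x
  have hx' : x ∈ A.locus k (Φ H) := hx
  have hη := gen_mem hx'
  obtain ⟨ψ, hψ⟩ := exists_psi hΦ hH hη le_rfl
  refine ⟨_, hx', ?_⟩
  rw [← Category.assoc, hj k hk H hH _ hη le_rfl ψ hψ, ι_over, Category.assoc, Category.assoc,
    Proj.awayι_toSpecZero_assoc, ← Spec.map_comp, ← Spec.map_comp]
  congr 2
  ext c
  apply toK_injective _ hη
  have h1 : fromZeroRingHom 𝒜 (Submonoid.powers H) (algebraMap ℂ (𝒜 0) c) =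
      Away.mk 𝒜 hH 0 (algebraMap ℂ S c) (by
        rw [zero_smul]
        exact SetLike.algebraMap_mem_graded 𝒜 c) := by
    apply val_injective
    rw [Away.val_mk]
    change Localization.mk (algebraMap ℂ S c) _ = _
    congr 1
    exact Subtype.ext (pow_zero H).symm
  change toK _ hη (ψ (fromZeroRingHom 𝒜 (Submonoid.powers H) (algebraMap ℂ (𝒜 0) c))) =
    toK _ hη (algebraMap ℂ _ c)
  rw [h1, hψ, toK_algebraMap, AlgHom.commutes, pow_zero, div_one]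

omit [GradedAlgebra 𝒜] in
theorem cover_of_ample (h : A.IsAmple)
    (hsurj : ∀ k f, (∀ x, A.SecAt k f x) → ∃ G ∈ 𝒜 k, Φ G = f) (x : Z) :
    ∃ k, 0 < k ∧ ∃ H ∈ 𝒜 k, A.GenAt k (Φ H) x := by
  obtain ⟨D, σ, hD, h1, h2, -⟩ := h x
  obtain ⟨H, hH, rfl⟩ := hsurj D σ h1
  exact ⟨D, hD, H, hH, h2⟩

theorem IsEmb.isClosedImmersion [IsProper (Z ↘ SpecC)] (hj : IsEmb A Φ j) (h : A.IsAmple)
    (hΦ : ∀ k, ∀ G ∈ 𝒜 k, ∀ x, A.SecAt k (Φ G) x)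
    (hsurj : ∀ k f, (∀ x, A.SecAt k f x) → ∃ G ∈ 𝒜 k, Φ G = f) : IsClosedImmersion j := by
  have := compactSpace_of_proper (Z := Z)
  have hcov := cover_of_ample h hsurj
  have h1 : UniversallyClosed (j ≫ Proj.toSpecZero 𝒜 ≫
      Spec.map (CommRingCat.ofHom (algebraMap ℂ (𝒜 0)))) := by
    rw [hj.over hΦ hcov]
    infer_instance
  have h2 : UniversallyClosed j := .of_comp_of_isSeparated j (Proj.toSpecZero 𝒜 ≫
      Spec.map (CommRingCat.ofHom (algebraMap ℂ (𝒜 0))))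
  have h3 : IsClosed (Set.range j) := j.isClosedMap.isClosed_range
  refine IsZariskiLocalAtTarget.of_iSup_eq_top (P := @IsClosedImmersion)
    (fun U : {U : (Proj 𝒜).Opens // IsClosedImmersion (j ∣_ U)} => U.1) ?_ fun U => U.2
  rw [eq_top_iff]
  intro y _
  rw [Opens.mem_iSup]
  by_cases hy : y ∈ Set.range j
  · obtain ⟨x, rfl⟩ := hy
    obtain ⟨D, σ, hD, h4, h5, h6⟩ := h x
    obtain ⟨H, hH, rfl⟩ := hsurj D σ h4
    refine ⟨⟨Proj.basicOpen 𝒜 H, ?_⟩, (hj.mem_iff hΦ hcov hH x).2 h5⟩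
    have h7 : j ⁻¹ᵁ Proj.basicOpen 𝒜 H = A.locus D (Φ H) :=
      Opens.ext (Set.ext fun z => hj.mem_iff hΦ hcov hH z)
    rw [← h7] at h6
    have hη : genericPoint Z ∈ j ⁻¹ᵁ Proj.basicOpen 𝒜 H :=
      gen_mem (x := x) ((hj.mem_iff hΦ hcov hH x).2 h5)
    obtain ⟨ψ, hψ⟩ := exists_psi hΦ hH hη h7.le
    have h8 : Function.Surjective ψ := by
      intro a
      obtain ⟨n, hn⟩ := exists_extend (m := 0) (f := toK _ hη a) h4 h5.ne_zero fun z hz =>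
        secAt_zero_iff.2 (toK_mem (h7.ge hz) hη a)
      obtain ⟨G, hG, hG'⟩ := hsurj _ _ (hn n le_rfl)
      refine ⟨Away.mk 𝒜 hH n G (by rwa [zero_add, mul_comm] at hG), toK_injective _ hη ?_⟩
      rw [hψ, hG', mul_div_cancel_right₀ _ (pow_ne_zero _ h5.ne_zero)]
    have h9 := IsClosedImmersion.spec_of_surjective (CommRingCat.ofHom ψ) h8
    rw [← Scheme.Hom.resLE_eq_morphismRestrict, hj.resLE hD hH hη h7.le le_rfl hψ,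
      ← h6.isoSpec_hom]
    infer_instance
  · refine ⟨⟨⟨(Set.range j)ᶜ, h3.isOpen_compl⟩, ?_⟩, hy⟩
    have : IsEmpty (j ⁻¹ᵁ ⟨(Set.range j)ᶜ, h3.isOpen_compl⟩).toScheme :=
      ⟨fun z => z.2 ⟨z.1, rfl⟩⟩
    infer_instance

end Atlas

end Vale.Agent.P292Z
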