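import Vale.Agent.P292Z.Point

/-!
# The section ring of a contact Fano manifold with its Poisson bracket
-/

open AlgebraicGeometry CategoryTheory TopologicalSpace Opposite Polynomial

namespace Vale.Agent.P292Z

theorem sub_mem_sq_of_der {R : Type} [CommRing R] [Algebra ℂ R] (p : R →ₐ[ℂ] ℂ) {a : R}
    (h : ∀ δ : R →ₗ[ℂ] ℂ, (∀ r s, δ (r * s) = p r * δ s + p s * δ r) → δ a = 0) :
    a - algebraMap ℂ R (p a) ∈ RingHom.ker p ^ 2 := by
  by_contra hcon
  obtain ⟨l, hl1, hl2⟩ := Submodule.exists_dual_map_eq_bot_of_notMem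
    (p := (RingHom.ker p ^ 2).restrictScalars ℂ) hcon inferInstance
  have hl : ∀ r ∈ RingHom.ker p ^ 2, l r = 0 := fun r hr => by
    have : l r ∈ (⊥ : Submodule ℂ ℂ) := hl2 ▸ Submodule.mem_map_of_mem hr
    exact this
  let δ : R →ₗ[ℂ] ℂ := l.comp (LinearMap.id - (Algebra.linearMap ℂ R).comp p.toLinearMap)
  have hδ : ∀ r, δ r = l (r - algebraMap ℂ R (p r)) := fun _ => rfl
  have hk : ∀ r, r - algebraMap ℂ R (p r) ∈ RingHom.ker p := fun r => by
    rw [RingHom.mem_ker, map_sub, AlgHom.commutes]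
    exact sub_self _
  refine hl1 (h δ fun r s => ?_)
  have h1 := hl _ (pow_two (RingHom.ker p) ▸ Ideal.mul_mem_mul (hk r) (hk s))
  have h2 : r * s - algebraMap ℂ R (p (r * s)) =
      (r - algebraMap ℂ R (p r)) * (s - algebraMap ℂ R (p s)) +
        p r • (s - algebraMap ℂ R (p s)) + p s • (r - algebraMap ℂ R (p r)) := by
    rw [map_mul, map_mul, Algebra.smul_def, Algebra.smul_def]
    ring
  rw [hδ, hδ, hδ, h2, map_add, map_add, h1, map_smul, map_smul, zero_add]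
  rfl

variable {Z : Scheme.{0}} [IsIntegral Z] [Z.Over SpecC] {F : Distribution Z} {d : ℕ}

/-- The inverse of the contact matrix. -/
noncomputable def Chart.N (c : Chart F d) : Matrix (Fin (d + 1)) (Fin (d + 1)) (K Z) :=
  (cm c.θ c.w)⁻¹

theorem Chart.N_mul (c : Chart F d) : c.N * cm c.θ c.w = 1 :=
  Matrix.nonsing_inv_mul _ (IsUnit.mk0 _ (c.det _ c.hU).ne_zero)

theorem Chart.N_mem (c : Chart F d) {x : Z} (hx : x ∈ c.U.1) (a b : Fin (d + 1)) :
    c.N a b ∈ O x := by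
  rw [Chart.N, Matrix.inv_def, Matrix.smul_apply, Ring.inverse_eq_inv', smul_eq_mul,
    Matrix.adjugate_apply]
  refine mul_mem (c.det x hx).inv_mem (det_mem_O fun i j => ?_)
  rw [Matrix.updateRow_apply]
  split_ifs
  · rw [Pi.single_apply]
    split_ifs
    · exact one_mem _
    · exact zero_mem _
  · exact c.cm_mem hx i j

namespace Atlas

variable {A : Atlas F d}

theorem qb_mem_B {x : Z} (c : Chart F d) (hx : x ∈ c.U.1) {q r : (K Z)[X]} (hq : q ∈ A.B x)
    (hr : r ∈ A.B x) : qb (A.g c) c.w c.N q r ∈ A.B x :=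
  sum_mem fun a _ => mul_mem (sum_mem fun b _ => mul_mem (lf_mem_B c hx b hq)
    (C_mem_B (c.N_mem hx b a))) (lf_mem_B c hx a hr)

theorem X_dvd_lf [IsProper (Z ↘ SpecC)] (g : K Z) (w : Fin d → DK Z) (a : Fin (d + 1)) (r : A.R) :
    X ∣ lf g w a r.1 := by
  rw [X_dvd_iff]
  induction a using Fin.cases with
  | zero => rw [coeff_lf_zero, Nat.cast_zero, zero_mul]
  | succ i =>
    obtain ⟨c, hc⟩ := exists_const fun x => secAt_zero_iff.1 (secAt_coeff r 0 x)
    rw [coeff_lf_succ', hc, Derivation.map_algebraMap, Nat.cast_zero, zero_mul, mul_zero, sub_zero]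

/-- The bracket of sections. -/
structure IsBr (P : A.R →ₗ[ℂ] A.R →ₗ[ℂ] A.R) : Prop where
  alternating : ∀ a, P a a = 0
  leibniz : ∀ a b c, P a (b * c) = P a b * c + b * P a c
  jacobi : ∀ a b c, P a (P b c) = P (P a b) c + P b (P a c)
  chart : ∀ (c : Chart F d) (a b : A.R),
    monomial 1 (A.g c) * (P a b).1 = qb (A.g c) c.w c.N a.1 b.1

variable (A) in
theorem exists_isBr [IsProper (Z ↘ SpecC)] : ∃ P : A.R →ₗ[ℂ] A.R →ₗ[ℂ] A.R, IsBr P := by
  set c₀ := A.ch (genericPoint Z)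
  obtain ⟨lam, hlam⟩ := exists_lam c₀.expand A.α
  have h : Sympl lam := sympl_lam (A.g_ne c₀) c₀.dual c₀.expand hlam (A.α_eq c₀) c₀.N_mul
  have hb : ∀ (c : Chart F d) (q r : (K Z)[X]) (s : (K Z)[X]),
      iT (K Z) s = h.br (iT (K Z) q) (iT (K Z) r) →
        monomial 1 (A.g c) * s = qb (A.g c) c.w c.N q r := by
    intro c q r s hs
    apply iT_injective
    rw [map_mul, hs]
    exact tau_mul_br h (A.g_ne c) c.dual c.expand hlam (A.α_eq c) c.N_mul q r
  have h1 : ∀ a b : A.R, ∃ r : A.R, iT (K Z) r.1 = h.br (iT (K Z) a.1) (iT (K Z) b.1) := by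
    intro a b
    obtain ⟨q, hq⟩ : X ∣ qb (A.g c₀) c₀.w c₀.N a.1 b.1 :=
      Finset.dvd_sum fun i _ => (X_dvd_lf _ _ i b).mul_left _
    have h2 : iT (K Z) (C (A.g c₀)⁻¹ * q) = h.br (iT (K Z) a.1) (iT (K Z) b.1) := by
      apply mul_left_cancel₀ (tau_ne_zero (A.g_ne c₀))
      rw [tau_mul_br h (A.g_ne c₀) c₀.dual c₀.expand hlam (A.α_eq c₀) c₀.N_mul, hq, tau,
        ← map_mul, ← mul_assoc, monomial_mul_C, mul_inv_cancel₀ (A.g_ne c₀), monomial_one_one_eq_X]
    refine ⟨⟨_, mem_R.2 fun x m => ?_⟩, h2⟩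
    have h3 := qb_mem_B (A.ch x) (A.mem x) (mem_B_of_R a x) (mem_B_of_R b x) (m + 1)
    rw [← hb _ _ _ _ h2, coeff_monomial_mul, SecAt, pow_succ',
      mul_div_mul_left _ _ (A.g_ne _)] at h3
    exact h3
  choose P hP using h1
  have hi : ∀ {a b : A.R}, iT (K Z) a.1 = iT (K Z) b.1 → a = b := fun h =>
    Subtype.ext (iT_injective h)
  refine ⟨LinearMap.mk₂ ℂ P (fun a a' b => hi ?_) (fun c a b => hi ?_) (fun a b b' => hi ?_)
    (fun c a b => hi ?_), fun a => hi ?_, fun a b c => hi ?_, fun a b c => hi ?_,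
    fun c a b => hb c _ _ _ (hP a b)⟩
  · rw [AddMemClass.coe_add, map_add, hP, hP, hP, AddMemClass.coe_add, map_add, map_add,
      LinearMap.add_apply]
  · rw [SetLike.val_smul, map_smul, hP, hP, SetLike.val_smul, map_smul, map_smul,
      LinearMap.smul_apply]
  · rw [AddMemClass.coe_add, map_add, hP, hP, hP, AddMemClass.coe_add, map_add, map_add]
  · rw [SetLike.val_smul, map_smul, hP, hP, SetLike.val_smul, map_smul, map_smul]
  · rw [LinearMap.mk₂_apply, hP, h.br_self, ZeroMemClass.coe_zero, map_zero]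
  · simp only [LinearMap.mk₂_apply, hP, AddMemClass.coe_add, MulMemClass.coe_mul, map_add, map_mul,
      h.br_leibniz]
  · simp only [LinearMap.mk₂_apply, hP, AddMemClass.coe_add, map_add]
    exact h.br_jacobi _ _ _

theorem lf_monomial (g : K Z) (w : Fin d → DK Z) (hg : g ≠ 0) (a : Fin (d + 1)) (k : ℕ) (f : K Z) :
    ∃ f', lf g w a (monomial k f) = monomial k f' := by
  induction a using Fin.cases with
  | zero => exact ⟨_, lf_zero_monomial k f⟩
  | succ i => exact ⟨_, lf_succ_monomial hg i k f⟩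

variable {P : A.R →ₗ[ℂ] A.R →ₗ[ℂ] A.R}

theorem IsBr.degree (hP : IsBr P) (i j k : ℕ) (h : i + j = k + 1) (a : A.R) (ha : a ∈ A.grade i)
    (b : A.R) (hb : b ∈ A.grade j) : P a b ∈ A.grade k := by
  intro l hl
  set c := A.ch (genericPoint Z)
  have h1 := congrArg (fun q => coeff q (l + 1)) (hP.chart c a b)
  choose fa hfa using fun s => lf_monomial (A.g c) c.w (A.g_ne c) s i (a.1.coeff i)
  choose fb hfb using fun s => lf_monomial (A.g c) c.w (A.g_ne c) s j (b.1.coeff j)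
  rw [eq_monomial ha, eq_monomial hb] at h1
  have h2 : i + j ≠ l + 1 := by omega
  simp only [coeff_monomial_mul, qb, hfa, hfb, monomial_mul_C, Finset.sum_mul,
    monomial_mul_monomial, finsetSum_coeff, coeff_monomial, if_neg h2, Finset.sum_const_zero] at h1
  exact (mul_eq_zero.1 h1).resolve_left (A.g_ne c)

namespace Pt

variable (y : A.Pt)

/-- The value of the inverse contact matrix. -/
noncomputable def n : Matrix (Fin (d + 1)) (Fin (d + 1)) ℂ := Matrix.of fun a b => y.e.v (y.c.N a b)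

/-- The value of the contact matrix. -/
noncomputable def m : Matrix (Fin (d + 1)) (Fin (d + 1)) ℂ :=
  Matrix.of fun a b => y.e.v (cm y.c.θ y.c.w a b)

theorem n_mul_m : y.n * y.m = 1 := by
  ext a b
  have h := congrFun (congrFun y.c.N_mul a) b
  rw [Matrix.mul_apply] at h ⊢
  have h1 := congrArg y.e.v h
  rw [y.e.sum _ fun i _ => mul_mem (y.c.N_mem y.mem _ _) (y.c.cm_mem y.mem _ _)] at h1
  simp only [y.e.mul (y.c.N_mem y.mem _ _) (y.c.cm_mem y.mem _ _), Matrix.one_apply,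
    apply_ite y.e.v, y.e.one, y.e.zero] at h1
  exact h1

theorem p_br (hP : IsBr P) (r s : A.R) :
    y.γ * y.p (P r s) = y.dj (Matrix.vecMul (y.jet r.1) y.n) s := by
  have h := congrArg y.ev (hP.chart y.c r s)
  have hr := fun a => lf_mem_B (A := A) _ y.mem a (mem_B_of_R r _)
  have hs := fun a => lf_mem_B (A := A) _ y.mem a (mem_B_of_R s _)
  have hN := fun a b => C_mem_B (A := A) (y.c.N_mem y.mem a b)
  rw [y.ev_mul y.tau_mem (mem_B_of_R _ _), ev_tau, qb,
    y.ev_sum _ fun a _ => mul_mem (sum_mem fun b _ => mul_mem (hr b) (hN b a)) (hs a)] at h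
  rw [p_apply, h, dj_apply]
  refine Finset.sum_congr rfl fun a _ => ?_
  rw [y.ev_mul (sum_mem fun b _ => mul_mem (hr b) (hN b a)) (hs a),
    y.ev_sum _ fun b _ => mul_mem (hr b) (hN b a)]
  congr 1
  refine Finset.sum_congr rfl fun b _ => ?_
  rw [y.ev_mul (hr b) (hN b a), ev_C]
  rfl

theorem sub_mem_sq [CompactSpace Z] (h : A.IsAmple) {a : A.R} (ha : y.jet a.1 = 0) :
    a - algebraMap ℂ A.R (y.p a) ∈ RingHom.ker y.p ^ 2 := by
  refine sub_mem_sq_of_der y.p fun δ hδ => ?_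
  obtain ⟨u, hu⟩ := y.exists_dj h δ hδ
  rw [hu, dj_apply, ha]
  simp

end Pt

theorem exists_pt_of_closed [LocallyOfFiniteType (Z ↘ SpecC)] {x : Z} (hx : IsClosed {x}) :
    ∃ y : A.Pt, y.x = x := by
  obtain ⟨e⟩ := exists_val_of_closed hx
  exact ⟨⟨x, e, 1, one_ne_zero⟩, rfl⟩

theorem IsBr.isContactFano [IsProper (Z ↘ SpecC)] (hP : IsBr P) (h : A.IsAmple) :
    P292.IsContactFano A.grade P := by
  have := compactSpace_of_proper (Z := Z)
  refine ⟨inferInstance, R_normal, R_finiteType h, grade_zero, ?_, fun p hp n hn => ?_,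
    hP.alternating, hP.leibniz, hP.jacobi, hP.degree, fun p hp a ha => ?_⟩
  · obtain ⟨x, -, hx⟩ := exists_closed_mem (X := Z) isOpen_univ ⟨genericPoint Z, trivial⟩
    obtain ⟨y, -⟩ := exists_pt_of_closed (A := A) hx
    exact ⟨y.p, y.not_isVertex h⟩
  · obtain ⟨y, rfl⟩ := exists_pt h p hp
    obtain ⟨D, σ, -, h1, h2, -, h4⟩ := h.exists_small y.mem
    obtain ⟨k, hk⟩ := exists_extend (m := 1) (f := A.g y.c) h1 h2.ne_zero fun x hx =>
      (genAt_g _ (h4 hx)).secAt
    have h5 := hn _ _ (mono_mem h1) ((y.p_mono_ne_zero h1).2 h2)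
    have h6 := hn _ _ (mono_mem (hk k le_rfl))
      ((y.p_mono_ne_zero _).2 ((genAt_g _ y.mem).mul (h2.pow k)))
    exact Nat.dvd_one.1 ((Nat.dvd_add_left (h5.mul_right k)).1 h6)
  · obtain ⟨y, rfl⟩ := exists_pt h p hp
    refine y.sub_mem_sq h ?_
    have h1 : Matrix.vecMul (y.jet a.1) y.n = 0 := y.eq_zero_of_dj h fun s => by
      rw [← y.p_br hP, ha, mul_zero]
    rw [← Matrix.vecMul_one (y.jet a.1), ← y.n_mul_m, ← Matrix.vecMul_vecMul, h1,
      Matrix.zero_vecMul]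

end Atlas

end Vale.Agent.P292Z
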