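import Mathlib

/-!
# Finite generation from the valuative criterion
-/

open Polynomial

namespace Vale.Agent.P292Z

/-- A subalgebra of a field which consists of elements integral over a finitely generated
subalgebra that generates the field is finitely generated. -/
theorem fg_of_valuation {k L : Type} [Field k] [CharZero k] [Field L] [Algebra k L]
    (P M : Subalgebra k L) (hPfg : P.FG) (hPM : P ≤ M)
    (hgen : ∀ S : Subfield L, (∀ c : k, algebraMap k L c ∈ S) → (∀ p ∈ P, p ∈ S) → S = ⊤)
    (hval : ∀ f ∈ M, ∀ W : ValuationSubring L, (∀ p ∈ P, p ∈ W) → f ∈ W) : M.FG := by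
  classical
  have hPft : Algebra.FiniteType k P := (Subalgebra.fg_iff_finiteType P).1 hPfg
  obtain ⟨t, ht⟩ := hPfg
  obtain ⟨d, g, hg, hgfin⟩ := exists_finite_inj_algHom_of_fg k P
  set A := MvPolynomial (Fin d) k with hA
  let ψ : A →ₐ[k] L := P.val.comp g
  have hψinj : Function.Injective ψ := Subtype.val_injective.comp hg
  let algAL : Algebra A L := ψ.toRingHom.toAlgebra
  have hAL : ∀ a : A, algebraMap A L a = (g a : L) := fun a => rfl
  have : FaithfulSMul A L := (faithfulSMul_iff_algebraMap_injective A L).2 hψinj
  have : IsScalarTower k A L := IsScalarTower.of_algebraMap_eq fun c => by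
    rw [hAL]
    have : g (algebraMap k A c) = algebraMap k P c := g.commutes c
    rw [this]
    rfl
  have hPint : ∀ p : P, IsIntegral A (p : L) := by
    intro p
    have h1 : g.toRingHom.IsIntegralElem p := hgfin.to_isIntegral p
    obtain ⟨q, hq, hqp⟩ := h1
    refine ⟨q, hq, ?_⟩
    have h3 : eval₂ g.toRingHom p q = 0 := hqp
    have h4 := Polynomial.hom_eval₂ q g.toRingHom (P.val : P →+* L) p
    rw [h3, map_zero] at h4
    exact h4.symm
  let F := FractionRing A
  let algFL : Algebra F L := FractionRing.liftAlgebra A L
  have : IsScalarTower A F L := FractionRing.isScalarTower_liftAlgebra A L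
  have htP : ∀ x ∈ t, x ∈ P := fun x hx => by
    rw [← ht]
    exact Algebra.subset_adjoin hx
  have hkF : ∀ c : k, algebraMap k L c = algebraMap F L (algebraMap A F (algebraMap k A c)) := by
    intro c
    rw [← IsScalarTower.algebraMap_apply A F L, ← IsScalarTower.algebraMap_apply k A L]
  have hfin : FiniteDimensional F L := by
    let E : IntermediateField F L := IntermediateField.adjoin F (t : Set L)
    have hE : E = ⊤ := by
      have h1 : E.toSubfield = ⊤ := by
        refine hgen E.toSubfield (fun c => ?_) fun p hp => ?_
        · rw [hkF]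
          exact E.algebraMap_mem _
        · rw [← ht] at hp
          induction hp using Algebra.adjoin_induction with
          | mem x hx => exact IntermediateField.subset_adjoin F _ hx
          | algebraMap r =>
            rw [hkF]
            exact E.algebraMap_mem _
          | add x y _ _ hx hy => exact E.add_mem hx hy
          | mul x y _ _ hx hy => exact E.mul_mem hx hy
      rw [eq_top_iff]
      intro x _
      have : x ∈ E.toSubfield := by rw [h1]; trivial
      exact this
    have h3 : FiniteDimensional F E := by
      refine IntermediateField.finiteDimensional_adjoin ?_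
      intro x hx
      exact (hPint ⟨x, htP x hx⟩).tower_top
    rw [hE] at h3
    exact Module.Finite.equiv (IntermediateField.topEquiv (F := F) (E := L)).toLinearEquiv
  have hnoeth : IsNoetherian A (integralClosure A L) :=
    IsIntegralClosure.isNoetherian A F L (integralClosure A L)
  have hint : ∀ f ∈ M, IsIntegral A f := by
    intro f hf
    by_contra hcon
    have h1 : f ∉ (integralClosure A L).toSubring := hcon
    have : IsIntegrallyClosedIn (integralClosure A L).toSubring L :=
      inferInstanceAs (IsIntegrallyClosedIn (integralClosure A L) L)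
    obtain ⟨W, hW, hfW⟩ := Subring.exists_le_valuationSubring_of_isIntegrallyClosedIn h1
    exact hfW (hval f hf W fun p hp => hW (hPint ⟨p, hp⟩))
  let M' : Submodule A L :=
    { carrier := M
      add_mem' := fun ha hb => M.add_mem ha hb
      zero_mem' := M.zero_mem
      smul_mem' := fun a x hx => by
        rw [Algebra.smul_def, hAL]
        exact M.mul_mem (hPM (g a).2) hx }
  have hle : M' ≤ Subalgebra.toSubmodule (integralClosure A L) := fun x hx => hint x hx
  have hfg : M'.FG := by
    have h1 : IsNoetherian A (Subalgebra.toSubmodule (integralClosure A L)) := hnoeth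
    exact (isNoetherian_of_le hle).noetherian ⊤ |> fun h => (Submodule.fg_top M').1 h
  obtain ⟨S', hS'⟩ := hfg
  refine ⟨t ∪ S', le_antisymm (Algebra.adjoin_le ?_) ?_⟩
  · intro x hx
    rw [Finset.coe_union] at hx
    rcases hx with hx | hx
    · exact hPM (htP x hx)
    · have : x ∈ M' := by
        rw [← hS']
        exact Submodule.subset_span hx
      exact this
  · intro x hx
    have h1 : x ∈ Submodule.span A (S' : Set L) := by
      rw [hS']
      exact hx
    obtain ⟨a, -, ha⟩ := Submodule.mem_span_finset.1 h1
    rw [← ha]
    refine Subalgebra.sum_mem _ fun y hy => ?_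
    rw [Algebra.smul_def, hAL]
    refine Subalgebra.mul_mem _ ?_ (Algebra.subset_adjoin ?_)
    · have h2 : ((g (a y) : P) : L) ∈ Algebra.adjoin k (t : Set L) := by
        rw [ht]
        exact (g (a y)).2
      refine Algebra.adjoin_mono ?_ h2
      rw [Finset.coe_union]
      exact Set.subset_union_left
    · rw [Finset.coe_union]
      exact Or.inr hy

theorem mem_of_pow_mem {L : Type} [Field L] (W : ValuationSubring L) {y : L} {c : ℕ} (hc : 0 < c)
    (h : y ^ c ∈ W) : y ∈ W := by
  by_cases hy0 : y = 0
  · rw [hy0]
    exact W.zero_mem
  rcases W.mem_or_inv_mem y with h1 | h1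
  · exact h1
  · obtain ⟨b, rfl⟩ := Nat.exists_eq_succ_of_ne_zero hc.ne'
    have h2 : y = y ^ (b + 1) * (y⁻¹) ^ b := by
      rw [pow_succ, inv_pow]
      field_simp
    rw [h2]
    exact W.mul_mem _ _ h (W.toSubring.pow_mem h1 b)

end Vale.Agent.P292Z
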