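import Vale.Agent.P292Z.Chart

/-!
# Pulling back functions to rational functions
-/

open AlgebraicGeometry CategoryTheory TopologicalSpace Opposite

namespace Vale.Agent.P292Z

theorem vanishingIdeal_eq_ker {X Y : Scheme.{0}} (f : X ⟶ Y) [IsReduced X] [QuasiCompact f]
    (C : Closeds Y) (h : (C : Set Y) = closure (Set.range f)) :
    Scheme.IdealSheafData.vanishingIdeal C = f.ker := by
  have h1 : C = f.ker.support := Closeds.ext (h.trans f.support_ker.symm)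
  rw [h1, Scheme.IdealSheafData.vanishingIdeal_support]
  ext U : 2
  rw [Scheme.IdealSheafData.radical_ideal, Scheme.Hom.ker_apply]
  exact (Ideal.isRadical_bot.comap _).radical

variable {Z Y : Scheme.{0}} [IsIntegral Z] (f : Z ⟶ Y)

/-- The pull-back of a function as a rational function. -/
noncomputable def pb (W : Y.Opens) (hW : genericPoint Z ∈ f ⁻¹ᵁ W) : Γ(Y, W) →+* K Z :=
  (toK (f ⁻¹ᵁ W) hW).comp (f.app W).hom

theorem toK_appLE {W : Y.Opens} {V : Z.Opens} (h : V ≤ f ⁻¹ᵁ W) (hV : genericPoint Z ∈ V)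
    (a : Γ(Y, W)) : toK V hV (f.appLE W V h a) = pb f W (h hV) a :=
  toK_res h hV (h hV) (f.app W a)

theorem pb_appLE {T : Scheme.{0}} (ι : Y ⟶ T) {W : Y.Opens} (hW : genericPoint Z ∈ f ⁻¹ᵁ W)
    {U : T.Opens} (h : W ≤ ι ⁻¹ᵁ U) (a : Γ(T, U)) :
    pb f W hW (ι.appLE U W h a) = pb (f ≫ ι) U (h hW) a := by
  have h1 := congrArg (fun φ => φ.hom a)
    (Scheme.Hom.appLE_comp_appLE f ι U W (f ⁻¹ᵁ W) h le_rfl)
  refine Eq.trans ?_ (toK_appLE (f ≫ ι) (fun x hx => h hx) hW a)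
  refine Eq.trans (toK_appLE f le_rfl hW _).symm ?_
  exact congrArg (toK _ hW) h1

theorem pb_res {W W' : Y.Opens} (i : W' ≤ W) (hW' : genericPoint Z ∈ f ⁻¹ᵁ W') (a : Γ(Y, W)) :
    pb f W' hW' (Y.presheaf.map (homOfLE i).op a) = pb f W (i hW') a := by
  have h1 := congrArg (fun φ => φ.hom a)
    (f.map_appLE (le_rfl : f ⁻¹ᵁ W' ≤ f ⁻¹ᵁ W') (homOfLE i).op)
  refine Eq.trans ?_ (toK_appLE f (fun x hx => i hx) hW' a)
  refine Eq.trans (toK_appLE f le_rfl hW' _).symm ?_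
  exact congrArg (toK _ hW') h1

theorem pb_injective [IsIso f] (W : Y.Opens) (hW : genericPoint Z ∈ f ⁻¹ᵁ W) :
    Function.Injective (pb f W hW) :=
  (toK_injective _ hW).comp (ConcreteCategory.bijective_of_isIso (f.app W)).1

variable [Z.Over SpecC]

theorem isU_pb {W : Y.Opens} {x : Z} (hx : x ∈ f ⁻¹ᵁ W) (a : Γ(Y, W)) :
    IsU x (pb f W (gen_mem hx) a) ↔ f x ∈ Y.basicOpen a := by
  refine (isU_toK hx (gen_mem hx) _).trans ?_
  rw [← Scheme.preimage_basicOpen]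
  rfl

variable [Y.Over SpecC]

theorem pb_algebraMap (hf : f ≫ (Y ↘ SpecC) = Z ↘ SpecC) (W : Y.Opens)
    (hW : genericPoint Z ∈ f ⁻¹ᵁ W) (c : ℂ) :
    pb f W hW (algebraMap ℂ Γ(Y, W) c) = algebraMap ℂ (K Z) c := by
  have h1 : algebraMap ℂ Γ(Y, W) c = (Y ↘ SpecC).appLE ⊤ W le_top
    ((Scheme.ΓSpecIso (CommRingCat.of ℂ)).inv c) := rfl
  have h2 : ∀ (s : Z ⟶ SpecC), s = Z ↘ SpecC → ∀ h, pb s ⊤ h
      ((Scheme.ΓSpecIso (CommRingCat.of ℂ)).inv c) = algebraMap ℂ (K Z) c := by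
    rintro _ rfl h
    exact (toK_appLE (Z ↘ SpecC) (V := ⊤) (W := ⊤) le_top trivial _).symm.trans
      (toK_algebraMap ⊤ trivial c)
  rw [h1]
  exact (pb_appLE f (Y ↘ SpecC) hW (U := ⊤) le_top _).trans (h2 _ hf _)

theorem pb_der [IsIso f] {U U' : Y.affineOpens} {V : Z.affineOpens} (h : V.1 ≤ f ⁻¹ᵁ U.1)
    (hV : genericPoint Z ∈ V.1) {w : VF Z V} {v : VF Y U} (hr : Related f h w v)
    (i : U'.1 ≤ 𝟙 Y ⁻¹ᵁ U.1) {v' : VF Y U'} (hv' : Related (𝟙 Y) i v' v)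
    (hU' : genericPoint Z ∈ f ⁻¹ᵁ U'.1) (a : Γ(Y, U'.1)) :
    pb f U'.1 hU' (v' a) = ext hV w (pb f U'.1 hU' a) := by
  have : IsIntegral Y := IsIntegral.of_isIso f
  have hη : genericPoint Y ∈ U'.1 := gen_mem hU'
  replace i' : U'.1 ≤ U.1 := i
  obtain ⟨b, c, hc, hbc⟩ := exists_frac' U.2 (i' hη) (toK U'.1 hη a)
  have h1 : a * Y.presheaf.map (homOfLE i').op c = Y.presheaf.map (homOfLE i').op b := by
    apply toK_injective U'.1 hη
    rw [map_mul, toK_res i' hη (i' hη), toK_res i' hη (i' hη), hbc]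
  have h2 : ∀ s, v' (Y.presheaf.map (homOfLE i').op s) = Y.presheaf.map (homOfLE i').op (v s) := by
    intro s
    have h3 := hv' s
    rwa [id_appLE] at h3
  have h3 : ∀ s, ext hV w (pb f U.1 (h hV) s) = pb f U.1 (h hV) (v s) := by
    intro s
    rw [← toK_appLE f h hV, ← toK_appLE f h hV, ext_toK, hr s]
  have h4 := congrArg (fun s => pb f U'.1 hU' (v' s)) h1
  have h5 := congrArg (fun s => ext hV w (pb f U'.1 hU' s)) h1
  simp only [Derivation.leibniz, smul_eq_mul, map_add, map_mul, h2, pb_res f i' hU', h3] at h4 h5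
  have h6 : pb f U.1 (h hV) c ≠ 0 := by
    rw [map_ne_zero_iff _ (pb_injective f _ _)]
    rintro rfl
    exact hc (map_zero _)
  exact mul_left_cancel₀ h6 (add_left_cancel (h4.trans h5.symm))

end Vale.Agent.P292Z
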