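import Vale.Agent.P292Z.Adj
import Vale.Agent.P292Z.Emb
import Vale.Agent.P292Z.Pull

/-!
# From the section ring back to the variety
-/

open AlgebraicGeometry CategoryTheory TopologicalSpace Opposite

namespace Vale.Agent.P292Z

attribute [local instance] MvPolynomial.gradedAlgebra

variable {g : Type} [LieRing g] [LieAlgebra ℂ g] [FiniteDimensional ℂ g]

theorem IsPoint.unique {x x' : PP g} {z : g} (h : IsPoint x z) (h' : IsPoint x' z) : x = x' :=
  ProjectiveSpectrum.ext (HomogeneousIdeal.ext' fun i G hG =>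
    not_iff_not.1 ((h i G hG).trans (h' i G hG).symm))

variable {Z : Scheme.{0}} [IsIntegral Z] [Z.Over SpecC] {F : Distribution Z} {d : ℕ}

namespace Atlas

variable {A : Atlas F d} [LieAlgebra.IsSimple ℂ g] {P : A.R →ₗ[ℂ] A.R →ₗ[ℂ] A.R}
  {φ : g →ₗ[ℂ] A.R} {j : Z ⟶ PP g}

theorem IsEmb.isPoint (hj : IsEmb A (Phi φ) j) (h : A.IsAmple) (hφ : IsLie P φ) (y : A.Pt)
    {z : g} (hz : ∀ a, y.p (φ a) = killingForm ℂ g a z) : IsPoint (j y.x) z := fun _ _ hG =>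
  (hj.mem_iff hφ.secAt_Phi (cover_of_ample h hφ.surj) hG y.x).trans (y.genAt_Phi hφ hz hG)

theorem IsEmb.pb_ratio (hj : IsEmb A (Phi φ) j) (h : A.IsAmple) (hφ : IsLie P φ)
    (a b : Fin (Module.finrank ℂ g))
    (hη : genericPoint Z ∈ j ⁻¹ᵁ Proj.basicOpen (forms g) (MvPolynomial.X b)) :
    pb j _ hη (ratio a b) = sg φ a / sg φ b := by
  have hb : MvPolynomial.X b ∈ forms g 1 := MvPolynomial.isHomogeneous_X ℂ b
  have hle : j ⁻¹ᵁ Proj.basicOpen (forms g) (MvPolynomial.X b) ≤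
      A.locus 1 (Phi φ (MvPolynomial.X b)) := fun x hx =>
    (hj.mem_iff hφ.secAt_Phi (cover_of_ample h hφ.surj) hb x).1 hx
  obtain ⟨ψ, hψ⟩ := exists_psi hφ.secAt_Phi hb hη hle
  have h1 := congrArg (fun f => f.hom (HomogeneousLocalization.Away.mk (forms g) hb 1
    (MvPolynomial.X a) (MvPolynomial.isHomogeneous_X ℂ a)))
    (hj.appLE one_pos hb hη hle le_rfl hψ)
  have h2 := hψ 1 (MvPolynomial.X a) (MvPolynomial.isHomogeneous_X ℂ a)
  rw [Phi_X, Phi_X, pow_one] at h2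
  exact (toK_appLE j le_rfl hη _).symm.trans ((congrArg (toK _ hη) h1).trans h2)

theorem IsEmb.hasTangent_iff (hj : IsEmb A (Phi φ) j) (h : A.IsAmple) (hφ : IsLie P φ)
    {Y : Scheme.{0}} [Y.Over SpecC] (e : Z ⟶ Y) [IsIso e] (ι : Y ⟶ PP g) (he : e ≫ ι = j)
    (he' : e ≫ (Y ↘ SpecC) = Z ↘ SpecC) {U U' : Y.affineOpens} {V : Z.affineOpens}
    (hVU : V.1 ≤ e ⁻¹ᵁ U.1) {w : VF Z V} {v : VF Y U} (hr : Related e hVU w v)
    (i : U'.1 ≤ 𝟙 Y ⁻¹ᵁ U.1) {v' : VF Y U'} (hv' : Related (𝟙 Y) i v' v) (y : A.Pt)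
    (hy : y.x ∈ V.1) (hy' : e y.x ∈ U'.1) (z u : g) :
    HasTangent ι v' (e y.x) z u ↔ ∀ a b,
      U'.1 ≤ ι ⁻¹ᵁ Proj.basicOpen (forms g) (MvPolynomial.X b) →
        y.e.v (ext (gen_mem hy) w (sg φ a / sg φ b)) =
          (coord u a * coord z b - coord z a * coord u b) / coord z b ^ 2 := by
  subst he
  refine forall_congr' fun a => forall_congr' fun b => forall_congr' fun hb => ?_
  have hy'' : y.x ∈ e ⁻¹ᵁ U'.1 := hy'
  have h1 : A.GenAt 1 (sg φ b) y.x := by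
    rw [← Phi_X]
    exact (hj.mem_iff hφ.secAt_Phi (cover_of_ample h hφ.surj)
      (MvPolynomial.isHomogeneous_X ℂ b) y.x).1 (hb hy')
  rw [← isU_pb e hy'', map_sub, pb_algebraMap e he', pb_der e hVU (gen_mem hy) hr i hv',
    (pb_appLE e ι (gen_mem hy'') hb _).trans (hj.pb_ratio h hφ a b _)]
  exact y.e.not_isU_sub_iff (reg_ext _ w hy _ (h1.div_mem (secAt_sg a _))) _

theorem θ_eq (A : Atlas F d) (c c' : Chart F d) (D : DK Z) :
    c'.θ D = A.g c / A.g c' * c.θ D := by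
  rw [div_mul_eq_mul_div, ← A.α_eq, A.α_eq c', mul_div_cancel_left₀ _ (A.g_ne c')]

theorem mem_sec_iff (A : Atlas F d) {V : Z.affineOpens} (hV : genericPoint Z ∈ V.1) (w : VF Z V)
    (c : Chart F d) : w ∈ F.sec V ↔ c.θ (ext hV w) = 0 := by
  constructor
  · intro hw
    obtain ⟨W, hW, hWV⟩ := exists_affine_le (W := V.1 ⊓ c.U.1) ⟨hV, c.hU⟩
    have i : W.1 ≤ 𝟙 Z ⁻¹ᵁ V.1 := hWV.trans inf_le_left
    obtain ⟨w', hw'⟩ := exists_restrict i hW w
    rw [← (related_id_iff i hW hV w' w).1 hw', ← c.ker W hW (hWV.trans inf_le_right)]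
    exact F.restrict V W i w w' hw' hw
  · intro hw
    refine F.glue V w fun x hx => ?_
    obtain ⟨W, hW, hWV⟩ := exists_affine_le (W := V.1 ⊓ (A.ch x).U.1) ⟨hx, A.mem x⟩
    have i : W.1 ≤ 𝟙 Z ⁻¹ᵁ V.1 := hWV.trans inf_le_left
    obtain ⟨w', hw'⟩ := exists_restrict i (gen_mem hW) w
    refine ⟨W, i, w', hW, hw', ?_⟩
    rw [(A.ch x).ker W (gen_mem hW) (hWV.trans inf_le_right),
      (related_id_iff i (gen_mem hW) hV w' w).1 hw', A.θ_eq c, hw, mul_zero]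

theorem exists_iso [IsProper (Z ↘ SpecC)] (h : A.IsAmple) (hP : IsBr P) (hφ : IsLie P φ)
    {O : Set g} (hO : {z : g | ∃ p : A.R →ₐ[ℂ] ℂ, ¬ P292.IsVertex A.grade p ∧
      ∀ a, p (φ a) = killingForm ℂ g a z} = O) :
    ∃ e : Z ≅ projOrbit O, e.hom ≫ (projOrbit O ↘ SpecC) = Z ↘ SpecC ∧
      Carries e F (canonical O) := by
  have := compactSpace_of_proper (Z := Z)
  have hcov := cover_of_ample h hφ.surj
  obtain ⟨j, hj⟩ := exists_isEmb (𝒜 := forms g) hφ.secAt_Phi hcov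
  have hcl := hj.isClosedImmersion h hφ.secAt_Phi hφ.surj
  have hO1 : ∀ y : A.Pt, ∃ z ∈ O, ∀ a, y.p (φ a) = killingForm ℂ g a z := by
    intro y
    obtain ⟨z, hz⟩ := exists_kil (y.p.toLinearMap.comp φ)
    exact ⟨z, hO ▸ ⟨y.p, y.not_isVertex h, hz⟩, hz⟩
  have hO2 : ∀ z ∈ O, ∃ y : A.Pt, ∀ a, y.p (φ a) = killingForm ℂ g a z := by
    intro z hz
    rw [← hO] at hz
    obtain ⟨p, hp, hz⟩ := hz
    obtain ⟨y, rfl⟩ := exists_pt h p hp
    exact ⟨y, hz⟩
  have hker : (incl O).ker = j.ker := by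
    refine (Scheme.IdealSheafData.ker_subschemeι _).trans (vanishingIdeal_eq_ker j _ ?_)
    refine subset_antisymm (closure_mono ?_) (closure_minimal ?_ isClosed_closure)
    · rintro x ⟨z, hz, hx⟩
      obtain ⟨y, hy⟩ := hO2 z hz
      exact ⟨y.x, (hj.isPoint h hφ y hy).unique hx⟩
    · rintro _ ⟨x, rfl⟩
      have : JacobsonSpace Z := LocallyOfFiniteType.jacobsonSpace (Z ↘ SpecC)
      have h1 : x ∈ closure (closedPoints Z) := by
        rw [closure_closedPoints]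
        trivial
      refine map_mem_closure j.continuous h1 fun x' hx' => ?_
      obtain ⟨y, rfl⟩ := exists_pt_of_closed (A := A) hx'
      obtain ⟨z, hz, hz'⟩ := hO1 y
      exact ⟨z, hz, hj.isPoint h hφ y hz'⟩
  have hι : IsClosedImmersion (incl O) :=
    inferInstanceAs (IsClosedImmersion (projIdeal O).subschemeι)
  have hiso := IsClosedImmersion.isIso_lift (incl O) j hker
  set e := IsClosedImmersion.lift (incl O) j hker.le
  have he : e ≫ incl O = j := IsClosedImmersion.lift_fac _ _ _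
  have he' : e ≫ (projOrbit O ↘ SpecC) = Z ↘ SpecC := by
    rw [← hj.over hφ.secAt_Phi hcov, ← he, Category.assoc]
    rfl
  have hpt : ∀ x : Z, incl O (e x) = j x := fun x => by
    rw [← he, Scheme.Hom.comp_apply]
  have hsurj : Function.Surjective e := e.homeomorph.surjective
  suffices key : ∀ (U : (projOrbit O).affineOpens) (V : Z.affineOpens) (hVU : V.1 ≤ e ⁻¹ᵁ U.1),
      e ⁻¹ᵁ U.1 ≤ V.1 → ∀ (w : VF Z V) (v : VF (projOrbit O) U), Related e hVU w v →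
        (w ∈ F.sec V ↔ v ∈ canonical O U) from
    ⟨asIso e, he', fun U w v hr => key U _ le_rfl le_rfl w v hr⟩
  intro U V hVU hUV w v hr
  by_cases hV : genericPoint Z ∈ V.1
  swap
  · have h1 : V.1 = ⊥ := eq_bot_iff.2 fun x hx => (hV (gen_mem hx)).elim
    have h2 : Subsingleton Γ(Z, V.1) := by
      rw [h1]
      infer_instance
    have h3 : w = 0 := Derivation.ext fun a => Subsingleton.elim _ _
    refine iff_of_true (h3 ▸ zero_mem _) fun x hx => ?_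
    obtain ⟨x, rfl⟩ := hsurj x
    exact (hV (gen_mem (hUV hx))).elim
  constructor
  · intro hw x hx z hz hxz
    obtain ⟨x, rfl⟩ := hsurj x
    obtain ⟨y, hy⟩ := hO2 z hz
    obtain rfl : y.x = x := j.isClosedEmbedding.injective
      ((hj.isPoint h hφ y hy).unique (hpt x ▸ hxz))
    have hyV : y.x ∈ V.1 := hUV hx
    obtain ⟨u, hu, hu'⟩ := y.exists_horizontal h hP hφ hy (reg_ext hV w hyV) (by
      rw [(A.mem_sec_iff hV w y.c).1 hw, y.e.zero])
    refine ⟨u, hu, fun U' i v' hx' hv' => ?_⟩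
    rw [hj.hasTangent_iff h hφ e (incl O) he he' hVU hr i hv' y hyV hx']
    intro a b hb
    have h1 := (hxz 1 _ (MvPolynomial.isHomogeneous_X ℂ b)).1 (hb hx')
    rw [MvPolynomial.eval_X] at h1
    exact hu' a b h1
  · intro hv
    have : IsIntegral (projOrbit O) := IsIntegral.of_isIso e
    set c := A.ch (genericPoint Z)
    rw [A.mem_sec_iff hV w c]
    by_contra h0
    obtain ⟨x, ⟨⟨hxV, hxc⟩, hxu⟩, hx⟩ := exists_closed_mem
      ((V.1.isOpen.inter c.U.1.isOpen).inter (isOpen_isU (c.θ (ext hV w))))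
      ⟨genericPoint Z, ⟨hV, c.hU⟩, O_generic _, h0, O_generic _⟩
    obtain ⟨y, rfl⟩ := exists_pt_of_closed (A := A) hx
    obtain ⟨z, hz, hy⟩ := hO1 y
    have hxz : IsPoint (incl O (e y.x)) z := hpt y.x ▸ hj.isPoint h hφ y hy
    obtain ⟨u, hu, hu'⟩ := hv (e y.x) (hVU hxV) z hz hxz
    obtain ⟨b, hb⟩ : ∃ b, coord z b ≠ 0 := by
      by_contra hcon
      push Not at hcon
      obtain ⟨k, hk, H, hH, hH'⟩ := hcov y.x
      refine (y.genAt_Phi hφ hy hH).1 hH' ?_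
      rw [show coord z = 0 from funext hcon, MvPolynomial.eval_zero, MvPolynomial.constantCoeff_eq]
      exact MvPolynomial.IsHomogeneous.coeff_eq_zero hH (by simpa using hk.ne)
    have h1 : e y.x ∈ incl O ⁻¹ᵁ Proj.basicOpen (forms g) (MvPolynomial.X b) :=
      (hxz 1 _ (MvPolynomial.isHomogeneous_X ℂ b)).2 (by rwa [MvPolynomial.eval_X])
    obtain ⟨U', hU', hU'le⟩ := exists_affine_le
      (W := U.1 ⊓ incl O ⁻¹ᵁ Proj.basicOpen (forms g) (MvPolynomial.X b)) ⟨hVU hxV, h1⟩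
    have i : U'.1 ≤ 𝟙 (projOrbit O) ⁻¹ᵁ U.1 := hU'le.trans inf_le_left
    obtain ⟨v', hv'⟩ := exists_restrict i (gen_mem hU') v
    have h2 := (hj.hasTangent_iff h hφ e (incl O) he he' hVU hr i hv' y hxV hU' z u).1
      (hu' U' i v' hU' hv')
    have h3 := y.v_θ_eq_zero h hP hφ hy (reg_ext hV w hxV) hu hb fun a =>
      h2 a b (hU'le.trans inf_le_right)
    have h4 : IsU y.x (y.c.θ (ext hV w)) := by
      rw [A.θ_eq c]
      exact (A.isU_g_div c y.c hxc y.mem).mul hxu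
    exact (y.e.unit h4.mem).1 h4 h3

end Atlas

/-- Reduction of the classification to the statement on section rings. -/
theorem main_of_integral
    (H : ∀ (R : Type) [CommRing R] [Algebra ℂ R] (𝒜 : ℕ → Submodule ℂ R) [GradedAlgebra 𝒜]
      (P : R →ₗ[ℂ] R →ₗ[ℂ] R), P292.IsContactFano 𝒜 P → 3 ≤ Algebra.trdeg ℂ R →
        P292.IsAdjointVariety 𝒜 P)
    [IsProper (Z ↘ SpecC)] [SmoothOfRelativeDimension d (Z ↘ SpecC)] (hd : 3 ≤ d)
    (hF : IsContact F) (hK : IsFano Z d) :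
    ∃ (g : Type) (_ : LieRing g) (_ : LieAlgebra ℂ g) (_ : FiniteDimensional ℂ g)
      (_ : LieAlgebra.IsSimple ℂ g) (O : Set g), P292.IsMinimalOrbit O ∧
        ∃ e : Z ≅ projOrbit O, e.hom ≫ (projOrbit O ↘ SpecC) = Z ↘ SpecC ∧
          Carries e F (canonical O) := by
  obtain ⟨A⟩ := exists_atlas hF d
  have h := A.isAmple hK
  obtain ⟨P, hP⟩ := A.exists_isBr
  obtain ⟨g, _, _, _, _, φ, O, -, h1, h2, h3, h4, h5⟩ := H A.R A.grade P (hP.isContactFano h)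
    (le_trans (by exact_mod_cast hd) (Atlas.le_trdeg h))
  exact ⟨g, _, _, inferInstance, inferInstance, O, h4, Atlas.exists_iso h hP ⟨h1, h2, h3⟩ h5⟩

end Vale.Agent.P292Z
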