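import Vale.Agent.P292Z.VField
import Vale.Agent.P299.Q.EtaleNormal
import Vale.Agent.P299.Q.FrameAlg
import Mathlib.AlgebraicGeometry.Morphisms.Etale
import Mathlib.RingTheory.RingHom.StandardSmooth
import Mathlib.RingTheory.AlgebraicIndependent.Basic

/-!
# Local coordinates, frames, values at closed points
-/

open AlgebraicGeometry CategoryTheory TopologicalSpace Opposite

namespace Vale.Agent.P292Z

open Vale.Agent.P299.Q in
/-- Étale coordinates around every point of a smooth scheme. -/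
theorem exists_etale_coords {X : Scheme.{0}} [X.Over SpecC] (d : ℕ)
    [h : SmoothOfRelativeDimension d (X ↘ SpecC)] (x : X) :
    ∃ U : X.affineOpens, x ∈ U.1 ∧ ∃ g : MvPolynomial (Fin d) ℂ →+* Γ(X, U.1),
      g.comp MvPolynomial.C = algebraMap ℂ Γ(X, U.1) ∧ g.Etale := by
  obtain ⟨U, hU, W, hW, hx, e, hf⟩ := h.exists_isStandardSmoothOfRelativeDimension x
  have hsub : Subsingleton SpecC := inferInstanceAs (Subsingleton (PrimeSpectrum ℂ))
  have hUt : U = ⊤ := by
    refine TopologicalSpace.Opens.ext (Set.eq_univ_of_forall fun y => ?_)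
    rw [Subsingleton.elim y ((X ↘ SpecC) x)]
    exact e hx
  subst hUt
  have h2 : algebraMap ℂ Γ(X, W) = ((X ↘ SpecC).appLE ⊤ W e).hom.comp
      (Scheme.ΓSpecIso (CommRingCat.of ℂ)).symm.commRingCatIsoToRingEquiv.toRingHom := by
    ext c
    rfl
  have h3 : (algebraMap ℂ Γ(X, W)).IsStandardSmoothOfRelativeDimension d := by
    rw [h2]
    exact RingHom.isStandardSmoothOfRelativeDimension_respectsIso.2 _ _ hf
  exact ⟨⟨W, hW⟩, hx, h3.exists_etale_mvPolynomial⟩

theorem etale_res {X : Scheme.{0}} {U V : X.affineOpens} (i : V.1 ≤ U.1) :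
    (X.presheaf.map (homOfLE i).op).hom.Etale := by
  have h := (𝟙 X : X ⟶ X).etale_appLE U.2 V.2 (show V.1 ≤ 𝟙 X ⁻¹ᵁ U.1 from i)
  rwa [id_appLE] at h

theorem finiteType_sections {X : Scheme.{0}} [X.Over SpecC] [LocallyOfFiniteType (X ↘ SpecC)]
    (U : X.affineOpens) : Algebra.FiniteType ℂ Γ(X, U.1) := by
  have h1 := (X ↘ SpecC).finiteType_appLE (isAffineOpen_top SpecC) U.2 le_top
  have h2 : algebraMap ℂ Γ(X, U.1) = ((X ↘ SpecC).appLE ⊤ U.1 le_top).hom.comp
      (Scheme.ΓSpecIso (CommRingCat.of ℂ)).symm.commRingCatIsoToRingEquiv.toRingHom := by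
    ext c
    rfl
  have h3 : (algebraMap ℂ Γ(X, U.1)).FiniteType := by
    rw [h2]
    exact RingHom.finiteType_respectsIso.2 _ _ h1
  exact RingHom.finiteType_algebraMap.1 h3

variable {X : Scheme.{0}} [IsIntegral X] [X.Over SpecC]

/-- Coordinates `t` on an affine open set and the dual vector fields `w`. -/
structure Frame (X : Scheme.{0}) [IsIntegral X] [X.Over SpecC] (d : ℕ) where
  U : X.affineOpens
  hU : genericPoint X ∈ U.1
  t : Fin d → K X
  w : Fin d → DK X
  t_mem : ∀ x ∈ U.1, ∀ j, t j ∈ O x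
  w_reg : ∀ x ∈ U.1, ∀ i, Reg x (w i)
  dual : ∀ i j, w i (t j) = if i = j then 1 else 0
  expand : ∀ D : DK X, D = ∑ i, D (t i) • w i
  indep : AlgebraicIndependent ℂ t
  omega : ∀ (V : X.affineOpens) (hV : genericPoint X ∈ V.1), V.1 ≤ U.1 →
    ∀ s : Fin d → Γ(X, V.1), (∀ j, toK V.1 hV (s j) = t j) →
      Submodule.span Γ(X, V.1) (Set.range fun j => KaehlerDifferential.D ℂ Γ(X, V.1) (s j)) = ⊤
  normal : ∀ x ∈ U.1, ∀ f : K X, IsIntegral (O x) f → f ∈ O x

/-- The restriction of a frame. -/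
def Frame.res {d : ℕ} (c : Frame X d) (V : X.affineOpens) (hV : genericPoint X ∈ V.1)
    (i : V.1 ≤ c.U.1) : Frame X d where
  U := V
  hU := hV
  t := c.t
  w := c.w
  t_mem x hx := c.t_mem x (i hx)
  w_reg x hx := c.w_reg x (i hx)
  dual := c.dual
  expand := c.expand
  indep := c.indep
  omega W hW j := c.omega W hW (j.trans i)
  normal x hx := c.normal x (i hx)

theorem mem_O_of_isIntegral {U : X.affineOpens} [IsIntegrallyClosed Γ(X, U.1)] {x : X}
    (hx : x ∈ U.1) {f : K X} (hf : IsIntegral (O x) f) : f ∈ O x := by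
  let _ := TopCat.Presheaf.algebra_section_stalk X.presheaf (U := U.1) ⟨x, hx⟩
  have hloc := U.2.isLocalization_stalk ⟨x, hx⟩
  have : Nonempty U.1 := ⟨⟨x, hx⟩⟩
  have h1 : IsIntegrallyClosed (X.presheaf.stalk x) :=
    isIntegrallyClosed_of_isLocalization (X.presheaf.stalk x)
      (U.2.primeIdealOf ⟨x, hx⟩).asIdeal.primeCompl (Ideal.primeCompl_le_nonZeroDivisors _)
  let _ : Algebra (X.presheaf.stalk x) (K X) := (stK x).toAlgebra
  have : IsFractionRing (X.presheaf.stalk x) (K X) :=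
    inferInstanceAs (IsFractionRing (X.presheaf.stalk x) X.functionField)
  obtain ⟨p, hp, hpf⟩ := hf
  let e : X.presheaf.stalk x →+* O x := (stK x).codRestrict (O x).toSubring fun a => ⟨a, rfl⟩
  have he : Function.Surjective e := by
    rintro ⟨_, a, rfl⟩
    exact ⟨a, rfl⟩
  obtain ⟨q, hq, -, hqm⟩ := Polynomial.lifts_and_degree_eq_and_monic
    ((Polynomial.mem_lifts p).2 (Polynomial.map_surjective e he p)) hp
  have h2 : IsIntegral (X.presheaf.stalk x) f := by
    refine ⟨q, hqm, ?_⟩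
    rw [← hq, Polynomial.eval₂_map] at hpf
    exact hpf
  exact (@isIntegrallyClosed_iff (X.presheaf.stalk x) _ (K X) _ _ this).1 h1 h2

open Vale.Agent.P299.Q in
theorem exists_frame (d : ℕ) [SmoothOfRelativeDimension d (X ↘ SpecC)] (x : X) :
    ∃ c : Frame X d, x ∈ c.U.1 := by
  obtain ⟨U, hx, g, hg, het⟩ := exists_etale_coords d x
  have hU := gen_mem hx
  have : Nonempty U.1 := ⟨⟨_, hU⟩⟩
  let _ : Algebra (MvPolynomial (Fin d) ℂ) Γ(X, U.1) := g.toAlgebra
  have : IsScalarTower ℂ (MvPolynomial (Fin d) ℂ) Γ(X, U.1) :=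
    IsScalarTower.of_algebraMap_eq' hg.symm
  have : Algebra.Etale (MvPolynomial (Fin d) ℂ) Γ(X, U.1) := het
  let _ : Algebra Γ(X, U.1) (K X) := (toK U.1 hU).toAlgebra
  have : IsFractionRing Γ(X, U.1) (K X) := functionField_isFractionRing_of_isAffineOpen X U.1 U.2
  have : IsScalarTower ℂ Γ(X, U.1) (K X) :=
    IsScalarTower.of_algebraMap_eq fun c => (toK_algebraMap U.1 hU c).symm
  have : Algebra.FormallyEtale Γ(X, U.1) (K X) :=
    Algebra.FormallyEtale.of_isLocalization (nonZeroDivisors Γ(X, U.1))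
  let _ : Algebra (MvPolynomial (Fin d) ℂ) (K X) := ((toK U.1 hU).comp g).toAlgebra
  have : IsScalarTower (MvPolynomial (Fin d) ℂ) Γ(X, U.1) (K X) :=
    IsScalarTower.of_algebraMap_eq' rfl
  have : IsScalarTower ℂ (MvPolynomial (Fin d) ℂ) (K X) :=
    IsScalarTower.of_algebraMap_eq fun c => by
      rw [← toK_algebraMap U.1 hU, ← hg]
      rfl
  have : Algebra.FormallyEtale (MvPolynomial (Fin d) ℂ) (K X) :=
    Algebra.FormallyEtale.comp (MvPolynomial (Fin d) ℂ) Γ(X, U.1) (K X)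
  have hnorm : IsIntegrallyClosed Γ(X, U.1) :=
    isIntegrallyClosed_of_etale (MvPolynomial (Fin d) ℂ) _
  have hginj : Function.Injective g := by
    have hflat : Module.Flat (MvPolynomial (Fin d) ℂ) Γ(X, U.1) := inferInstance
    rw [injective_iff_map_eq_zero]
    intro a ha
    by_contra ha0
    have h := Module.Flat.isSMulRegular_of_nonZeroDivisors (M := Γ(X, U.1))
      (mem_nonZeroDivisors_of_ne_zero ha0)
    have h1 : a • (1 : Γ(X, U.1)) = a • 0 := by
      rw [Algebra.smul_def, smul_zero, mul_one]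
      exact ha
    exact one_ne_zero (h h1)
  have hw : ∀ i a, partialDer ℂ d (K X) i (toK U.1 hU a) =
      toK U.1 hU (partialDer ℂ d Γ(X, U.1) i a) := by
    intro i a
    have h1 : (partialDer ℂ d (K X) i).compAlgebraMap Γ(X, U.1) =
        (Algebra.linearMap Γ(X, U.1) (K X)).compDer (partialDer ℂ d Γ(X, U.1) i) := by
      refine der_eq_of_coord (n := d) fun j => ?_
      change partialDer ℂ d (K X) i (algebraMap (MvPolynomial (Fin d) ℂ) (K X) _) =
        toK U.1 hU (partialDer ℂ d Γ(X, U.1) i _)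
      rw [partialDer_apply, partialDer_apply]
      split_ifs
      · rw [map_one]
      · rw [map_zero]
    exact congrArg (fun D => D a) h1
  refine ⟨⟨U, hU, fun j => toK U.1 hU (g (MvPolynomial.X j)), partialDer ℂ d (K X),
    fun y hy j => toK_mem hy _ _, fun y hy i => reg_of_toK hy fun a => ?_,
    fun i j => partialDer_apply ℂ d (K X) i j, fun D => ?_, ?_, fun V hV i s hs => ?_,
    fun y hy f hf => mem_O_of_isIntegral hy hf⟩, hx⟩
  · rw [hw]
    exact toK_mem hy _ _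
  · refine der_eq_of_coord (n := d) fun j => ?_
    rw [der_sum_apply]
    simp only [Derivation.smul_apply, partialDer_apply, smul_eq_mul, mul_ite, mul_one, mul_zero,
      Finset.sum_ite_eq', Finset.mem_univ, if_true]
    rfl
  · rw [algebraicIndependent_iff_injective_aeval]
    have h1 : (MvPolynomial.aeval fun j => toK U.1 hU (g (MvPolynomial.X j)) :
        MvPolynomial (Fin d) ℂ →ₐ[ℂ] K X) =
        IsScalarTower.toAlgHom ℂ (MvPolynomial (Fin d) ℂ) (K X) := by
      refine MvPolynomial.algHom_ext fun j => ?_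
      rw [MvPolynomial.aeval_X]
      rfl
    rw [h1]
    exact (toK_injective U.1 hU).comp hginj
  · let g' : MvPolynomial (Fin d) ℂ →+* Γ(X, V.1) := (X.presheaf.map (homOfLE i).op).hom.comp g
    have het' : g'.Etale := RingHom.Etale.stableUnderComposition _ _ het (etale_res i)
    let _ : Algebra (MvPolynomial (Fin d) ℂ) Γ(X, V.1) := g'.toAlgebra
    have : IsScalarTower ℂ (MvPolynomial (Fin d) ℂ) Γ(X, V.1) :=
      IsScalarTower.of_algebraMap_eq fun c => by
        rw [← res_algebraMap i, ← hg]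
        rfl
    have : Algebra.Etale (MvPolynomial (Fin d) ℂ) Γ(X, V.1) := het'
    have h1 : (fun j => KaehlerDifferential.D ℂ Γ(X, V.1) (s j)) = etaleBasis ℂ d Γ(X, V.1) := by
      funext j
      rw [etaleBasis_apply]
      congr 1
      apply toK_injective V.1 hV
      rw [hs]
      exact (toK_res i hV hU _).symm
    rw [h1]
    exact (etaleBasis ℂ d Γ(X, V.1)).span_eq

omit [IsIntegral X] [X.Over SpecC] in
theorem mem_basicOpen_iff {U : X.Opens} (hU : IsAffineOpen U) {x : X} (hx : x ∈ U) (a : Γ(X, U)) :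
    x ∈ X.basicOpen a ↔ a ∉ (hU.primeIdealOf ⟨x, hx⟩).asIdeal := by
  have h1 : hU.primeIdealOf ⟨x, hx⟩ ∈ hU.fromSpec ⁻¹ᵁ X.basicOpen a ↔
      hU.fromSpec (hU.primeIdealOf ⟨x, hx⟩) ∈ X.basicOpen a := Iff.rfl
  rw [hU.fromSpec_primeIdealOf, hU.fromSpec_preimage_basicOpen] at h1
  exact h1.symm

omit [IsIntegral X] [X.Over SpecC] in
theorem exists_point_of_prime {U : X.Opens} (hU : IsAffineOpen U) (p : Ideal Γ(X, U))
    (hp : p.IsPrime) : ∃ x ∈ U, ∀ a : Γ(X, U), x ∈ X.basicOpen a ↔ a ∉ p := by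
  refine ⟨hU.fromSpec ⟨p, hp⟩, ?_, fun a => ?_⟩
  · have : hU.fromSpec ⟨p, hp⟩ ∈ Set.range hU.fromSpec := ⟨_, rfl⟩
    rwa [hU.range_fromSpec] at this
  · have h1 : (⟨p, hp⟩ : PrimeSpectrum Γ(X, U)) ∈ hU.fromSpec ⁻¹ᵁ X.basicOpen a ↔
      hU.fromSpec ⟨p, hp⟩ ∈ X.basicOpen a := Iff.rfl
    rw [hU.fromSpec_preimage_basicOpen] at h1
    exact h1.symm

/-- The values of the regular functions at a closed point. -/
structure Val (x : X) where
  v : K X → ℂ
  add : ∀ {f g}, f ∈ O x → g ∈ O x → v (f + g) = v f + v g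
  mul : ∀ {f g}, f ∈ O x → g ∈ O x → v (f * g) = v f * v g
  const : ∀ c, v (algebraMap ℂ (K X) c) = c
  unit : ∀ {f}, f ∈ O x → (IsU x f ↔ v f ≠ 0)

namespace Val

variable {x : X} (e : Val x)

theorem zero : e.v 0 = 0 := by simpa using e.const 0

theorem one : e.v 1 = 1 := by simpa using e.const 1

theorem natCast (n : ℕ) : e.v n = n := by simpa using e.const n

theorem neg {f : K X} (hf : f ∈ O x) : e.v (-f) = -e.v f := by
  have h := e.add hf (neg_mem hf)
  rw [add_neg_cancel, e.zero] at h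
  exact eq_neg_of_add_eq_zero_right h.symm

theorem sub {f g : K X} (hf : f ∈ O x) (hg : g ∈ O x) : e.v (f - g) = e.v f - e.v g := by
  rw [sub_eq_add_neg, e.add hf (neg_mem hg), e.neg hg, sub_eq_add_neg]

theorem sum {ι : Type*} (s : Finset ι) {f : ι → K X} (hf : ∀ i ∈ s, f i ∈ O x) :
    e.v (∑ i ∈ s, f i) = ∑ i ∈ s, e.v (f i) := by
  classical
  induction s using Finset.induction_on with
  | empty => simpa using e.zero
  | insert a s ha ih =>
    rw [Finset.sum_insert ha, Finset.sum_insert ha, e.add (hf a (Finset.mem_insert_self _ _))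
      (sum_mem fun i hi => hf i (Finset.mem_insert_of_mem hi)),
      ih fun i hi => hf i (Finset.mem_insert_of_mem hi)]

theorem pow {f : K X} (hf : f ∈ O x) (n : ℕ) : e.v (f ^ n) = e.v f ^ n := by
  induction n with
  | zero => simpa using e.one
  | succ n ih => rw [pow_succ, e.mul (pow_mem hf n) hf, ih, pow_succ]

theorem div {f g : K X} (hf : f ∈ O x) (hg : IsU x g) : e.v (f / g) = e.v f / e.v g := by
  rw [eq_div_iff ((e.unit hg.mem).1 hg), ← e.mul (hg.div_mem hf) hg.mem,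
    div_mul_cancel₀ _ hg.ne_zero]

theorem smul (c : ℂ) {f : K X} (hf : f ∈ O x) : e.v (c • f) = c * e.v f := by
  rw [Algebra.smul_def, e.mul ((O x).algebraMap_mem c) hf, e.const]

/-- The value as an algebra homomorphism. -/
def hom : O x →ₐ[ℂ] ℂ where
  toFun f := e.v f
  map_one' := e.one
  map_mul' f g := e.mul f.2 g.2
  map_zero' := e.zero
  map_add' f g := e.add f.2 g.2
  commutes' c := e.const c

theorem not_isU_sub_iff {f : K X} (hf : f ∈ O x) (c : ℂ) :
    ¬ IsU x (f - algebraMap ℂ (K X) c) ↔ e.v f = c := by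
  rw [e.unit (sub_mem hf ((O x).algebraMap_mem c)), e.sub hf ((O x).algebraMap_mem c), e.const,
    not_not, sub_eq_zero]

end Val

theorem exists_val {U : X.Opens} (hU : IsAffineOpen U) {x : X} (hx : x ∈ U)
    (p : Γ(X, U) →ₐ[ℂ] ℂ) (hp : ∀ a, x ∈ X.basicOpen a ↔ p a ≠ 0) :
    ∃ e : Val x, ∀ a, e.v (toK U (gen_mem hx) a) = p a := by
  classical
  let _ := TopCat.Presheaf.algebra_section_stalk X.presheaf (U := U) ⟨x, hx⟩
  have hloc := hU.isLocalization_stalk ⟨x, hx⟩
  have hu : ∀ y : (hU.primeIdealOf ⟨x, hx⟩).asIdeal.primeCompl,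
      IsUnit ((p : Γ(X, U) →+* ℂ) y) := fun y =>
    IsUnit.mk0 _ ((hp y).1 ((mem_basicOpen_iff hU hx y).2 y.2))
  let φ : X.presheaf.stalk x →+* ℂ := IsLocalization.lift hu
  have hφ : ∀ a, φ (X.presheaf.germ U x hx a) = p a := fun a => IsLocalization.lift_eq hu a
  let v : K X → ℂ := fun f => if h : f ∈ O x then φ h.choose else 0
  have hv : ∀ a, v (stK x a) = φ a := by
    intro a
    have h : stK x a ∈ O x := ⟨a, rfl⟩
    change (if h : stK x a ∈ O x then φ h.choose else 0) = _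
    rw [dif_pos h, stK_injective x h.choose_spec]
  have hv' : ∀ a, v (toK U (gen_mem hx) a) = p a := fun a => by rw [← stK_germ hx, hv, hφ]
  have hmul : ∀ {f g}, f ∈ O x → g ∈ O x → v (f * g) = v f * v g := by
    rintro _ _ ⟨a, rfl⟩ ⟨b, rfl⟩
    rw [← map_mul, hv, hv, hv, map_mul]
  refine ⟨⟨v, ?_, hmul, fun c => ?_, fun {f} hf => ?_⟩, hv'⟩
  · rintro _ _ ⟨a, rfl⟩ ⟨b, rfl⟩
    rw [← map_add, hv, hv, hv, map_add]
  · rw [← toK_algebraMap U (gen_mem hx), hv', AlgHom.commutes]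
    rfl
  · obtain ⟨a, b, hb, hab⟩ := exists_frac hU hx hf
    have hb' := (isU_toK hx (gen_mem hx) b).2 hb
    have h1 := hmul hf hb'.mem
    rw [hab, hv', hv'] at h1
    constructor
    · intro h h0
      have h2 := h.mul hb'
      rw [hab, isU_toK hx, hp, h1, h0, zero_mul] at h2
      exact h2 rfl
    · intro h
      have h2 : IsU x (f * toK U (gen_mem hx) b) := by
        rw [hab, isU_toK hx, hp, h1]
        exact mul_ne_zero h ((hp b).1 hb)
      exact h2.of_mul_left hf hb'.mem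

theorem exists_val_of_hom {U : X.Opens} (hU : IsAffineOpen U) (h : genericPoint X ∈ U)
    (p : Γ(X, U) →ₐ[ℂ] ℂ) : ∃ x ∈ U, ∃ e : Val x, ∀ a, e.v (toK U h a) = p a := by
  obtain ⟨x, hx, hp⟩ := exists_point_of_prime hU (RingHom.ker p) (RingHom.ker_isPrime p)
  exact ⟨x, hx, exists_val hU hx p hp⟩

theorem exists_val_of_closed [LocallyOfFiniteType (X ↘ SpecC)] {x : X} (hc : IsClosed {x}) :
    Nonempty (Val x) := by
  obtain ⟨_, ⟨U, hU, rfl⟩, hx, -⟩ :=
    X.isBasis_affineOpens.exists_subset_of_mem_open (Set.mem_univ x) isOpen_univ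
  have hft := finiteType_sections (X := X) ⟨U, hU⟩
  have hm := hU.primeIdealOf_isMaximal_of_isClosed ⟨x, hx⟩ hc
  set m := (hU.primeIdealOf ⟨x, hx⟩).asIdeal with hmdef
  let _ : Field (Γ(X, U) ⧸ m) := Ideal.Quotient.field m
  have h1 : Module.Finite ℂ (Γ(X, U) ⧸ m) := finite_of_finite_type_of_isJacobsonRing ℂ _
  have h2 : Algebra.IsIntegral ℂ (Γ(X, U) ⧸ m) := inferInstance
  have h3 := IsAlgClosed.algebraMap_bijective_of_isIntegral (k := ℂ) (K := Γ(X, U) ⧸ m)
  let e : ℂ ≃ₐ[ℂ] (Γ(X, U) ⧸ m) := AlgEquiv.ofBijective (Algebra.ofId ℂ _) h3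
  let p : Γ(X, U) →ₐ[ℂ] ℂ := e.symm.toAlgHom.comp (Ideal.Quotient.mkₐ ℂ m)
  obtain ⟨v, -⟩ := exists_val hU hx p fun a => by
    rw [mem_basicOpen_iff hU hx]
    change _ ↔ e.symm (Ideal.Quotient.mk m a) ≠ 0
    rw [map_ne_zero_iff _ e.symm.injective, Ne, Ideal.Quotient.eq_zero_iff_mem]
  exact ⟨v⟩

omit [IsIntegral X] in
theorem exists_closed_mem [LocallyOfFiniteType (X ↘ SpecC)] {W : Set X} (hW : IsOpen W)
    (hne : W.Nonempty) : ∃ x ∈ W, IsClosed {x} := by
  have : JacobsonSpace X := LocallyOfFiniteType.jacobsonSpace (X ↘ SpecC)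
  obtain ⟨x, hx, hc⟩ := nonempty_inter_closedPoints hne hW.isLocallyClosed
  exact ⟨x, hx, hc⟩

/-- A point derivation which kills the coordinates is zero. -/
theorem Frame.point_der {d : ℕ} (c : Frame X d) {x : X} (hx : x ∈ c.U.1) (e : Val x)
    (δ : K X → ℂ) (hadd : ∀ {f g}, f ∈ O x → g ∈ O x → δ (f + g) = δ f + δ g)
    (hmul : ∀ {f g}, f ∈ O x → g ∈ O x → δ (f * g) = e.v f * δ g + e.v g * δ f)
    (hc : ∀ a, δ (algebraMap ℂ (K X) a) = 0) (ht : ∀ j, δ (c.t j) = 0) {f : K X} (hf : f ∈ O x) :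
    δ f = 0 := by
  have hU := c.hU
  choose s hs using fun j => exists_toK_eq c.U.1 hU fun y hy => c.t_mem y hy j
  have hspan := c.omega c.U hU le_rfl s hs
  let j : Γ(X, c.U.1) →+* ℂ :=
    (e.hom : O x →+* ℂ).comp ((toK c.U.1 hU).codRestrict (O x).toSubring (toK_mem hx hU))
  have hj : ∀ a, j a = e.v (toK c.U.1 hU a) := fun _ => rfl
  let _ : Module Γ(X, c.U.1) ℂ := Module.compHom ℂ j
  have hsm : ∀ (a : Γ(X, c.U.1)) (z : ℂ), a • z = j a * z := fun _ _ => rfl
  have : IsScalarTower ℂ Γ(X, c.U.1) ℂ := ⟨fun a b z => by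
    rw [hsm, hsm, Algebra.smul_def, map_mul, hj, toK_algebraMap, e.const, smul_eq_mul, mul_assoc]⟩
  let Dl : Γ(X, c.U.1) →ₗ[ℂ] ℂ :=
    { toFun := fun a => δ (toK c.U.1 hU a)
      map_add' := fun a b => by rw [map_add, hadd (toK_mem hx hU a) (toK_mem hx hU b)]
      map_smul' := fun r a => by
        rw [Algebra.smul_def, map_mul, toK_algebraMap, hmul ((O x).algebraMap_mem r)
          (toK_mem hx hU a), hc, mul_zero, add_zero, e.const, RingHom.id_apply, smul_eq_mul] }
  let D : Derivation ℂ Γ(X, c.U.1) ℂ := Derivation.mk' Dl fun a b => by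
    change δ (toK c.U.1 hU (a * b)) = j a * δ (toK c.U.1 hU b) + j b * δ (toK c.U.1 hU a)
    rw [map_mul, hmul (toK_mem hx hU a) (toK_mem hx hU b), hj, hj]
  have h0 : D.liftKaehlerDifferential = 0 := by
    refine LinearMap.ext_on_range hspan fun i => ?_
    rw [Derivation.liftKaehlerDifferential_comp_D, LinearMap.zero_apply]
    change δ (toK c.U.1 hU (s i)) = 0
    rw [hs, ht]
  have h1 : ∀ a, δ (toK c.U.1 hU a) = 0 := by
    intro a
    have h2 := D.liftKaehlerDifferential_comp_D a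
    rw [h0, LinearMap.zero_apply] at h2
    exact h2.symm
  obtain ⟨a, b, hb, hab⟩ := exists_frac c.U.2 hx hf
  have hb' := (isU_toK hx (gen_mem hx) b).2 hb
  have h2 := hmul hf hb'.mem
  rw [hab, h1, h1, mul_zero, zero_add] at h2
  exact (mul_eq_zero.1 h2.symm).resolve_left ((e.unit hb'.mem).1 hb')

end Vale.Agent.P292Z
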