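import Vale.Agent.P292Z.Sec
import Vale.Agent.P271.Sch.Alg

/-!
# The points of the cone
-/

open AlgebraicGeometry CategoryTheory TopologicalSpace Opposite Polynomial

namespace Vale.Agent.P292Z

/-- The elements which lie in `R` after multiplication by a power of `s`. -/
def awayAlg {L : Type} [CommRing L] [Algebra ℂ L] (R : Subalgebra ℂ L) (s : R) :
    Subalgebra ℂ L where
  carrier := {q | ∃ k : ℕ, q * s.1 ^ k ∈ R}
  mul_mem' := by
    rintro a b ⟨k, hk⟩ ⟨l, hl⟩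
    refine ⟨k + l, ?_⟩
    rw [pow_add, mul_mul_mul_comm]
    exact mul_mem hk hl
  add_mem' := by
    rintro a b ⟨k, hk⟩ ⟨l, hl⟩
    refine ⟨k + l, ?_⟩
    have h : (a + b) * s.1 ^ (k + l) = a * s.1 ^ k * s.1 ^ l + b * s.1 ^ l * s.1 ^ k := by ring
    rw [h]
    exact add_mem (mul_mem hk (pow_mem s.2 l)) (mul_mem hl (pow_mem s.2 k))
  algebraMap_mem' c := ⟨0, by
    rw [pow_zero, mul_one]
    exact R.algebraMap_mem c⟩

theorem exists_ext_away {L B : Type} [CommRing L] [Algebra ℂ L] [CommRing B] [Algebra ℂ B]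
    {R : Subalgebra ℂ L} {s : R} (φ : R →ₐ[ℂ] B) (hs : IsUnit (φ s)) :
    ∃ ψ : awayAlg R s →ₐ[ℂ] B, ∀ (q : awayAlg R s) (k : ℕ) (h : q.1 * s.1 ^ k ∈ R),
      ψ q * φ s ^ k = φ ⟨_, h⟩ := by
  obtain ⟨u, hu⟩ := hs
  have h1 : ∀ q : awayAlg R s, ∃ b : B, ∀ (k : ℕ) (h : q.1 * s.1 ^ k ∈ R),
      b * φ s ^ k = φ ⟨_, h⟩ := by
    rintro ⟨q, l, hl⟩
    refine ⟨φ ⟨_, hl⟩ * (↑u⁻¹ : B) ^ l, fun k h => ?_⟩
    have h2 : (⟨_, hl⟩ : R) * s ^ k = ⟨_, h⟩ * s ^ l := Subtype.ext (by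
      change q * s.1 ^ l * s.1 ^ k = q * s.1 ^ k * s.1 ^ l
      ring)
    have h3 := congrArg φ h2
    rw [map_mul, map_mul, map_pow, map_pow] at h3
    rw [mul_right_comm, h3, mul_assoc, ← mul_pow, ← hu, Units.mul_inv, one_pow, mul_one]
  choose ψ hψ using h1
  have hc : ∀ (k : ℕ) {a b : B}, a * φ s ^ k = b * φ s ^ k → a = b := fun k a b h =>
    ((hu ▸ u.isUnit : IsUnit (φ s)).pow k).mul_right_cancel h
  have h0 : ∀ (q : awayAlg R s) (h : q.1 ∈ R), ψ q = φ ⟨_, h⟩ := by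
    intro q h
    have h2 := hψ q 0 (by rwa [pow_zero, mul_one])
    rw [pow_zero, mul_one] at h2
    rw [h2]
    congr 1
    exact Subtype.ext (by simp)
  refine ⟨{ toFun := ψ
            map_one' := (h0 1 (one_mem _)).trans (map_one φ)
            map_mul' := ?_
            map_zero' := (h0 0 (zero_mem _)).trans (map_zero φ)
            map_add' := ?_
            commutes' := fun c => (h0 _ (R.algebraMap_mem c)).trans (φ.commutes c) }, hψ⟩
  · intro a b
    obtain ⟨k, hk⟩ := a.2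
    obtain ⟨l, hl⟩ := b.2
    have h : (a * b).1 * s.1 ^ (k + l) ∈ R := by
      rw [pow_add, MulMemClass.coe_mul, mul_mul_mul_comm]
      exact mul_mem hk hl
    apply hc (k + l)
    rw [hψ _ _ h, pow_add (φ s), mul_mul_mul_comm (ψ a), hψ _ _ hk, hψ _ _ hl, ← map_mul]
    congr 1
    exact Subtype.ext (by
      change a.1 * b.1 * s.1 ^ (k + l) = a.1 * s.1 ^ k * (b.1 * s.1 ^ l)
      ring)
  · intro a b
    obtain ⟨k, hk⟩ := a.2
    obtain ⟨l, hl⟩ := b.2
    have ha : a.1 * s.1 ^ (k + l) ∈ R := by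
      rw [pow_add, ← mul_assoc]
      exact mul_mem hk (pow_mem s.2 l)
    have hb : b.1 * s.1 ^ (k + l) ∈ R := by
      rw [add_comm, pow_add, ← mul_assoc]
      exact mul_mem hl (pow_mem s.2 k)
    have h : (a + b).1 * s.1 ^ (k + l) ∈ R := by
      rw [AddMemClass.coe_add, add_mul]
      exact add_mem ha hb
    apply hc (k + l)
    rw [hψ _ _ h, add_mul, hψ _ _ ha, hψ _ _ hb, ← map_add]
    congr 1
    exact Subtype.ext (add_mul _ _ _)

variable {Z : Scheme.{0}} [IsIntegral Z] [Z.Over SpecC] {F : Distribution Z} {d : ℕ}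

/-- A point derivation of the ring of functions which kills the coordinates is zero. -/
theorem Frame.point_der' (c : Frame Z d) (V : Z.affineOpens) (hV : genericPoint Z ∈ V.1)
    (i : V.1 ≤ c.U.1) {s : Fin d → Γ(Z, V.1)} (hs : ∀ j, toK V.1 hV (s j) = c.t j)
    (p : Γ(Z, V.1) →ₐ[ℂ] ℂ) (δ : Γ(Z, V.1) →ₗ[ℂ] ℂ)
    (hmul : ∀ a b, δ (a * b) = p a * δ b + p b * δ a) (ht : ∀ j, δ (s j) = 0) (a : Γ(Z, V.1)) :
    δ a = 0 := by
  have hspan := c.omega V hV i s hs
  let _ : Module Γ(Z, V.1) ℂ := Module.compHom ℂ (p : Γ(Z, V.1) →+* ℂ)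
  have hsm : ∀ (a : Γ(Z, V.1)) (z : ℂ), a • z = p a * z := fun _ _ => rfl
  have : IsScalarTower ℂ Γ(Z, V.1) ℂ := ⟨fun a b z => by
    rw [hsm, hsm, map_smul, smul_eq_mul, smul_eq_mul, mul_assoc]⟩
  let D : Derivation ℂ Γ(Z, V.1) ℂ := Derivation.mk' δ hmul
  have h0 : D.liftKaehlerDifferential = 0 := by
    refine LinearMap.ext_on_range hspan fun i => ?_
    rw [Derivation.liftKaehlerDifferential_comp_D, LinearMap.zero_apply]
    exact ht i
  have h2 := D.liftKaehlerDifferential_comp_D a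
  rw [h0, LinearMap.zero_apply] at h2
  exact h2.symm

namespace Atlas

variable {A : Atlas F d}

theorem lf_mem_B {x : Z} (c : Chart F d) (hx : x ∈ c.U.1) (a : Fin (d + 1)) {q : (K Z)[X]}
    (hq : q ∈ A.B x) : lf (A.g c) c.w a q ∈ A.B x := by
  intro m
  have h := (A.secAt_iff c hx m _).1 (hq m)
  rw [A.secAt_iff c hx]
  induction a using Fin.cases with
  | zero =>
    rw [coeff_lf_zero, mul_div_assoc]
    exact mul_mem (natCast_mem _ m) h
  | succ i =>
    rw [coeff_lf_succ (A.g_ne c)]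
    exact c.w_reg x hx i _ h

theorem mem_away [CompactSpace Z] {D m : ℕ} {σ f : K Z} (hσ : ∀ x, A.SecAt D σ x) (h0 : σ ≠ 0)
    (hf : ∀ x, A.GenAt D σ x → A.SecAt m f x) : monomial m f ∈ awayAlg A.R (mono hσ) := by
  obtain ⟨k, hk⟩ := exists_extend hσ h0 hf
  refine ⟨k, ?_⟩
  change monomial m f * monomial D σ ^ k ∈ A.R
  rw [monomial_pow, monomial_mul_monomial]
  exact monomial_mem_R (hk k le_rfl)

theorem monomial_eq_mul (c : Chart F d) (m : ℕ) (f : K Z) :
    monomial m f = C (f / A.g c ^ m) * monomial 1 (A.g c) ^ m := by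
  rw [monomial_pow, C_mul_monomial, div_mul_cancel₀ _ (pow_ne_zero _ (A.g_ne c)), one_mul]

/-- A point of the cone other than the vertex: a closed point `x` and a nonzero value of the
fibre coordinate. -/
structure Pt (A : Atlas F d) where
  x : Z
  e : Val x
  γ : ℂ
  hγ : γ ≠ 0

namespace Pt

variable (y : A.Pt)

/-- The chart at the point. -/
noncomputable abbrev c : Chart F d := A.ch y.x

theorem mem : y.x ∈ y.c.U.1 := A.mem y.x

/-- The value at the point. -/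
noncomputable def ev (q : (K Z)[X]) : ℂ := y.e.v (q.eval (algebraMap ℂ (K Z) y.γ / A.g y.c))

theorem eval_monomial_eq (m : ℕ) (f : K Z) :
    (monomial m f).eval (algebraMap ℂ (K Z) y.γ / A.g y.c) =
      f / A.g y.c ^ m * algebraMap ℂ (K Z) y.γ ^ m := by
  rw [eval_monomial, div_pow]
  ring

theorem eval_mem {q : (K Z)[X]} (hq : q ∈ A.B y.x) :
    q.eval (algebraMap ℂ (K Z) y.γ / A.g y.c) ∈ O y.x := by
  rw [q.as_sum_support, eval_finsetSum]
  refine sum_mem fun m _ => ?_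
  rw [eval_monomial_eq]
  exact mul_mem (hq m) (pow_mem ((O y.x).algebraMap_mem _) m)

theorem ev_add {q r : (K Z)[X]} (hq : q ∈ A.B y.x) (hr : r ∈ A.B y.x) :
    y.ev (q + r) = y.ev q + y.ev r := by
  rw [ev, eval_add, y.e.add (y.eval_mem hq) (y.eval_mem hr)]
  rfl

theorem ev_mul {q r : (K Z)[X]} (hq : q ∈ A.B y.x) (hr : r ∈ A.B y.x) :
    y.ev (q * r) = y.ev q * y.ev r := by
  rw [ev, eval_mul, y.e.mul (y.eval_mem hq) (y.eval_mem hr)]
  rfl

theorem ev_pow {q : (K Z)[X]} (hq : q ∈ A.B y.x) (n : ℕ) : y.ev (q ^ n) = y.ev q ^ n := by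
  rw [ev, eval_pow, y.e.pow (y.eval_mem hq)]
  rfl

theorem ev_sum {ι : Type*} (s : Finset ι) {q : ι → (K Z)[X]} (hq : ∀ i ∈ s, q i ∈ A.B y.x) :
    y.ev (∑ i ∈ s, q i) = ∑ i ∈ s, y.ev (q i) := by
  rw [ev, eval_finsetSum, y.e.sum s fun i hi => y.eval_mem (hq i hi)]
  rfl

theorem ev_C (a : K Z) : y.ev (C a) = y.e.v a := by rw [ev, eval_C]

theorem ev_zero : y.ev 0 = 0 := by rw [ev, eval_zero, y.e.zero]

theorem ev_algebraMap (a : ℂ) : y.ev (algebraMap ℂ (K Z)[X] a) = a := by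
  rw [Polynomial.algebraMap_apply, ev_C, y.e.const]

theorem ev_smul (a : ℂ) {q : (K Z)[X]} (hq : q ∈ A.B y.x) : y.ev (a • q) = a * y.ev q := by
  rw [Algebra.smul_def, y.ev_mul ((A.B y.x).algebraMap_mem a) hq, ev_algebraMap]

theorem ev_monomial {m : ℕ} {f : K Z} (hf : A.SecAt m f y.x) :
    y.ev (monomial m f) = y.e.v (f / A.g y.c ^ m) * y.γ ^ m := by
  rw [ev, eval_monomial_eq, y.e.mul hf (pow_mem ((O y.x).algebraMap_mem _) m),
    y.e.pow ((O y.x).algebraMap_mem _), y.e.const]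

theorem ev_monomial_ne_zero {m : ℕ} {f : K Z} (hf : A.SecAt m f y.x) :
    y.ev (monomial m f) ≠ 0 ↔ A.GenAt m f y.x := by
  rw [y.ev_monomial hf, mul_ne_zero_iff, and_iff_left (pow_ne_zero _ y.hγ)]
  exact (y.e.unit hf).symm

theorem tau_mem : monomial 1 (A.g y.c) ∈ A.B y.x := monomial_mem_B (genAt_g y.c y.mem).secAt

theorem ev_tau : y.ev (monomial 1 (A.g y.c)) = y.γ := by
  rw [y.ev_monomial (genAt_g y.c y.mem).secAt, pow_one, div_self (A.g_ne _), y.e.one, one_mul,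
    pow_one]

/-- The point as a homomorphism on the section ring. -/
noncomputable def p : A.R →ₐ[ℂ] ℂ where
  toFun r := y.ev r.1
  map_one' := by simpa using y.ev_algebraMap 1
  map_mul' r s := y.ev_mul (mem_B_of_R r _) (mem_B_of_R s _)
  map_zero' := y.ev_zero
  map_add' r s := y.ev_add (mem_B_of_R r _) (mem_B_of_R s _)
  commutes' a := y.ev_algebraMap a

theorem p_apply (r : A.R) : y.p r = y.ev r.1 := rfl

theorem p_mono_ne_zero {m : ℕ} {f : K Z} (hf : ∀ x, A.SecAt m f x) :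
    y.p (mono hf) ≠ 0 ↔ A.GenAt m f y.x := y.ev_monomial_ne_zero (hf _)

theorem not_isVertex (h : A.IsAmple) : ¬ P292.IsVertex A.grade y.p := by
  obtain ⟨D, σ, hD, h1, h2, -⟩ := h y.x
  exact fun hv => (y.p_mono_ne_zero h1).2 h2 (hv D hD _ (mono_mem h1))

/-- The derivatives at the point. -/
noncomputable def jet (q : (K Z)[X]) (a : Fin (d + 1)) : ℂ := y.ev (lf (A.g y.c) y.c.w a q)

theorem jet_add {q r : (K Z)[X]} (hq : q ∈ A.B y.x) (hr : r ∈ A.B y.x) (a : Fin (d + 1)) :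
    y.jet (q + r) a = y.jet q a + y.jet r a := by
  rw [jet, map_add, y.ev_add (lf_mem_B _ y.mem a hq) (lf_mem_B _ y.mem a hr)]
  rfl

theorem jet_smul (c : ℂ) {q : (K Z)[X]} (hq : q ∈ A.B y.x) (a : Fin (d + 1)) :
    y.jet (c • q) a = c * y.jet q a := by
  rw [jet, Derivation.map_smul, y.ev_smul c (lf_mem_B _ y.mem a hq)]
  rfl

theorem jet_mul {q r : (K Z)[X]} (hq : q ∈ A.B y.x) (hr : r ∈ A.B y.x) (a : Fin (d + 1)) :
    y.jet (q * r) a = y.ev q * y.jet r a + y.ev r * y.jet q a := by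
  have h1 := lf_mem_B (A := A) _ y.mem a hq
  have h2 := lf_mem_B (A := A) _ y.mem a hr
  rw [jet, Derivation.leibniz, smul_eq_mul, smul_eq_mul, y.ev_add (mul_mem hq h2) (mul_mem hr h1),
    y.ev_mul hq h2, y.ev_mul hr h1]
  rfl

theorem jet_algebraMap (c : ℂ) (a : Fin (d + 1)) : y.jet (algebraMap ℂ (K Z)[X] c) a = 0 := by
  rw [jet, Derivation.map_algebraMap, ev_zero]

theorem jet_monomial_zero {m : ℕ} {f : K Z} (hf : A.SecAt m f y.x) :
    y.jet (monomial m f) 0 = m * y.ev (monomial m f) := by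
  rw [jet, lf_zero_monomial, ← C_mul_monomial, y.ev_mul (C_mem_B (natCast_mem _ m))
    (monomial_mem_B hf), ev_C, y.e.natCast]

theorem jet_monomial_succ {m : ℕ} {f : K Z} (hf : A.SecAt m f y.x) (i : Fin d) :
    y.jet (monomial m f) i.succ = y.e.v (y.c.w i (f / A.g y.c ^ m)) * y.γ ^ m := by
  have h : y.c.w i (f / A.g y.c ^ m) * A.g y.c ^ m / A.g y.c ^ m = y.c.w i (f / A.g y.c ^ m) :=
    mul_div_cancel_right₀ _ (pow_ne_zero _ (A.g_ne _))
  rw [jet, lf_succ_monomial (A.g_ne _), y.ev_monomial, h]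
  rw [SecAt, h]
  exact y.c.w_reg _ y.mem i _ hf

theorem jet_C_zero (f : K Z) : y.jet (C f) 0 = 0 := by rw [jet, lf_zero_C, ev_zero]

theorem jet_C_succ (f : K Z) (i : Fin d) : y.jet (C f) i.succ = y.e.v (y.c.w i f) := by
  rw [jet, lf_succ_C, ev_C]

/-- The combination of the derivatives with coefficients `u`. -/
noncomputable def dj (u : Fin (d + 1) → ℂ) : A.R →ₗ[ℂ] ℂ where
  toFun r := ∑ a, u a * y.jet r.1 a
  map_add' r s := by
    rw [← Finset.sum_add_distrib]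
    refine Finset.sum_congr rfl fun a _ => ?_
    rw [AddMemClass.coe_add, y.jet_add (mem_B_of_R r _) (mem_B_of_R s _), mul_add]
  map_smul' c r := by
    rw [RingHom.id_apply, smul_eq_mul, Finset.mul_sum]
    refine Finset.sum_congr rfl fun a _ => ?_
    rw [SetLike.val_smul, y.jet_smul c (mem_B_of_R r _)]
    ring

theorem dj_apply (u : Fin (d + 1) → ℂ) (r : A.R) : y.dj u r = ∑ a, u a * y.jet r.1 a := rfl

theorem sum_jet_mul (u : Fin (d + 1) → ℂ) {q r : (K Z)[X]} (hq : q ∈ A.B y.x) (hr : r ∈ A.B y.x) :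
    ∑ a, u a * y.jet (q * r) a =
      y.ev q * ∑ a, u a * y.jet r a + y.ev r * ∑ a, u a * y.jet q a := by
  rw [Finset.mul_sum, Finset.mul_sum, ← Finset.sum_add_distrib]
  refine Finset.sum_congr rfl fun a _ => ?_
  rw [y.jet_mul hq hr]
  ring

theorem dj_mul (u : Fin (d + 1) → ℂ) (r s : A.R) :
    y.dj u (r * s) = y.p r * y.dj u s + y.p s * y.dj u r :=
  y.sum_jet_mul u (mem_B_of_R r _) (mem_B_of_R s _)

theorem dj_algebraMap (u : Fin (d + 1) → ℂ) (c : ℂ) : y.dj u (algebraMap ℂ A.R c) = 0 := by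
  rw [dj_apply]
  refine Finset.sum_eq_zero fun a _ => ?_
  rw [Subalgebra.coe_algebraMap, jet_algebraMap, mul_zero]

/-- The derivatives of the sections span. -/
theorem eq_zero_of_dj [CompactSpace Z] (h : A.IsAmple) {u : Fin (d + 1) → ℂ}
    (hu : ∀ r, y.dj u r = 0) : u = 0 := by
  obtain ⟨D, σ, -, h1, h2, -, h4⟩ := h.exists_small y.mem
  have key : ∀ (m : ℕ) (f : K Z), (∀ x ∈ y.c.U.1, A.SecAt m f x) →
      ∑ a, u a * y.jet (monomial m f) a = 0 := by
    intro m f hf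
    obtain ⟨k, hk⟩ := mem_away h1 h2.ne_zero fun x hx => hf x (h4 hx)
    have h5 := y.sum_jet_mul u (monomial_mem_B (hf _ y.mem)) (mem_B_of_R (mono h1 ^ k) y.x)
    have h6 : ∑ a, u a * y.jet (monomial m f * (mono h1 ^ k).1) a = 0 := hu ⟨_, hk⟩
    have h7 : ∑ a, u a * y.jet (mono h1 ^ k).1 a = 0 := hu _
    rw [h6, h7, mul_zero, zero_add, ← p_apply, map_pow] at h5
    exact (mul_eq_zero.1 h5.symm).resolve_left (pow_ne_zero _ ((y.p_mono_ne_zero h1).2 h2))
  funext a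
  induction a using Fin.cases with
  | zero =>
    have h5 := key 1 (A.g y.c) fun x hx => (genAt_g _ hx).secAt
    rw [Fin.sum_univ_succ, y.jet_monomial_zero (genAt_g _ y.mem).secAt, ev_tau] at h5
    simp only [y.jet_monomial_succ (genAt_g _ y.mem).secAt, pow_one, div_self (A.g_ne _),
      Derivation.map_one_eq_zero, y.e.zero, zero_mul, mul_zero, Finset.sum_const_zero, add_zero,
      Nat.cast_one, one_mul] at h5
    exact (mul_eq_zero.1 h5).resolve_right y.hγ
  | succ j =>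
    have h5 := key 0 (y.c.t j) fun x hx => secAt_zero_iff.2 (y.c.t_mem x hx j)
    rw [monomial_zero_left, Fin.sum_univ_succ, jet_C_zero] at h5
    simp only [jet_C_succ, y.c.dual, apply_ite y.e.v, y.e.one, y.e.zero, mul_ite, mul_one,
      mul_zero, Finset.sum_ite_eq', Finset.mem_univ, if_true, zero_add] at h5
    exact h5

/-- Every point derivation is a combination of the derivatives. -/
theorem exists_dj [CompactSpace Z] (h : A.IsAmple) (δ : A.R →ₗ[ℂ] ℂ)
    (hδ : ∀ r s, δ (r * s) = y.p r * δ s + y.p s * δ r) : ∃ u, ∀ r, δ r = y.dj u r := by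
  obtain ⟨D, σ, -, h1, h2, h3, h4⟩ := h.exists_small y.mem
  have hδ1 : δ 1 = 0 := by simpa using hδ 1 1
  let φ : A.R →ₐ[ℂ] TrivSqZeroExt ℂ ℂ :=
    { toFun := fun r => (y.p r, δ r)
      map_one' := TrivSqZeroExt.ext (map_one y.p) hδ1
      map_mul' := fun r s => TrivSqZeroExt.ext (map_mul y.p r s) (by
        change δ (r * s) = y.p r * δ s + δ r * y.p s
        rw [hδ, mul_comm (δ r)])
      map_zero' := TrivSqZeroExt.ext (map_zero y.p) (map_zero δ)
      map_add' := fun r s => TrivSqZeroExt.ext (map_add y.p r s) (map_add δ r s)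
      commutes' := fun c => TrivSqZeroExt.ext (y.p.commutes c) (by
        change δ (algebraMap ℂ A.R c) = 0
        rw [Algebra.algebraMap_eq_smul_one, map_smul, hδ1, smul_zero]) }
  have hs : y.p (mono h1) ≠ 0 := (y.p_mono_ne_zero h1).2 h2
  obtain ⟨ψ, hψ⟩ := exists_ext_away φ (s := mono h1)
    (TrivSqZeroExt.isUnit_iff_isUnit_fst.2 (IsUnit.mk0 _ hs))
  have hfst : ∀ q : awayAlg A.R (mono h1), q.1 ∈ A.B y.x → (ψ q).fst = y.ev q.1 := by
    intro q hq
    obtain ⟨k, hk⟩ := q.2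
    have h5 := congrArg TrivSqZeroExt.fst (hψ q k hk)
    rw [TrivSqZeroExt.fst_mul, TrivSqZeroExt.fst_pow] at h5
    have h6 : (ψ q).fst * y.p (mono h1) ^ k = y.ev (q.1 * (mono h1).1 ^ k) := h5
    rw [y.ev_mul hq (pow_mem (mem_B_of_R _ _) k), y.ev_pow (mem_B_of_R _ _)] at h6
    exact mul_right_cancel₀ (pow_ne_zero k hs) h6
  have hx : y.x ∈ A.locus D σ := h2
  have hη := gen_mem hx
  have hC : ∀ a : Γ(Z, A.locus D σ), C (toK _ hη a) ∈ awayAlg A.R (mono h1) := fun a =>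
    mem_away (m := 0) h1 h2.ne_zero fun x hx =>
      secAt_zero_iff.2 (toK_mem (show x ∈ A.locus D σ from hx) hη a)
  let j : Γ(Z, A.locus D σ) →ₐ[ℂ] awayAlg A.R (mono h1) :=
    { toFun := fun a => ⟨_, hC a⟩
      map_one' := Subtype.ext (by simp)
      map_mul' := fun a b => Subtype.ext (by simp)
      map_zero' := Subtype.ext (by simp)
      map_add' := fun a b => Subtype.ext (by simp)
      commutes' := fun c => Subtype.ext (congrArg C (toK_algebraMap _ _ c)) }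
  obtain ⟨s, w, hs', hw, hd, -⟩ := y.c.toFrame.exists_down ⟨_, h3⟩ hη h4
  have hτ : monomial 1 (A.g y.c) ∈ awayAlg A.R (mono h1) :=
    mem_away h1 h2.ne_zero fun x hx => (genAt_g _ (h4 hx)).secAt
  let pA : Γ(Z, A.locus D σ) →ₐ[ℂ] ℂ := (TrivSqZeroExt.fstHom ℂ ℂ ℂ).comp (ψ.comp j)
  have hpA : ∀ a, pA a = y.e.v (toK _ hη a) := fun a =>
    (hfst (j a) (C_mem_B (toK_mem hx hη a))).trans (y.ev_C _)
  let δA : Γ(Z, A.locus D σ) →ₗ[ℂ] ℂ := (TrivSqZeroExt.sndHom ℂ ℂ).comp (ψ.comp j).toLinearMap -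
    ∑ i, (ψ (j (s i))).snd • pA.toLinearMap.comp (w i).toLinearMap
  have hδA : ∀ a, δA a = (ψ (j a)).snd - ∑ i, (ψ (j (s i))).snd * pA (w i a) := by
    intro a
    rw [LinearMap.sub_apply, LinearMap.sum_apply]
    rfl
  have hA : ∀ a, δA a = 0 := by
    refine y.c.toFrame.point_der' ⟨_, h3⟩ hη h4 hs' pA δA (fun a b => ?_) fun i => ?_
    · rw [hδA, hδA, hδA, map_mul, map_mul, TrivSqZeroExt.snd_mul]
      simp only [Derivation.leibniz, smul_eq_mul, map_add, map_mul, mul_add,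
        Finset.sum_add_distrib, mul_sub, Finset.mul_sum, op_smul_eq_mul]
      change pA a * _ + _ * pA b - _ = _
      have e1 : ∀ (a b) (i), (ψ (j (s i))).snd * (pA a * pA (w i b)) =
        pA a * ((ψ (j (s i))).snd * pA (w i b)) := fun a b i => by ring
      simp only [e1]
      ring
    · rw [hδA]
      simp only [hd, apply_ite pA, map_one, map_zero, mul_ite, mul_one, mul_zero,
        Finset.sum_ite_eq', Finset.mem_univ, if_true, sub_self]
  refine ⟨Fin.cons ((ψ ⟨_, hτ⟩).snd / y.γ) fun i => (ψ (j (s i))).snd, fun r => ?_⟩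
  induction r using R_induction with
  | h0 => rw [map_zero, map_zero]
  | hadd r s hr hs => rw [map_add, map_add, hr, hs]
  | hm m f hf =>
    obtain ⟨a, ha⟩ := exists_toK_eq _ hη (f := f / A.g y.c ^ m) fun x hx =>
      (A.secAt_iff _ (h4 hx) m f).1 (hf x)
    have h5 := hψ (j a * ⟨_, hτ⟩ ^ m) 0 (by
      change C (toK _ hη a) * monomial 1 (A.g y.c) ^ m * _ ∈ _
      rw [ha, ← monomial_eq_mul, pow_zero, mul_one]
      exact monomial_mem_R hf)
    have h6 : φ (mono hf) = ψ (j a) * ψ ⟨_, hτ⟩ ^ m := by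
      rw [pow_zero, mul_one, map_mul, map_pow] at h5
      rw [h5]
      congr 1
      apply Subtype.ext
      change monomial m f = C (toK _ hη a) * monomial 1 (A.g y.c) ^ m * _
      rw [ha, ← monomial_eq_mul, pow_zero, mul_one]
    have h7 : δ (mono hf) = (ψ (j a) * ψ ⟨_, hτ⟩ ^ m).snd := congrArg TrivSqZeroExt.snd h6
    have h8 := hA a
    rw [hδA, sub_eq_zero] at h8
    rw [h7, TrivSqZeroExt.snd_mul, TrivSqZeroExt.snd_pow, TrivSqZeroExt.fst_pow,
      hfst ⟨_, hτ⟩ y.tau_mem, h8, dj_apply, Fin.sum_univ_succ]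
    change pA a • _ + _ = _ * y.jet (monomial m f) 0 + ∑ i, _ * y.jet (monomial m f) (Fin.succ i)
    simp only [y.jet_monomial_zero (hf _), y.jet_monomial_succ (hf _), y.ev_monomial (hf _),
      Fin.cons_zero, Fin.cons_succ, hpA, ha, ev_tau, smul_eq_mul, op_smul_eq_mul,
      nsmul_eq_mul, Finset.sum_mul, mul_assoc]
    congr 1
    · have := y.hγ
      cases m with
      | zero => simp
      | succ n =>
        rw [Nat.pred_succ, pow_succ y.γ]
        field_simp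
    · refine Finset.sum_congr rfl fun i _ => ?_
      rw [← hw, ← ha, ext_toK]

end Pt

/-- Every point of the cone other than the vertex lies over a closed point. -/
theorem exists_pt [IsProper (Z ↘ SpecC)] (h : A.IsAmple) (p : A.R →ₐ[ℂ] ℂ)
    (hp : ¬ P292.IsVertex A.grade p) : ∃ y : A.Pt, y.p = p := by
  have := compactSpace_of_proper (Z := Z)
  obtain ⟨k, hk, r, hr, hpr⟩ : ∃ k, 0 < k ∧ ∃ r ∈ A.grade k, p r ≠ 0 := by
    by_contra hcon
    push Not at hcon
    exact hp hcon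
  let ι : A.R →+* KT (K Z) := (iT (K Z) : (K Z)[X] →+* KT (K Z)).comp (algebraMap A.R (K Z)[X])
  obtain ⟨W, hW1, hW2, hW3⟩ := P271.Sch.exists_valuation ι (RingHom.ker p)
    (RingHom.ker_isMaximal_of_surjective p fun c => ⟨algebraMap ℂ _ c, p.commutes c⟩)
    (iT_injective.comp Subtype.val_injective)
  obtain ⟨x₀, hx₀⟩ := exists_center_KT W fun c =>
    ((iT (K Z)).commutes c) ▸ hW1 (algebraMap ℂ A.R c)
  obtain ⟨D, σ, hD, h1, h2, h3, h4⟩ := h.exists_small (A.mem x₀)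
  set c := A.ch x₀
  have hs : p (mono h1) ≠ 0 := by
    intro h0
    have h5 : W.valuation (iT (K Z) (monomial D σ)) < 1 := hW2 (mono h1) h0
    have h6 : W.valuation (iT (K Z) r.1) = 1 := hW3 r hpr
    have h7 := congrArg W.valuation (monomial_pow_eq (D := D) (m := k) h2.ne_zero (r.1.coeff k))
    rw [← eq_monomial hr, map_pow, h6, one_pow, map_mul, map_pow] at h7
    have h8 := (W.valuation_le_one_iff _).2 (hx₀ _ (pow_div_mem h2 (secAt_coeff r k x₀)))
    have h9 := mul_lt_one_of_nonneg_of_lt_one_right h8 zero_le (pow_lt_one₀ zero_le h5 hk.ne')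
    exact h9.ne h7.symm
  obtain ⟨ψ, hψ⟩ := exists_ext_away p (s := mono h1) (IsUnit.mk0 _ hs)
  have hη := gen_mem (show x₀ ∈ A.locus D σ from h2)
  have hC : ∀ a : Γ(Z, A.locus D σ), C (toK _ hη a) ∈ awayAlg A.R (mono h1) := fun a =>
    mem_away (m := 0) h1 h2.ne_zero fun x hx =>
      secAt_zero_iff.2 (toK_mem (show x ∈ A.locus D σ from hx) hη a)
  let j : Γ(Z, A.locus D σ) →ₐ[ℂ] awayAlg A.R (mono h1) :=
    { toFun := fun a => ⟨_, hC a⟩
      map_one' := Subtype.ext (by simp)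
      map_mul' := fun a b => Subtype.ext (by simp)
      map_zero' := Subtype.ext (by simp)
      map_add' := fun a b => Subtype.ext (by simp)
      commutes' := fun c => Subtype.ext (congrArg C (toK_algebraMap _ _ c)) }
  have hτ : monomial 1 (A.g c) ∈ awayAlg A.R (mono h1) :=
    mem_away h1 h2.ne_zero fun x hx => (genAt_g _ (h4 hx)).secAt
  obtain ⟨x, hx, e, he⟩ := exists_val_of_hom h3 hη (ψ.comp j)
  have key : ∀ (m : ℕ) (f : K Z) (hf : ∀ x, A.SecAt m f x),
      p (mono hf) = e.v (f / A.g c ^ m) * ψ ⟨_, hτ⟩ ^ m := by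
    intro m f hf
    obtain ⟨a, ha⟩ := exists_toK_eq _ hη (f := f / A.g c ^ m) fun x hx =>
      (A.secAt_iff _ (h4 hx) m f).1 (hf x)
    have h5 := hψ (j a * ⟨_, hτ⟩ ^ m) 0 (by
      change C (toK _ hη a) * monomial 1 (A.g c) ^ m * _ ∈ _
      rw [ha, ← monomial_eq_mul, pow_zero, mul_one]
      exact monomial_mem_R hf)
    rw [pow_zero, mul_one, map_mul, map_pow] at h5
    rw [← ha, he]
    refine Eq.trans ?_ h5.symm
    congr 1
    apply Subtype.ext
    change monomial m f = C (toK _ hη a) * monomial 1 (A.g c) ^ m * _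
    rw [ha, ← monomial_eq_mul, pow_zero, mul_one]
  have hγ : ψ ⟨_, hτ⟩ ≠ 0 := by
    intro h0
    rw [key, h0, zero_pow hD.ne', mul_zero] at hs
    exact hs rfl
  have hu := A.isU_g_div (A.ch x) c (A.mem x) (h4 hx)
  refine ⟨⟨x, e, e.v (A.g (A.ch x) / A.g c) * ψ ⟨_, hτ⟩, mul_ne_zero ((e.unit hu.mem).1 hu) hγ⟩,
    AlgHom.ext fun q => ?_⟩
  induction q using R_induction with
  | h0 => rw [map_zero, map_zero]
  | hadd r s hr hs => rw [map_add, map_add, hr, hs]
  | hm m f hf =>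
    rw [Pt.p_apply]
    change Pt.ev _ (monomial m f) = _
    rw [Pt.ev_monomial _ (hf _)]
    change e.v (f / A.g (A.ch x) ^ m) * (e.v _ * _) ^ m = _
    rw [key, mul_pow, ← mul_assoc, ← e.pow hu.mem, ← e.mul (hf x) (pow_mem hu.mem m), div_pow,
      div_mul_div_cancel₀ (pow_ne_zero _ (A.g_ne _))]

end Atlas

end Vale.Agent.P292Z
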