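import Vale.Agent.P292Z.Ample
import Vale.Agent.P292Z.FinGen

/-!
# The section ring of the contact line bundle
-/

open AlgebraicGeometry CategoryTheory TopologicalSpace Opposite Polynomial DirectSum

namespace Vale.Agent.P292Z

variable {Z : Scheme.{0}} [IsIntegral Z] [Z.Over SpecC] {F : Distribution Z} {d : ℕ}

namespace Atlas

variable (A : Atlas F d)

/-- The functions on the cone which are regular along the fibre over `x`. -/
noncomputable def B (x : Z) : Subalgebra ℂ (K Z)[X] where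
  carrier := {f | ∀ m, A.SecAt m (f.coeff m) x}
  mul_mem' := by
    intro f g hf hg m
    rw [Polynomial.coeff_mul, SecAt, Finset.sum_div]
    refine sum_mem fun ij hij => ?_
    have h := (hf ij.1).mul (hg ij.2)
    rwa [Finset.HasAntidiagonal.mem_antidiagonal.1 hij] at h
  add_mem' := by
    intro f g hf hg m
    rw [Polynomial.coeff_add]
    exact (hf m).add (hg m)
  algebraMap_mem' := by
    intro c m
    rw [Polynomial.algebraMap_apply, Polynomial.coeff_C]
    split_ifs with h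
    · rw [h]
      exact secAt_zero_iff.2 ((O x).algebraMap_mem c)
    · exact secAt_zero _ _

/-- The section ring. -/
noncomputable def R : Subalgebra ℂ (K Z)[X] := ⨅ x, A.B x

variable {A}

theorem mem_B {x : Z} {f : (K Z)[X]} : f ∈ A.B x ↔ ∀ m, A.SecAt m (f.coeff m) x := Iff.rfl

theorem mem_R {f : (K Z)[X]} : f ∈ A.R ↔ ∀ x, f ∈ A.B x := Algebra.mem_iInf

theorem mem_B_of_R (f : A.R) (x : Z) : f.1 ∈ A.B x := mem_R.1 f.2 x

theorem secAt_coeff (f : A.R) (m : ℕ) (x : Z) : A.SecAt m (f.1.coeff m) x := mem_B_of_R f x m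

theorem monomial_mem_B {x : Z} {m : ℕ} {a : K Z} (ha : A.SecAt m a x) : monomial m a ∈ A.B x := by
  intro k
  rw [Polynomial.coeff_monomial]
  split_ifs with h
  · rwa [← h]
  · exact secAt_zero _ _

theorem C_mem_B {x : Z} {a : K Z} (ha : a ∈ O x) : C a ∈ A.B x :=
  monomial_mem_B (secAt_zero_iff.2 ha)

theorem monomial_mem_R {m : ℕ} {a : K Z} (ha : ∀ x, A.SecAt m a x) : monomial m a ∈ A.R :=
  mem_R.2 fun x => monomial_mem_B (ha x)

/-- The homogeneous element `a T ^ m`. -/
noncomputable def mono {m : ℕ} {a : K Z} (ha : ∀ x, A.SecAt m a x) : A.R :=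
  ⟨monomial m a, monomial_mem_R ha⟩

variable (A) in
/-- The homogeneous elements of degree `m`. -/
noncomputable def grade (m : ℕ) : Submodule ℂ A.R where
  carrier := {f | ∀ k, k ≠ m → f.1.coeff k = 0}
  add_mem' := by
    intro f g hf hg k hk
    change (f.1 + g.1).coeff k = 0
    rw [Polynomial.coeff_add, hf k hk, hg k hk, add_zero]
  zero_mem' := fun k _ => Polynomial.coeff_zero k
  smul_mem' := by
    intro c f hf k hk
    change (c • f.1).coeff k = 0
    rw [Polynomial.coeff_smul, hf k hk, smul_zero]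

theorem eq_monomial {m : ℕ} {f : A.R} (hf : f ∈ A.grade m) : f.1 = monomial m (f.1.coeff m) := by
  ext k
  rw [Polynomial.coeff_monomial]
  split_ifs with h
  · rw [h]
  · exact hf k (Ne.symm h)

theorem mem_grade_of_eq {m : ℕ} {f : A.R} {a : K Z} (h : f.1 = monomial m a) : f ∈ A.grade m := by
  intro k hk
  rw [h, Polynomial.coeff_monomial, if_neg (Ne.symm hk)]

theorem mono_mem {m : ℕ} {a : K Z} (ha : ∀ x, A.SecAt m a x) : mono ha ∈ A.grade m :=
  mem_grade_of_eq rfl

instance gradedMonoid : SetLike.GradedMonoid A.grade where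
  one_mem := by
    intro k hk
    change (1 : (K Z)[X]).coeff k = 0
    rw [Polynomial.coeff_one, if_neg hk]
  mul_mem := by
    intro i j f g hf hg k hk
    change (f.1 * g.1).coeff k = 0
    rw [eq_monomial hf, eq_monomial hg, Polynomial.monomial_mul_monomial, Polynomial.coeff_monomial,
      if_neg (Ne.symm hk)]

theorem coeff_coe (x : ⨁ i, A.grade i) (i : ℕ) :
    ((DirectSum.coeAddMonoidHom A.grade x : A.R) : (K Z)[X]).coeff i =
      ((x i : A.R) : (K Z)[X]).coeff i := by
  induction x using DirectSum.induction_on with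
  | zero =>
    rw [map_zero]
    rfl
  | of j y =>
    rw [DirectSum.coeAddMonoidHom_of]
    by_cases h : j = i
    · subst h
      rw [DirectSum.of_eq_same]
    · rw [DirectSum.of_eq_of_ne _ _ _ (Ne.symm h)]
      exact y.2 i (Ne.symm h)
  | add x y hx hy =>
    rw [map_add, DirectSum.add_apply]
    rw [AddMemClass.coe_add, AddMemClass.coe_add, AddMemClass.coe_add, Polynomial.coeff_add,
      Polynomial.coeff_add, hx, hy]

theorem eq_sum_mono (f : A.R) : f = ∑ i ∈ f.1.support, mono (secAt_coeff f i) := by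
  apply Subtype.ext
  rw [AddSubmonoidClass.coe_finsetSum]
  exact Polynomial.as_sum_support f.1

theorem isInternal : DirectSum.IsInternal A.grade := by
  classical
  constructor
  · intro x y hxy
    refine DFinsupp.ext fun i => ?_
    have h := coeff_coe x i
    rw [hxy, coeff_coe y i] at h
    apply Subtype.ext
    apply Subtype.ext
    rw [eq_monomial (x i).2, eq_monomial (y i).2, ← h]
  · intro f
    refine ⟨∑ i ∈ f.1.support, DirectSum.of (fun i => A.grade i) i
      ⟨mono (secAt_coeff f i), mono_mem _⟩, ?_⟩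
    rw [map_sum]
    simp only [DirectSum.coeAddMonoidHom_of]
    exact (eq_sum_mono f).symm

noncomputable instance gradedAlgebra : GradedAlgebra A.grade where
  toDecomposition := isInternal.chooseDecomposition

/-- Induction on the homogeneous elements. -/
theorem R_induction {P : A.R → Prop} (h0 : P 0) (hadd : ∀ f g, P f → P g → P (f + g))
    (hm : ∀ (m : ℕ) (a : K Z) (ha : ∀ x, A.SecAt m a x), P (mono ha)) (f : A.R) : P f := by
  rw [eq_sum_mono f]
  exact Finset.sum_induction _ P hadd h0 fun i _ => hm _ _ _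

omit [IsIntegral Z] in
theorem _root_.Vale.Agent.P292Z.compactSpace_of_proper [IsProper (Z ↘ SpecC)] : CompactSpace Z :=
  QuasiCompact.compactSpace_of_compactSpace (Z ↘ SpecC)

theorem _root_.Vale.Agent.P292Z.exists_const [IsProper (Z ↘ SpecC)] {f : K Z}
    (hf : ∀ x, f ∈ O x) : ∃ c : ℂ, f = algebraMap ℂ (K Z) c := by
  obtain ⟨s, rfl⟩ := exists_toK_eq ⊤ trivial fun x _ => hf x
  have h1 : (Z ↘ SpecC).appTop.hom.IsIntegral := isIntegral_appTop_of_universallyClosed _
  have h2 : (algebraMap ℂ Γ(Z, ⊤)) = (Z ↘ SpecC).appTop.hom.comp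
      (Scheme.ΓSpecIso (CommRingCat.of ℂ)).symm.commRingCatIsoToRingEquiv.toRingHom := by
    ext c
    change Z.presheaf.map (𝟙 _) _ = _
    rw [Z.presheaf.map_id]
    rfl
  have h3 : (algebraMap ℂ Γ(Z, ⊤)).IsIntegral := by
    rw [h2]
    exact RingHom.isIntegral_respectsIso.2 _ _ h1
  have : Algebra.IsIntegral ℂ Γ(Z, ⊤) := ⟨h3⟩
  have : Nonempty (⊤ : Z.Opens) := ⟨⟨genericPoint Z, trivial⟩⟩
  obtain ⟨c, rfl⟩ := (IsAlgClosed.algebraMap_bijective_of_isIntegral (k := ℂ)
    (K := Γ(Z, ⊤))).2 s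
  exact ⟨c, toK_algebraMap _ _ c⟩

theorem grade_zero [IsProper (Z ↘ SpecC)] (f : A.R) (hf : f ∈ A.grade 0) :
    ∃ c : ℂ, f = algebraMap ℂ A.R c := by
  obtain ⟨c, hc⟩ := exists_const fun x => secAt_zero_iff.1 (secAt_coeff f 0 x)
  refine ⟨c, Subtype.ext ?_⟩
  rw [eq_monomial hf, hc]
  rfl

attribute [local instance] Polynomial.algebra in
theorem R_normal : IsIntegrallyClosed A.R := by
  have : IsIntegrallyClosedIn A.R (K Z)[X] := by
    refine isIntegrallyClosedIn_iff.2 ⟨Subtype.val_injective, ?_⟩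
    rintro q ⟨P, hP, hPq⟩
    refine ⟨⟨q, mem_R.2 fun x n => ?_⟩, rfl⟩
    let sc : (K Z)[X] →+* (K Z)[X] := compRingHom (C (A.g (A.ch x))⁻¹ * X)
    have hsc : ∀ (r : (K Z)[X]) (k : ℕ), (sc r).coeff k = r.coeff k / A.g (A.ch x) ^ k := by
      intro r k
      change (r.comp _).coeff k = _
      rw [comp_C_mul_X_coeff, inv_pow, div_eq_mul_inv]
    let φ : A.R →+* (K Z)[X] := sc.comp (algebraMap A.R (K Z)[X])
    have h1 : P.map φ ∈ lifts (algebraMap (O x)[X] (K Z)[X]) := by
      rw [lifts_iff_coeff_lifts]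
      intro k
      rw [coeff_map]
      have h2 : φ (P.coeff k) ∈ lifts (algebraMap (O x) (K Z)) := by
        rw [lifts_iff_coeff_lifts]
        intro l
        refine ⟨⟨_, secAt_coeff (P.coeff k) l x⟩, ?_⟩
        exact (hsc _ l).symm
      exact h2
    obtain ⟨Q, hQ, -, hQm⟩ := lifts_and_degree_eq_and_monic h1 (hP.map φ)
    have h2 : IsIntegral (O x)[X] (sc q) := by
      refine ⟨Q, hQm, ?_⟩
      rw [← Polynomial.eval_map, hQ, Polynomial.eval_map, ← hom_eval₂, hPq, map_zero]
    have h3 := h2.coeff n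
    rw [hsc] at h3
    exact (A.ch x).normal x (A.mem x) _ h3
  exact IsIntegrallyClosed.of_isIntegrallyClosed_of_isIntegrallyClosedIn A.R (K Z)[X]

theorem exists_generators [IsProper (Z ↘ SpecC)] (h : A.IsAmple) : ∃ T : Finset (K Z)[X],
    (∀ f ∈ T, f ∈ A.R) ∧ ∀ S : Subfield (KT (K Z)), (∀ c : ℂ, algebraMap ℂ (KT (K Z)) c ∈ S) →
      (∀ f ∈ T, iT (K Z) f ∈ S) → S = ⊤ := by
  classical
  have := compactSpace_of_proper (Z := Z)
  set c := A.ch (genericPoint Z)
  obtain ⟨D, σ, hD, h1, h2, h3, h4⟩ := h.exists_small (A.mem (genericPoint Z))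
  have hη : genericPoint Z ∈ A.locus D σ := h2
  obtain ⟨G, hG⟩ := (finiteType_sections (X := Z) ⟨_, h3⟩).out
  have h5 : ∀ a : Γ(Z, A.locus D σ), ∃ k, ∀ x, A.SecAt (0 + D * k) (toK _ hη a * σ ^ k) x := by
    intro a
    obtain ⟨k, hk⟩ := exists_extend (m := 0) (f := toK _ hη a) h1 h2.ne_zero fun y hy =>
      secAt_zero_iff.2 (toK_mem (show y ∈ A.locus D σ from hy) hη a)
    exact ⟨k, hk k le_rfl⟩
  choose k hk using h5
  obtain ⟨l, hl⟩ := exists_extend (m := 1) (f := A.g c) h1 h2.ne_zero fun y hy =>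
    (genAt_g c (h4 hy)).secAt
  refine ⟨insert (monomial D σ) (insert (monomial (1 + D * l) (A.g c * σ ^ l))
    (G.image fun a => monomial (0 + D * k a) (toK _ hη a * σ ^ k a))), fun f hf => ?_,
    fun S hS hT => ?_⟩
  · rcases Finset.mem_insert.1 hf with rfl | hf
    · exact monomial_mem_R h1
    rcases Finset.mem_insert.1 hf with rfl | hf
    · exact monomial_mem_R (hl l le_rfl)
    obtain ⟨a, -, rfl⟩ := Finset.mem_image.1 hf
    exact monomial_mem_R (hk a)
  · have hs : iT (K Z) (monomial D σ) ∈ S := hT _ (Finset.mem_insert_self _ _)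
    have hs0 : iT (K Z) (monomial D σ) ≠ 0 :=
      (map_ne_zero_iff _ iT_injective).2 ((monomial_eq_zero_iff _ _).not.2 h2.ne_zero)
    have key : ∀ (m n : ℕ) (f : K Z), iT (K Z) (monomial (m + D * n) (f * σ ^ n)) ∈ S →
        iT (K Z) (monomial m f) ∈ S := by
      intro m n f hf
      have e : iT (K Z) (monomial m f) = iT (K Z) (monomial (m + D * n) (f * σ ^ n)) /
          iT (K Z) (monomial D σ) ^ n := by
        rw [eq_div_iff (pow_ne_zero _ hs0), ← map_pow, ← map_mul, monomial_pow,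
          monomial_mul_monomial]
      rw [e]
      exact S.div_mem hf (S.pow_mem hs n)
    have hA : ∀ a : Γ(Z, A.locus D σ), iT (K Z) (C (toK _ hη a)) ∈ S := by
      intro a
      have ha : a ∈ Algebra.adjoin ℂ (G : Set Γ(Z, A.locus D σ)) := by
        rw [hG]
        trivial
      induction ha using Algebra.adjoin_induction with
      | mem a ha =>
        exact key 0 _ _ (hT _ (Finset.mem_insert_of_mem (Finset.mem_insert_of_mem
          (Finset.mem_image_of_mem _ ha))))
      | algebraMap r =>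
        rw [toK_algebraMap]
        exact ((iT (K Z)).commutes r).symm ▸ hS r
      | add x y _ _ hx hy =>
        rw [map_add, map_add, map_add]
        exact S.add_mem hx hy
      | mul x y _ _ hx hy =>
        rw [map_mul, map_mul, map_mul]
        exact S.mul_mem hx hy
    have hK : ∀ f : K Z, iT (K Z) (C f) ∈ S := by
      intro f
      obtain ⟨a, b, hb, hab⟩ := exists_frac' h3 hη f
      have e : iT (K Z) (C f) = iT (K Z) (C (toK _ hη a)) / iT (K Z) (C (toK _ hη b)) := by
        rw [eq_div_iff (iT_C_ne_zero hb), ← map_mul, ← map_mul, hab]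
      rw [e]
      exact S.div_mem (hA a) (hA b)
    have hX : iT (K Z) X ∈ S := by
      have h6 : tau (A.g c) ∈ S :=
        key 1 _ _ (hT _ (Finset.mem_insert_of_mem (Finset.mem_insert_self _ _)))
      have e : iT (K Z) X = tau (A.g c) / iT (K Z) (C (A.g c)) := by
        rw [tau_eq, mul_div_cancel_left₀ _ (iT_C_ne_zero (A.g_ne c))]
      rw [e]
      exact S.div_mem h6 (hK _)
    have h7 : ∀ p : (K Z)[X], iT (K Z) p ∈ S := by
      intro p
      induction p using Polynomial.induction_on' with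
      | add p q hp hq =>
        rw [map_add]
        exact S.add_mem hp hq
      | monomial n a =>
        rw [← C_mul_X_pow_eq_monomial, map_mul, map_pow]
        exact S.mul_mem (hK a) (S.pow_mem hX n)
    rw [eq_top_iff]
    intro a _
    obtain ⟨p, q, -, rfl⟩ := IsFractionRing.div_surjective (A := (K Z)[X]) a
    exact S.div_mem (h7 p) (h7 q)

theorem exists_center_KT [IsProper (Z ↘ SpecC)] (W : ValuationSubring (KT (K Z)))
    (hW : ∀ c : ℂ, algebraMap ℂ (KT (K Z)) c ∈ W) : ∃ x : Z, ∀ f ∈ O x, iT (K Z) (C f) ∈ W :=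
  exists_center (W.comap ((iT (K Z) : (K Z)[X] →+* KT (K Z)).comp C)) fun c =>
    show iT (K Z) (C (algebraMap ℂ (K Z) c)) ∈ W from ((iT (K Z)).commutes c).symm ▸ hW c

theorem monomial_pow_eq {D m : ℕ} {σ : K Z} (hσ : σ ≠ 0) (a : K Z) :
    iT (K Z) (monomial m a) ^ D =
      iT (K Z) (C (a ^ D / σ ^ m)) * iT (K Z) (monomial D σ) ^ m := by
  rw [← map_pow (iT (K Z)), ← map_pow (iT (K Z)), ← map_mul (iT (K Z)), monomial_pow, monomial_pow,
    C_mul_monomial,
    div_mul_cancel₀ _ (pow_ne_zero _ hσ), mul_comm m D]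

theorem pow_div_mem {D m : ℕ} {σ a : K Z} {x : Z} (hσ : A.GenAt D σ x) (ha : A.SecAt m a x) :
    a ^ D / σ ^ m ∈ O x :=
  (hσ.pow m).div_mem (mul_comm m D ▸ ha.pow D)

theorem R_finiteType [IsProper (Z ↘ SpecC)] (h : A.IsAmple) : Algebra.FiniteType ℂ A.R := by
  classical
  have := compactSpace_of_proper (Z := Z)
  obtain ⟨T, hT, hgen⟩ := exists_generators h
  choose D σ hD h1 h2 h3 using h
  obtain ⟨I, hI⟩ := isCompact_univ.elim_finite_subcover
    (fun y : Z => (A.locus (D y) (σ y) : Set Z)) (fun y => (A.locus (D y) (σ y)).isOpen)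
    fun x _ => Set.mem_iUnion.2 ⟨x, h2 x⟩
  let T' : Finset (K Z)[X] := T ∪ I.image fun y => monomial (D y) (σ y)
  let P : Subalgebra ℂ (KT (K Z)) := Algebra.adjoin ℂ (T'.image (iT (K Z)) : Finset (KT (K Z)))
  have hP : ∀ f ∈ T', iT (K Z) f ∈ P := fun f hf =>
    Algebra.subset_adjoin (Finset.mem_coe.2 (Finset.mem_image_of_mem _ hf))
  refine (Subalgebra.fg_iff_finiteType _).1
    (Subalgebra.fg_of_fg_map A.R (iT (K Z)) iT_injective ?_)
  refine fg_of_valuation P _ ⟨_, rfl⟩ ?_ ?_ ?_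
  · refine Algebra.adjoin_le fun z hz => ?_
    obtain ⟨f, hf, rfl⟩ := Finset.mem_image.1 (Finset.mem_coe.1 hz)
    refine ⟨f, ?_, rfl⟩
    rcases Finset.mem_union.1 hf with hf | hf
    · exact hT f hf
    · obtain ⟨y, -, rfl⟩ := Finset.mem_image.1 hf
      exact monomial_mem_R (h1 y)
  · exact fun S hS1 hS2 => hgen S hS1 fun f hf => hS2 _ (hP f (Finset.mem_union_left _ hf))
  · rintro _ ⟨f, hf, rfl⟩ W hW
    obtain ⟨x, hx⟩ := exists_center_KT W fun c => hW _ (P.algebraMap_mem c)
    obtain ⟨y, hy, hxy⟩ := Set.mem_iUnion₂.1 (hI (Set.mem_univ x))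
    have hs : iT (K Z) (monomial (D y) (σ y)) ∈ W :=
      hW _ (hP _ (Finset.mem_union_right _ (Finset.mem_image_of_mem _ hy)))
    change iT (K Z) f ∈ W
    rw [f.as_sum_support, map_sum]
    refine W.toSubring.sum_mem fun m _ => mem_of_pow_mem W (hD y) ?_
    rw [monomial_pow_eq (h2 y).ne_zero]
    exact W.mul_mem _ _ (hx _ (pow_div_mem hxy (mem_R.1 hf x m))) (W.toSubring.pow_mem hs m)

theorem exists_quotient [IsProper (Z ↘ SpecC)] (h : A.IsAmple) (z : KT (K Z)) :
    ∃ a b : A.R, iT (K Z) a.1 / iT (K Z) b.1 = z := by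
  obtain ⟨T, hT, hgen⟩ := exists_generators h
  let ι : A.R →+* KT (K Z) := (iT (K Z) : (K Z)[X] →+* KT (K Z)).comp (algebraMap A.R (K Z)[X])
  have h1 := hgen (Subfield.closure (ι.range : Set (KT (K Z))))
    (fun c => Subfield.subset_closure ⟨algebraMap ℂ A.R c, (iT (K Z)).commutes c⟩)
    fun f hf => Subfield.subset_closure ⟨⟨f, hT f hf⟩, rfl⟩
  have h2 : z ∈ Subfield.closure (ι.range : Set (KT (K Z))) := by
    rw [h1]
    trivial
  obtain ⟨y, hy, y', hy', rfl⟩ := Subfield.mem_closure_iff.1 h2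
  rw [Subring.closure_eq] at hy hy'
  obtain ⟨a, rfl⟩ := hy
  obtain ⟨b, rfl⟩ := hy'
  exact ⟨a, b, rfl⟩

theorem _root_.Vale.Agent.P292Z.trdeg_eq_of_quotient {R L : Type} [CommRing R] [Algebra ℂ R]
    [Field L] [Algebra ℂ L] (ι : R →ₐ[ℂ] L) (hι : Function.Injective ι)
    (h : ∀ z, ∃ a b, ι a / ι b = z) : Algebra.trdeg ℂ R = Algebra.trdeg ℂ L := by
  let _ : Algebra R L := (ι : R →+* L).toAlgebra
  have : IsScalarTower ℂ R L := IsScalarTower.of_algebraMap_eq fun c => (ι.commutes c).symm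
  have : Nontrivial R := ι.toRingHom.domain_nontrivial
  have : IsDomain R := hι.isDomain ι
  have : FaithfulSMul R L := (faithfulSMul_iff_algebraMap_injective _ _).2 hι
  have : Algebra.IsAlgebraic R L := ⟨fun z => by
    obtain ⟨a, b, rfl⟩ := h z
    rw [div_eq_mul_inv]
    exact (isAlgebraic_algebraMap a).mul (isAlgebraic_algebraMap b).inv⟩
  have h1 := trdeg_add_eq ℂ R (A := L)
  rwa [trdeg_eq_zero (R := R), add_zero] at h1

theorem le_trdeg [IsProper (Z ↘ SpecC)] (h : A.IsAmple) :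
    (d : Cardinal) ≤ Algebra.trdeg ℂ A.R := by
  rw [trdeg_eq_of_quotient ((iT (K Z)).comp A.R.val) (iT_injective.comp Subtype.val_injective)
    (exists_quotient h)]
  let j : K Z →ₐ[ℂ] KT (K Z) := (iT (K Z)).comp ((CAlgHom (R := K Z)).restrictScalars ℂ)
  have h2 := ((A.ch (genericPoint Z)).indep.map' (f := j) j.injective).cardinalMk_le_trdeg
  rwa [Cardinal.mk_fin] at h2

end Atlas

end Vale.Agent.P292Z
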